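import Vale.Agent.P200.Avg.Final

/-!
A regular sequence filling all variables has no common zero, and identities between tensors
follow from their values.
-/

namespace Vale.Agent.P200.Prime

open MvPolynomial Module
open scoped TensorProduct

variable {K : Type*} [Field K] {n : ℕ}

/-- As many forms as variables forming a regular sequence vanish together only at the origin. -/
lemma eq_zero_of_common_zero {a : Fin n → ℕ} (ha : ∀ i, 0 < a i)
    {f : Fin n → MvPolynomial (Fin n) K} (hf : ∀ i, (f i).IsHomogeneous (a i))
    (hreg : RegList ⊥ (List.ofFn f)) (c : Fin n → K) (hc : ∀ i, eval c (f i) = 0) : c = 0 := by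
  classical
  obtain ⟨N, hN, hall⟩ := Avg.exists_average le_rfl ha hf hreg
  set I := Ideal.span (Set.range f)
  obtain ⟨s, hs, hdim⟩ := hall I fun i => Ideal.subset_span ⟨i, rfl⟩
  set d := ∑ i, a i + 1 with hd
  have hfull : ∀ j : Fin N, degPart d (Ideal.span ((fun e => monomial e (1 : K)) '' s j)) =
      homogeneousSubmodule (Fin n) K d := by
    intro j
    refine le_antisymm inf_le_left fun u hu => mem_degPart.2 ⟨hu, ?_⟩
    rw [mem_ideal_span_monomial_image]
    intro e he
    have hed : ∑ i, e i = d := by
      rw [← Finsupp.degree_eq_sum, Finsupp.degree_eq_weight_one]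
      exact hu (mem_support_iff.1 he)
    obtain ⟨i, hi⟩ : ∃ i, a i ≤ e i := by
      by_contra hne
      push Not at hne
      have := Finset.sum_le_sum (s := Finset.univ) fun i _ => (hne i).le
      omega
    exact ⟨_, hs j i, Finsupp.single_le_iff.2 (by simpa using hi)⟩
  have h := hdim d
  rw [Finset.sum_congr rfl fun j _ => congrArg (fun W : Submodule K _ => finrank K W) (hfull j)] at h
  simp only [Finset.sum_const, Finset.card_univ, Fintype.card_fin, smul_eq_mul] at h
  have heq : degPart d I = homogeneousSubmodule (Fin n) K d :=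
    Submodule.eq_of_le_of_finrank_eq inf_le_left (mul_left_cancel₀ hN.ne' h).symm
  funext i
  have hX : (X i : MvPolynomial (Fin n) K) ^ d ∈ degPart d I := by
    rw [heq]; exact isHomogeneous_X_pow i d
  have hle : I ≤ RingHom.ker (eval c) := Ideal.span_le.2 fun _ ⟨l, hl⟩ => hl ▸ hc l
  have h0 : eval c ((X i : MvPolynomial (Fin n) K) ^ d) = 0 := hle (mem_degPart.1 hX).2
  rw [map_pow, eval_X] at h0
  exact (pow_eq_zero_iff (by omega)).1 h0

end Vale.Agent.P200.Prime
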