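import Vale.Agent.P200.Prime.Model
import Mathlib.RingTheory.Localization.FractionRing
import Mathlib.RingTheory.TensorProduct.Free
import Mathlib.RingTheory.Flat.Basic

/-!
Localisation of an algebra over the parameters.
-/

namespace Vale.Agent.P200.Prime

open MvPolynomial Module
open scoped TensorProduct

universe u

variable {K : Type u} [Field K] {r : ℕ}

/-- The field of fractions of the parameters. -/
abbrev Fr (K : Type u) [Field K] (r : ℕ) : Type u := FractionRing (Par K r)

variable {R : Type u} [Ring R] [Algebra (Par K r) R]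

/-- The localised algebra. -/
abbrev Loc (K : Type u) [Field K] (r : ℕ) (R : Type u) [Ring R] [Algebra (Par K r) R] : Type u :=
  Fr K r ⊗[Par K r] R

/-- The map to the localised algebra. -/
noncomputable def toL : R →ₐ[Par K r] Loc K r R := Algebra.TensorProduct.includeRight

lemma toL_injective [Module.Free (Par K r) R] : Function.Injective (toL : R → Loc K r R) :=
  Algebra.TensorProduct.includeRight_injective (IsFractionRing.injective (Par K r) (Fr K r))

lemma smul_cancel {s : Par K r} (hs : s ≠ 0) {z : Loc K r R} (hz : s • z = 0) : z = 0 := by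
  rw [← IsScalarTower.algebraMap_smul (Fr K r) s z] at hz
  rw [← inv_smul_smul₀ ((map_ne_zero_iff (algebraMap (Par K r) (Fr K r))
    (IsFractionRing.injective (Par K r) (Fr K r))).2 hs) z, hz, smul_zero]

lemma exists_clear_mem (W : Submodule (Par K r) R) {x : Loc K r R}
    (hx : x ∈ Submodule.span (Fr K r) (toL '' (W : Set R))) :
    ∃ s : Par K r, s ≠ 0 ∧ ∃ y ∈ W, s • x = toL y := by
  induction hx using Submodule.span_induction with
  | mem x hx =>
    obtain ⟨y, hy, rfl⟩ := hx
    exact ⟨1, one_ne_zero, y, hy, one_smul _ _⟩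
  | zero => exact ⟨1, one_ne_zero, 0, zero_mem _, by rw [smul_zero, map_zero]⟩
  | add x x' _ _ hx hx' =>
    obtain ⟨s, hs, y, hy, h⟩ := hx
    obtain ⟨s', hs', y', hy', h'⟩ := hx'
    refine ⟨s * s', mul_ne_zero hs hs', s' • y + s • y',
      add_mem (Submodule.smul_mem _ _ hy) (Submodule.smul_mem _ _ hy'), ?_⟩
    rw [smul_add, mul_comm s s', mul_smul s' s x, h, mul_comm s' s, mul_smul s s' x', h', map_add,
      map_smul, map_smul]
  | smul a x _ hx =>
    obtain ⟨s, hs, y, hy, h⟩ := hx
    obtain ⟨u, v, hv, rfl⟩ := IsFractionRing.div_surjective (A := Par K r) a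
    have hv0 : algebraMap (Par K r) (Fr K r) v ≠ 0 :=
      IsFractionRing.to_map_ne_zero_of_mem_nonZeroDivisors hv
    refine ⟨v * s, mul_ne_zero (nonZeroDivisors.ne_zero hv) hs, u • y,
      Submodule.smul_mem _ _ hy, ?_⟩
    rw [map_smul, ← h, ← IsScalarTower.algebraMap_smul (Fr K r) (v * s), ← mul_smul,
      ← IsScalarTower.algebraMap_smul (Fr K r) u, ← IsScalarTower.algebraMap_smul (Fr K r) s x,
      ← mul_smul]
    congr 1
    rw [map_mul]
    field_simp

lemma exists_clear (x : Loc K r R) : ∃ s : Par K r, s ≠ 0 ∧ ∃ y : R, s • x = toL y := by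
  have hx : x ∈ Submodule.span (Fr K r) (toL '' ((⊤ : Submodule (Par K r) R) : Set R)) := by
    induction x using TensorProduct.induction_on with
    | zero => exact zero_mem _
    | add x y hx hy => exact add_mem hx hy
    | tmul a y =>
      rw [show a ⊗ₜ[Par K r] y = a • (toL y : Loc K r R) by
        simp [toL, TensorProduct.smul_tmul']]
      exact Submodule.smul_mem _ _ (Submodule.subset_span ⟨y, trivial, rfl⟩)
  obtain ⟨s, hs, y, -, h⟩ := exists_clear_mem ⊤ hx
  exact ⟨s, hs, y, h⟩

lemma noZeroDivisors_loc [Module.Free (Par K r) R] [NoZeroDivisors R] :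
    NoZeroDivisors (Loc K r R) := by
  constructor
  intro x y hxy
  obtain ⟨s, hs, a, ha⟩ := exists_clear x
  obtain ⟨t, ht, b, hb⟩ := exists_clear y
  have hab : a * b = 0 := by
    apply toL_injective (K := K) (r := r)
    rw [map_mul, ← ha, ← hb, smul_mul_smul_comm, hxy, smul_zero, map_zero]
  rcases mul_eq_zero.1 hab with h | h
  · exact Or.inl (smul_cancel hs (by rw [ha, h, map_zero]))
  · exact Or.inr (smul_cancel ht (by rw [hb, h, map_zero]))

end Vale.Agent.P200.Prime
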