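import Vale.Agent.P200.Prime.Alg
import Vale.Agent.P200.Prime.CommonZero
import Vale.Agent.P200.Prime.Localise
import Vale.Agent.P200.Quad.Rows

/-!
Commuting factorisations of the forms over a division ring.
-/

namespace Vale.Agent.P200.Prime

open MvPolynomial Module
open scoped TensorProduct

universe u

namespace Sys

variable {K : Type u} [Field K] {p N : ℕ} [Fact p.Prime] [CharP K p] (S : Sys K p N)

set_option linter.unusedSectionVars false

/-- Elements whose value only has exponents avoiding a block. -/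
noncomputable def avoid (b : ℕ) : Submodule (Par K S.r) S.R where
  carrier := {T | ∀ β, (∃ j, S.grp j = b ∧ (β j : ℕ) ≠ 0) → S.evalE T β = 0}
  zero_mem' β _ := by rw [map_zero]; rfl
  add_mem' hx hy β hβ := by rw [map_add, Pi.add_apply, hx β hβ, hy β hβ, add_zero]
  smul_mem' c T hT β hβ := by
    have h : S.evalE (c • T) β = S.rho c * S.evalE T β := by
      rw [Algebra.smul_def]
      rfl
    rw [h, hT β hβ, mul_zero]

lemma evalE_xi_mul (j : Fin N) (T : S.R) (β : Fin N → Fin p) :
    S.evalE (S.xi j * T) β =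
      S.der j (S.evalE T β) + S.sh j (S.evalE T) β + S.pot j * S.evalE T β := rfl

lemma one_mem_avoid (b : ℕ) : (1 : S.R) ∈ S.avoid b := by
  rintro β ⟨j, -, hj⟩
  show S.eb zidx β = 0
  refine Pi.single_eq_of_ne (fun h => hj ?_) _
  rw [h]
  rfl

lemma xi_mul_mem_avoid {b : ℕ} {j : Fin N} (hj : S.grp j ≠ b) {T : S.R} (hT : T ∈ S.avoid b) :
    S.xi j * T ∈ S.avoid b := by
  rintro β ⟨i, hi, hβ⟩
  have hij : i ≠ j := fun h => hj (h ▸ hi)
  rw [evalE_xi_mul, hT β ⟨i, hi, hβ⟩, sh_apply]
  rw [hT (topIdx j β) ⟨i, hi, by simpa [topIdx, hij] using hβ⟩,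
    hT (below j β) ⟨i, hi, by simpa [below, hij] using hβ⟩]
  simp

lemma eq_zero_of_sum_xi_mul {m : ℕ} (ι : Fin m → Fin N) (hι : Function.Injective ι) (b : ℕ)
    (hb : ∀ i, S.grp (ι i) = b) (T : Fin m → S.R) (hT : ∀ i, T i ∈ S.avoid b)
    (hsum : ∑ i, S.xi (ι i) * T i = 0) : T = 0 := by
  classical
  funext i₀
  apply S.evalE.injective
  rw [Pi.zero_apply, map_zero]
  funext β
  rw [Pi.zero_apply]
  have hp := (Fact.out : p.Prime).two_le
  by_cases hβ : ∃ j, S.grp j = b ∧ (β j : ℕ) ≠ 0
  · exact hT i₀ β hβ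
  push Not at hβ
  set γ : Fin N → Fin p := Function.update β (ι i₀) ⟨1, by omega⟩
  have hγ1 : (γ (ι i₀) : ℕ) = 1 := by simp [γ]
  have hγ : ∀ i, i ≠ i₀ → (γ (ι i) : ℕ) = 0 := fun i hi => by
    simp [γ, hι.ne hi, hβ (ι i) (hb i)]
  have hγb : ∃ j, S.grp j = b ∧ (γ j : ℕ) ≠ 0 := ⟨ι i₀, hb i₀, by omega⟩
  have hterm : ∀ i, S.evalE (S.xi (ι i) * T i) γ = if i = i₀ then S.evalE (T i₀) β else 0 := by
    intro i
    rw [evalE_xi_mul, hT i γ hγb, sh_apply]
    rcases eq_or_ne i i₀ with rfl | hi
    · have hbel : below (ι i) γ = β := by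
        funext j
        rcases eq_or_ne j (ι i) with rfl | hj
        · ext
          simp [below, hγ1, hβ (ι i) (hb i)]
        · simp [below, γ, hj]
      rw [if_neg (by omega), hbel]
      simp
    · rw [if_pos (hγ i hi), hT i (topIdx (ι i) γ) ⟨ι i, hb i, by simp [topIdx]; omega⟩, if_neg hi]
      simp
  have h := congrFun (congrArg S.evalE hsum) γ
  rw [map_sum, Finset.sum_apply, map_zero, Pi.zero_apply] at h
  simpa [hterm] using h

end Sys

variable {K : Type u} [Field K] {p n : ℕ} [Fact p.Prime]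

lemma grp_rename {f : Fin n → MvPolynomial (Fin n) K} (l : Fin (n * n)) {m : Fin (n * n) →₀ ℕ}
    (hm : m ∈ (Quad.copyForm f l).support) {i : Fin (n * n)} (hi : m i ≠ 0) :
    (finProdFinEquiv.symm i).1 = (finProdFinEquiv.symm l).1 := by
  classical
  obtain ⟨u, rfl, -⟩ := coeff_rename_ne_zero _ _ _ (mem_support_iff.1 hm)
  obtain ⟨j, -, rfl⟩ := Finset.mem_image.1 (Finsupp.mapDomain_support (Finsupp.mem_support_iff.2 hi))
  simp [Quad.idx]

/-- The copies of a family of forms as one system. -/
noncomputable def copySys (f : Fin n → MvPolynomial (Fin n) K) (hf : ∀ i, (f i).IsHomogeneous p) :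
    Sys K p (n * n) where
  grp I := (finProdFinEquiv.symm I).1
  f := Quad.copyForm f
  homog l := (hf _).rename_isHomogeneous
  local_block l m hm i j hi hj := by
    rw [grp_rename l hm hi, grp_rename l hm hj]

lemma copySys_aniso {f : Fin n → MvPolynomial (Fin n) K} (hf : ∀ i, (f i).IsHomogeneous p)
    (hreg : RegList ⊥ (List.ofFn f)) :
    ∀ c : Fin (n * n) → K, (∀ l, eval c ((copySys f hf).f l) = 0) → c = 0 := by
  intro c hc
  funext I
  obtain ⟨⟨k, i⟩, rfl⟩ := finProdFinEquiv.surjective I
  have h := eq_zero_of_common_zero (fun _ => (Fact.out : p.Prime).pos) hf hreg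
    (c ∘ Quad.idx k) fun l => by
      have := hc (Quad.idx k l)
      simpa [copySys, Quad.copyForm, Quad.idx, eval_rename] using this
  exact congrFun h i

/-- A family vanishing under every functional on the first factor vanishes. -/
lemma tmul_eq_zero_of_coord {D Q : Type*} [AddCommGroup D] [Module K D] [AddCommGroup Q]
    [Module K Q] (x : D ⊗[K] Q)
    (h : ∀ φ : D →ₗ[K] K, TensorProduct.lid K Q (φ.rTensor Q x) = 0) : x = 0 := by
  classical
  let b := Module.Free.chooseBasis K D
  apply (TensorProduct.equivFinsuppOfBasisLeft b).injective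
  rw [map_zero]
  refine Finsupp.ext fun i => ?_
  rw [TensorProduct.equivFinsuppOfBasisLeft_apply, Finsupp.zero_apply]
  exact h (b.coord i)

/-- An identity between tensors with polynomials follows from its values. -/
lemma eq_zero_of_values [Infinite K] {D σ : Type*} [Ring D] [Algebra K D]
    (x : D ⊗[K] MvPolynomial σ K)
    (h : ∀ c : σ → K, TensorProduct.rid K D ((aeval c : MvPolynomial σ K →ₐ[K] K).toLinearMap.lTensor D x) = 0) :
    x = 0 := by
  refine tmul_eq_zero_of_coord x fun φ => ?_
  refine MvPolynomial.funext fun c => ?_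
  rw [map_zero]
  have key : ∀ y : D ⊗[K] MvPolynomial σ K,
      eval c (TensorProduct.lid K _ (φ.rTensor _ y)) =
        φ (TensorProduct.rid K D
          ((aeval c : MvPolynomial σ K →ₐ[K] K).toLinearMap.lTensor D y)) := by
    intro y
    induction y using TensorProduct.induction_on with
    | zero => simp
    | add a b ha hb => simp only [map_add, ha, hb]
    | tmul a u => simp [mul_comm]
  rw [key, h c, map_zero]

end Vale.Agent.P200.Prime
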