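import Vale.Agent.P200.Prime.Factor
import Vale.Agent.P200.Cyc.Reduce
import Vale.Agent.P200.Box.LexPlusPowers

/-!
Forms of degree `p` in characteristic `p`: models, and monomial ideals with the same Hilbert
function.
-/

namespace Vale.Agent.P200.Prime

open MvPolynomial Module

universe u

variable {K : Type u} [Field K] {p : ℕ} [Fact p.Prime] [CharP K p]

/-- Regular sequences of forms of degree `p` over an algebraically closed field of
characteristic `p` have models. -/
theorem models [IsAlgClosed K] {n : ℕ} {a : Fin n → ℕ} (ha : ∀ i, a i = p) : Cyc.Models K a := by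
  obtain rfl : a = fun _ => p := funext ha
  intro f hf hreg
  obtain ⟨D, iD, iA, g, hcomm, hpow, E, hE⟩ := exists_factorisation hf hreg
  exact Cyc.hasModel f g (fun k l h => ⟨1, one_ne_zero, fun i j => by
    rw [one_smul]; exact hcomm k l h i j⟩) hpow E hE (fun _ => (Fact.out : p.Prime).pos) hf hreg

/-- In characteristic `p`, an ideal containing a regular sequence of forms of degree `p` has the
Hilbert function of a monomial ideal containing the `p`-th powers of as many variables. -/
theorem exists_monomialIdeal {n c : ℕ} (hcn : c ≤ n) {f : Fin c → MvPolynomial (Fin n) K}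
    (hf : ∀ i, (f i).IsHomogeneous p) (hreg : RegList ⊥ (List.ofFn f))
    {I : Ideal (MvPolynomial (Fin n) K)} (hI : HomogI I) (hfI : ∀ i, f i ∈ I) :
    ∃ s : Set (Fin n →₀ ℕ), (∀ i, Finsupp.single (Fin.castLE hcn i) p ∈ s) ∧
      ∀ d, finrank K (degPart d (Ideal.span ((fun e => monomial e (1 : K)) '' s))) =
        finrank K (degPart d I) := by
  have : CharP (AlgebraicClosure K) p :=
    charP_of_injective_algebraMap (algebraMap K (AlgebraicClosure K)).injective p
  exact Cyc.exists_monomialIdeal (a := fun _ => p) (fun _ => (Fact.out : p.Prime).pos)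
    (models fun _ => rfl) hcn hf hreg hI hfI

/-- In characteristic `p`, the lex-plus-powers space of an ideal containing a regular sequence of
forms of degree `p` is closed under the variables. -/
theorem exists_lpp {n c : ℕ} (hcn : c ≤ n) {f : Fin c → MvPolynomial (Fin n) K}
    (hf : ∀ i, (f i).IsHomogeneous p) (hreg : RegList ⊥ (List.ofFn f))
    {I : Ideal (MvPolynomial (Fin n) K)} (hI : HomogI I) (hfI : ∀ i, f i ∈ I) :
    ∃ T : ℕ → Finset (Fin n →₀ ℕ), ∀ d,
      (∀ e ∈ T d, e.degree = d) ∧
      (∀ e : Fin n →₀ ℕ, e.degree = d → (∃ i : Fin c, p ≤ e (Fin.castLE hcn i)) → e ∈ T d) ∧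
      (∀ e ∈ T d, ∀ e' : Fin n →₀ ℕ, e'.degree = d →
        (∀ i : Fin c, e (Fin.castLE hcn i) < p) → (∀ i : Fin c, e' (Fin.castLE hcn i) < p) →
        toLex e < toLex e' → e' ∈ T d) ∧
      (T d).card = finrank K (degPart d I) ∧
      ∀ e ∈ T d, ∀ v, e + Finsupp.single v 1 ∈ T (d + 1) := by
  obtain ⟨s, hs, hd⟩ := exists_monomialIdeal hcn hf hreg hI hfI
  obtain ⟨T, hT⟩ := Box.exists_lpp K hcn (a := fun _ => p) (fun _ _ _ => le_rfl) s hs
  exact ⟨T, fun d => ⟨(hT d).1, (hT d).2.1, (hT d).2.2.1, (hT d).2.2.2.1.trans (hd d),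
    (hT d).2.2.2.2⟩⟩

end Vale.Agent.P200.Prime
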