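import Vale.Agent.P200.Prime.Dade

/-!
A finite dimensional module over a flag of operators (a nilpotent restricted Lie algebra with zero
`p`-map) which is free on every line has the ordered monomials in lifts of its generators as basis.
-/

namespace Vale.Agent.P200.Prime

open Module

universe u v w

variable {K : Type u} [Field K]

/-- An ordered monomial in operators. -/
def mono {V : Type*} [AddCommGroup V] [Module K V] {r : ℕ} (e : Fin r → Module.End K V)
    (α : Fin r → ℕ) : Module.End K V :=
  ((List.finRange r).map fun i => e i ^ α i).prod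

lemma mono_succ {V : Type*} [AddCommGroup V] [Module K V] {r : ℕ}
    (e : Fin (r + 1) → Module.End K V) (α : Fin (r + 1) → ℕ) :
    mono e α = e 0 ^ α 0 * mono (fun i => e i.succ) (fun i => α i.succ) := by
  simp [mono, List.finRange_succ, Function.comp_def]

lemma agree_pow {V : Type*} [AddCommGroup V] [Module K V] {W : Submodule K V} {f : Module.End K V}
    {f' : Module.End K W} (h : ∀ w : W, f w = f' w) (n : ℕ) :
    ∀ w : W, (f ^ n) w = (f' ^ n) w := by
  induction n with
  | zero => intro w; simp
  | succ n ih =>
    intro w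
    rw [pow_succ f, pow_succ f', Module.End.mul_apply, Module.End.mul_apply, h, ih]

lemma agree_mono {V : Type*} [AddCommGroup V] [Module K V] {W : Submodule K V} {r : ℕ}
    {e : Fin r → Module.End K V} {e' : Fin r → Module.End K W}
    (h : ∀ i (w : W), e i w = e' i w) (α : Fin r → ℕ) :
    ∀ w : W, mono e α w = mono e' α w := by
  unfold mono
  induction List.finRange r with
  | nil => intro w; simp
  | cons i l ih =>
    intro w
    simp only [List.map_cons, List.prod_cons, Module.End.mul_apply]
    rw [ih, agree_pow (h i)]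

/-- A module free on every line is free on the monomials of lifts of its generators. -/
theorem free_of_lines [IsAlgClosed K] {p : ℕ} (hp : p.Prime) [CharP K p] {ι : Type w} [Fintype ι] :
    ∀ (r : ℕ) {V : Type v} [AddCommGroup V] [Module K V] [FiniteDimensional K V]
      (e : Fin r → Module.End K V),
      (∀ i j, e i * e j - e j * e i ∈ Submodule.span K (e '' {k | k < i ∧ k < j})) →
      (∀ c : Fin r → K, (∑ i, c i • e i) ^ p = 0) →
      (∀ c : Fin r → K, c ≠ 0 → ∀ x, (∑ i, c i • e i) x = 0 →
        ∃ y, ((∑ i, c i • e i) ^ (p - 1)) y = x) →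
      ∀ g : ι → V,
      (∀ x, ∃ c : ι → K, x - ∑ k, c k • g k ∈ ⨆ i, LinearMap.range (e i)) →
      (∀ c : ι → K, ∑ k, c k • g k ∈ (⨆ i, LinearMap.range (e i)) → c = 0) →
      (∀ x, ∃ c : ι × (Fin r → Fin p) → K,
          ∑ q, c q • mono e (fun i => (q.2 i : ℕ)) (g q.1) = x) ∧
        ∀ c : ι × (Fin r → Fin p) → K,
          ∑ q, c q • mono e (fun i => (q.2 i : ℕ)) (g q.1) = 0 → c = 0 := by
  intro r
  induction r with
  | zero =>
    intro V _ _ _ e _ _ _ g hspan hind
    have hm : ∀ α : Fin 0 → ℕ, mono e α = 1 := fun α => by simp [mono]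
    have hbot : (⨆ i, LinearMap.range (e i)) = ⊥ := by simp
    simp only [hm, Module.End.one_apply, Fintype.sum_prod_type, Fintype.sum_unique]
    refine ⟨fun x => ?_, fun c hc => ?_⟩
    · obtain ⟨c, hc⟩ := hspan x
      rw [hbot, Submodule.mem_bot, sub_eq_zero] at hc
      exact ⟨fun q => c q.1, hc.symm⟩
    · have := hind (fun k => c (k, default)) (by rw [hc]; exact Submodule.zero_mem _)
      funext ⟨k, d⟩
      rw [Subsingleton.elim d default]
      exact congrFun this k
  | succ r ih =>
    intro V _ _ _ e hbr hpow hline g hspan hind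
    have hp1 : p - 1 + 1 = p := by have := hp.pos; omega
    set b := e 0 with hb0
    have hcomm : ∀ i, Commute (e i) b := fun i => by
      have h := hbr i 0
      rw [show {k : Fin (r + 1) | k < i ∧ k < 0} = ∅ from
        Set.eq_empty_of_forall_notMem fun k hk => absurd hk.2 (Fin.not_lt_zero k),
        Set.image_empty, Submodule.span_empty, Submodule.mem_bot, sub_eq_zero] at h
      exact h
    have hsingle : ∑ i, (Pi.single 0 1 : Fin (r + 1) → K) i • e i = b := by
      rw [Finset.sum_eq_single 0 (fun i _ hi => by simp [hi]) (by simp)]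
      simp [hb0]
    have hbp : b ^ p = 0 := hsingle ▸ hpow _
    have hbline : ∀ x, b x = 0 → ∃ y, (b ^ (p - 1)) y = x := by
      have := hline (Pi.single 0 1) (by simp)
      rwa [hsingle] at this
    have hbf := free_pow hbline
    set W := LinearMap.ker b
    have hWW : ∀ i, ∀ w ∈ W, e i w ∈ W := fun i w hw => by
      show b (e i w) = 0
      rw [← Module.End.mul_apply, ← (hcomm i).eq, Module.End.mul_apply, LinearMap.mem_ker.1 hw,
        map_zero]
    let e' : Fin r → Module.End K W := fun i => (e i.succ).restrict (hWW i.succ)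
    have hag : ∀ i (w : W), e i.succ w = e' i w := fun i w => rfl
    have hagsum : ∀ (t : K) (c : Fin r → K) (w : W),
        (∑ i, (Fin.cons t c : Fin (r + 1) → K) i • e i) w = ((∑ i, c i • e' i) w : W) := by
      intro t c w
      rw [Fin.sum_univ_succ, LinearMap.add_apply, LinearMap.sum_apply, LinearMap.sum_apply,
        Submodule.coe_sum]
      simp only [Fin.cons_zero, Fin.cons_succ, LinearMap.smul_apply, Submodule.coe_smul, ← hb0]
      rw [LinearMap.mem_ker.1 w.2, smul_zero, zero_add]
      rfl
    have hbr' : ∀ i j, e' i * e' j - e' j * e' i ∈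
        Submodule.span K (e' '' {k | k < i ∧ k < j}) := by
      intro i j
      have key : ∀ f ∈ Submodule.span K (e '' {k | k < i.succ ∧ k < j.succ}),
          ∃ f' ∈ Submodule.span K (e' '' {k | k < i ∧ k < j}), ∀ w : W, f w = (f' w : V) := by
        intro f hf
        induction hf using Submodule.span_induction with
        | mem f hf =>
          obtain ⟨k, ⟨hki, hkj⟩, rfl⟩ := hf
          rcases Fin.eq_zero_or_eq_succ k with rfl | ⟨k', rfl⟩
          · exact ⟨0, Submodule.zero_mem _, fun w => by
              simp only [LinearMap.zero_apply, ZeroMemClass.coe_zero]; exact LinearMap.mem_ker.1 w.2⟩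
          · exact ⟨e' k', Submodule.subset_span
              ⟨k', ⟨Fin.succ_lt_succ_iff.1 hki, Fin.succ_lt_succ_iff.1 hkj⟩, rfl⟩, hag k'⟩
        | zero => exact ⟨0, Submodule.zero_mem _, fun w => rfl⟩
        | add f₁ f₂ _ _ h₁ h₂ =>
          obtain ⟨g₁, hg₁, a₁⟩ := h₁
          obtain ⟨g₂, hg₂, a₂⟩ := h₂
          exact ⟨g₁ + g₂, Submodule.add_mem _ hg₁ hg₂, fun w => by
            rw [LinearMap.add_apply, a₁, a₂]; rfl⟩
        | smul t f₁ _ h₁ =>
          obtain ⟨g₁, hg₁, a₁⟩ := h₁
          exact ⟨t • g₁, Submodule.smul_mem _ t hg₁, fun w => by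
            rw [LinearMap.smul_apply, a₁]; rfl⟩
      obtain ⟨f', hf', hagree⟩ := key _ (hbr i.succ j.succ)
      convert hf' using 1
      refine LinearMap.ext fun w => Subtype.ext ?_
      rw [← hagree w]
      rfl
    have hpow' : ∀ c : Fin r → K, (∑ i, c i • e' i) ^ p = 0 := fun c => by
      refine LinearMap.ext fun w => Subtype.ext ?_
      rw [← agree_pow (hagsum 0 c) p w, hpow]
      rfl
    have hline' : ∀ c : Fin r → K, c ≠ 0 → ∀ w, (∑ i, c i • e' i) w = 0 →
        ∃ y, ((∑ i, c i • e' i) ^ (p - 1)) y = w := by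
      intro c hc w hw
      have hv : ∀ t : K, ∑ i, (Fin.cons t c : Fin (r + 1) → K) i • e i =
          (∑ i, c i • e i.succ) + t • b := fun t => by
        rw [Fin.sum_univ_succ, add_comm]
        simp [hb0]
      have hne : ∀ t : K, (Fin.cons t c : Fin (r + 1) → K) ≠ 0 := fun t h0 =>
        hc (funext fun i => by simpa using congrFun h0 i.succ)
      have hcb : Commute (∑ i, c i • e i.succ) b :=
        Commute.sum_left _ _ _ fun i _ => (hcomm i.succ).smul_left (c i)
      have hap : (∑ i, c i • e i.succ) ^ p = 0 := by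
        have := hpow (Fin.cons 0 c)
        rwa [hv, zero_smul, add_zero] at this
      have h0 : (∑ i, c i • e i.succ) (w : V) = 0 := by
        have := hagsum 0 c w
        rw [hv, zero_smul, add_zero, hw] at this
        exact this
      obtain ⟨y, hy⟩ := dade_two hp hcb hap hbp hbline
        (fun t x hx => by
          have := hline _ (hne t) x (by rwa [hv])
          rwa [hv] at this) h0 w.2
      refine ⟨⟨(b ^ (p - 1)) y, ?_⟩, Subtype.ext ?_⟩
      · show b ((b ^ (p - 1)) y) = 0
        rw [← Module.End.mul_apply, ← pow_succ', hp1, hbp]; rfl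
      · rw [← agree_pow (hagsum 0 c) (p - 1), hv, zero_smul, add_zero]
        exact hy
    have hBW : ∀ x, (b ^ (p - 1)) x ∈ W := fun x => by
      show b ((b ^ (p - 1)) x) = 0
      rw [← Module.End.mul_apply, ← pow_succ', hp1, hbp]; rfl
    let β : V →ₗ[K] W := LinearMap.codRestrict W (b ^ (p - 1)) hBW
    have hβ : ∀ x, (β x : V) = (b ^ (p - 1)) x := fun x => rfl
    have hβe : ∀ i x, β (e i.succ x) = e' i (β x) := fun i x => Subtype.ext (by
      rw [← hag, hβ, hβ, ← Module.End.mul_apply, ← ((hcomm i.succ).pow_right _).eq,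
        Module.End.mul_apply])
    have hdown : ∀ x ∈ ⨆ i, LinearMap.range (e i), β x ∈ ⨆ i, LinearMap.range (e' i) := by
      have hle : (⨆ i, LinearMap.range (e i)) ≤
          (⨆ i, LinearMap.range (e' i)).comap β := by
        refine iSup_le fun i => ?_
        rintro x ⟨z, rfl⟩
        rcases Fin.eq_zero_or_eq_succ i with rfl | ⟨i', rfl⟩
        · have : β (b z) = 0 := Subtype.ext (by
            rw [hβ, ← Module.End.mul_apply, ← pow_succ, hp1, hbp]; rfl)
          rw [Submodule.mem_comap, ← hb0, this]
          exact Submodule.zero_mem _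
        · rw [Submodule.mem_comap, hβe]
          exact Submodule.mem_iSup_of_mem i' ⟨_, rfl⟩
      exact fun x hx => hle hx
    have hup : ∀ w ∈ ⨆ i, LinearMap.range (e' i),
        ∃ y ∈ ⨆ i, LinearMap.range (e i), β y = w := by
      intro w hw
      induction hw using Submodule.iSup_induction' with
      | mem i w hw =>
        obtain ⟨z, rfl⟩ := hw
        obtain ⟨z₀, hz₀⟩ := hbline z z.2
        exact ⟨e i.succ z₀, Submodule.mem_iSup_of_mem i.succ ⟨_, rfl⟩, by
          rw [hβe]; exact congrArg (e' i) (Subtype.ext hz₀)⟩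
      | zero => exact ⟨0, Submodule.zero_mem _, map_zero _⟩
      | add w₁ w₂ _ _ h₁ h₂ =>
        obtain ⟨y₁, hy₁, rfl⟩ := h₁
        obtain ⟨y₂, hy₂, rfl⟩ := h₂
        exact ⟨y₁ + y₂, Submodule.add_mem _ hy₁ hy₂, map_add _ _ _⟩
    have hker : ∀ x, (b ^ (p - 1)) x = 0 → ∃ y, b y = x := fun x hx => by
      obtain ⟨y, hy⟩ := hbf (p - 1) (by omega) x hx
      rw [show p - (p - 1) = 1 by have := hp.pos; omega, pow_one] at hy
      exact ⟨y, hy⟩
    obtain ⟨hS, hI⟩ := ih e' hbr' hpow' hline' (fun k => β (g k))
      (fun w => by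
        obtain ⟨x, hx⟩ := hbline w w.2
        obtain ⟨c, hc⟩ := hspan x
        refine ⟨c, ?_⟩
        have := hdown _ hc
        rw [map_sub, map_sum] at this
        simp only [map_smul] at this
        rwa [show β x = w from Subtype.ext hx] at this)
      (fun c hc => hind c (by
        obtain ⟨y, hy, hy'⟩ := hup _ hc
        obtain ⟨z, hz⟩ := hker (∑ k, c k • g k - y) (by
          rw [← hβ, map_sub, hy', map_sum]
          simp)
        rw [← sub_add_cancel (∑ k, c k • g k) y, ← hz]
        exact Submodule.add_mem _ (Submodule.mem_iSup_of_mem 0 ⟨z, rfl⟩) hy))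
    -- the monomials of lower length
    let m : ι × (Fin r → Fin p) → V := fun q =>
      mono (fun i => e i.succ) (fun i => (q.2 i : ℕ)) (g q.1)
    have hm : ∀ q, (β (m q) : V) = mono e' (fun i => (q.2 i : ℕ)) (β (g q.1)) := fun q => by
      rw [← agree_mono hag, hβ, hβ, ← Module.End.mul_apply,
        ← Module.End.mul_apply (mono _ _)]
      congr 1
      refine Commute.eq (Commute.list_prod_right _ _ ?_)
      intro f hf
      obtain ⟨i, -, rfl⟩ := List.mem_map.1 hf
      exact ((hcomm i.succ).symm.pow_pow _ _)
    have hβm : ∀ c : ι × (Fin r → Fin p) → K,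
        β (∑ q, c q • m q) = ∑ q, c q • mono e' (fun i => (q.2 i : ℕ)) (β (g q.1)) := fun c => by
      rw [map_sum]
      exact Finset.sum_congr rfl fun q _ => by rw [map_smul]; exact congrArg _ (Subtype.ext (hm q))
    let E : Fin p × (ι × (Fin r → Fin p)) ≃ ι × (Fin (r + 1) → Fin p) :=
      { toFun := fun q => (q.2.1, Fin.cons q.1 q.2.2)
        invFun := fun q => (q.2 0, q.1, fun i => q.2 i.succ)
        left_inv := fun q => by simp
        right_inv := fun q => by simp [← Fin.tail_def] }
    have hsplit : ∀ c : ι × (Fin (r + 1) → Fin p) → K,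
        ∑ q, c q • mono e (fun i => (q.2 i : ℕ)) (g q.1) =
          ∑ i : Fin p, (b ^ (i : ℕ)) (∑ q, c (E (i, q)) • m q) := fun c => by
      rw [← E.sum_comp, Fintype.sum_prod_type]
      refine Finset.sum_congr rfl fun i _ => ?_
      rw [map_sum]
      refine Finset.sum_congr rfl fun q _ => ?_
      rw [map_smul, mono_succ, Module.End.mul_apply]
      simp [E, m, hb0]
    refine ⟨fun x => ?_, fun c hc => ?_⟩
    · have key : ∀ n, ∃ (c : ℕ → ι × (Fin r → Fin p) → K) (y : V),
          ∑ i ∈ Finset.range n, (b ^ i) (∑ q, c i q • m q) + (b ^ n) y = x := by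
        intro n
        induction n with
        | zero => exact ⟨fun _ => 0, x, by simp⟩
        | succ n ihn =>
          obtain ⟨c, y, hy⟩ := ihn
          obtain ⟨d, hd⟩ := hS (β y)
          obtain ⟨z, hz⟩ := hker (y - ∑ q, d q • m q) (by
            rw [← hβ, map_sub, hβm, hd, sub_self]; rfl)
          refine ⟨Function.update c n d, z, ?_⟩
          rw [Finset.sum_range_succ, Function.update_self, add_assoc, pow_succ b n,
            Module.End.mul_apply, ← map_add, hz, add_sub_cancel, ← hy]
          congr 1
          refine Finset.sum_congr rfl fun i hi => ?_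
          rw [Finset.mem_range] at hi
          rw [Function.update_of_ne (by omega)]
      obtain ⟨c, y, hy⟩ := key p
      refine ⟨fun q => c (E.symm q).1 (E.symm q).2, ?_⟩
      rw [hsplit, ← hy, hbp, LinearMap.zero_apply, add_zero, ← Fin.sum_univ_eq_sum_range
        (fun i => (b ^ i) (∑ q, c i q • m q))]
      exact Finset.sum_congr rfl fun i _ => by simp only [Equiv.symm_apply_apply]
    · rw [hsplit] at hc
      have key : ∀ (i : ℕ) (hi : i < p), (fun q => c (E (⟨i, hi⟩, q))) = 0 := by
        intro i
        induction i using Nat.strong_induction_on with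
        | _ i ihi =>
          intro hi
          apply hI
          rw [← hβm]
          apply Subtype.ext
          have h0 := congrArg (b ^ (p - 1 - i)) hc
          rw [map_zero, map_sum, Finset.sum_eq_single (⟨i, hi⟩ : Fin p) ?_ (by simp)] at h0
          · rw [← pow_apply_add, show p - 1 - i + i = p - 1 by omega] at h0
            exact h0
          · intro j _ hj
            rcases Nat.lt_or_ge (j : ℕ) i with hlt | hge
            · have := ihi j hlt j.2
              simp only [funext_iff, Pi.zero_apply] at this
              simp [this]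
            · have : i < (j : ℕ) := lt_of_le_of_ne hge fun h => hj (Fin.ext h.symm)
              rw [← pow_apply_add, show p - 1 - i + (j : ℕ) = (j - i - 1) + p by omega, pow_add,
                hbp, mul_zero]
              rfl
      funext q
      obtain ⟨⟨i, q⟩, rfl⟩ := E.surjective q
      exact congrFun (key i i.2) q

end Vale.Agent.P200.Prime
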