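import Mathlib
import Vale.Agent.P200.Prime.Flag

/-!
Algebras of prime degree: the hypotheses of the domain theorem, and graded free modules over them.
-/

namespace Vale.Agent.P200.Prime

open MvPolynomial

universe u v

/-- The central parameters. -/
abbrev Par (K : Type*) [Field K] (r : ℕ) : Type _ := MvPolynomial (Fin r) K

/-- An algebra free over `r` central parameters on the ordered monomials in `r` generators whose
combinations have nonzero linear forms in the parameters as `p`-th powers. -/
structure Model (K : Type u) [Field K] (p r : ℕ) (R : Type v) [Ring R] [Algebra K R]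
    [Algebra (Par K r) R] where
  /-- the generators, the most central first -/
  gen : Fin r → R
  /-- their degrees -/
  d : Fin r → ℕ
  /-- the homogeneous components -/
  deg : ℕ → Submodule K R
  /-- the projections to the homogeneous components -/
  proj : ℕ → R →ₗ[K] R
  d_pos : ∀ i, 0 < d i
  one_mem : (1 : R) ∈ deg 0
  mul_mem : ∀ {i j x y}, x ∈ deg i → y ∈ deg j → x * y ∈ deg (i + j)
  gen_mem : ∀ i, gen i ∈ deg (d i)
  var_mem : ∀ i, algebraMap (Par K r) R (X i) ∈ deg (d i * p)
  proj_mem : ∀ n x, proj n x ∈ deg n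
  proj_same : ∀ {n x}, x ∈ deg n → proj n x = x
  proj_other : ∀ {i n x}, x ∈ deg i → i ≠ n → proj n x = 0
  proj_sum : ∀ x, ∃ N, ∀ N', N ≤ N' → ∑ n ∈ Finset.range N', proj n x = x
  spans : Submodule.span (Par K r)
    (Set.range fun α : Fin r → Fin p =>
      ((List.finRange r).map fun i => gen i ^ (α i : ℕ)).prod) = ⊤
  indep : LinearIndependent (Par K r)
    (fun α : Fin r → Fin p => ((List.finRange r).map fun i => gen i ^ (α i : ℕ)).prod)
  bracket : ∀ i j, ∃ c : Fin r → K, (∀ k, c k ≠ 0 → k < i ∧ k < j) ∧ ∃ a : Fin r → R,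
    gen i * gen j - gen j * gen i =
      (∑ k, c k • gen k) + ∑ l, algebraMap (Par K r) R (X l) * a l
  power : ∀ c : Fin r → K, ∃ a : Fin r → K,
    (∑ i, c i • gen i) ^ p = algebraMap (Par K r) R (∑ i, MvPolynomial.C (a i) * X i) ∧
      (c ≠ 0 → a ≠ 0)

namespace Model

variable {K : Type u} [Field K] {p r : ℕ} {R : Type v} [Ring R] [Algebra K R]
  [Algebra (Par K r) R] (A : Model K p r R)

/-- An ordered monomial in the generators. -/
def mon (α : Fin r → Fin p) : R := ((List.finRange r).map fun i => A.gen i ^ (α i : ℕ)).prod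

/-- The weight of an ordered monomial. -/
def monWt (α : Fin r → Fin p) : ℕ := ∑ i, A.d i * α i

lemma pow_mem {x : R} {n : ℕ} (hx : x ∈ A.deg n) : ∀ k, x ^ k ∈ A.deg (n * k) := by
  intro k
  induction k with
  | zero => simpa using A.one_mem
  | succ k ih => rw [pow_succ, Nat.mul_succ]; exact A.mul_mem ih hx

lemma mon_mem (α : Fin r → Fin p) : A.mon α ∈ A.deg (A.monWt α) := by
  have h : ∀ l : List (Fin r), (l.map fun i => A.gen i ^ (α i : ℕ)).prod ∈
      A.deg (l.map fun i => A.d i * (α i : ℕ)).sum := by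
    intro l
    induction l with
    | nil => simpa using A.one_mem
    | cons i l ih =>
      simp only [List.map_cons, List.prod_cons, List.sum_cons]
      exact A.mul_mem (A.pow_mem (A.gen_mem i) _) ih
  have := h (List.finRange r)
  rwa [← List.ofFn_eq_map, List.sum_ofFn] at this

variable {κ : Type} (s : κ → ℕ)

/-- Homogeneous vectors of the free module with shifts `s`. -/
def FD (n : ℕ) : Submodule K (κ → R) where
  carrier := {x | ∀ k, (s k ≤ n → x k ∈ A.deg (n - s k)) ∧ (n < s k → x k = 0)}
  add_mem' := fun {x y} hx hy k =>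
    ⟨fun h => add_mem ((hx k).1 h) ((hy k).1 h), fun h => by simp [(hx k).2 h, (hy k).2 h]⟩
  zero_mem' := fun k => ⟨fun _ => zero_mem _, fun _ => rfl⟩
  smul_mem' := fun c x hx k =>
    ⟨fun h => Submodule.smul_mem _ c ((hx k).1 h), fun h => by simp [(hx k).2 h]⟩

/-- The projection to the homogeneous vectors. -/
def FP (n : ℕ) : (κ → R) →ₗ[K] (κ → R) :=
  LinearMap.pi fun k => if s k ≤ n then (A.proj (n - s k)).comp (LinearMap.proj k) else 0

lemma FP_apply (n : ℕ) (x : κ → R) (k : κ) :
    A.FP s n x k = if s k ≤ n then A.proj (n - s k) (x k) else 0 := by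
  simp only [FP, LinearMap.pi_apply]
  split_ifs <;> rfl

lemma FP_mem (n : ℕ) (x : κ → R) : A.FP s n x ∈ A.FD s n := fun k => by
  rw [FP_apply]
  refine ⟨fun h => ?_, fun h => if_neg (by omega)⟩
  rw [if_pos h]
  exact A.proj_mem _ _

lemma FP_same {n : ℕ} {x : κ → R} (hx : x ∈ A.FD s n) : A.FP s n x = x := by
  funext k
  rw [FP_apply]
  split_ifs with h
  · exact A.proj_same ((hx k).1 h)
  · exact ((hx k).2 (by omega)).symm

lemma FP_other {n m : ℕ} {x : κ → R} (hx : x ∈ A.FD s m) (hne : m ≠ n) : A.FP s n x = 0 := by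
  funext k
  rw [FP_apply]
  split_ifs with h
  · rcases Nat.lt_or_ge m (s k) with h' | h'
    · rw [(hx k).2 h', map_zero]; rfl
    · exact A.proj_other ((hx k).1 h') (by omega)
  · rfl

lemma FP_sum [Fintype κ] (x : κ → R) :
    ∃ N, ∀ N', N ≤ N' → ∑ n ∈ Finset.range N', A.FP s n x = x := by
  choose N hN using fun k => A.proj_sum (x k)
  refine ⟨∑ k, (s k + N k), fun N' hN' => funext fun k => ?_⟩
  have hk : s k + N k ≤ N' :=
    le_trans (Finset.single_le_sum (f := fun k => s k + N k) (fun _ _ => Nat.zero_le _)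
      (Finset.mem_univ k)) hN'
  rw [Finset.sum_apply]
  simp only [FP_apply]
  obtain ⟨t, rfl⟩ : ∃ t, N' = s k + t := ⟨N' - s k, by omega⟩
  rw [Finset.sum_range_add, Finset.sum_eq_zero (fun n hn => if_neg (by
    have := Finset.mem_range.1 hn; omega)), zero_add]
  calc ∑ n ∈ Finset.range t, (if s k ≤ s k + n then A.proj (s k + n - s k) (x k) else 0)
      = ∑ n ∈ Finset.range t, A.proj n (x k) := Finset.sum_congr rfl fun n _ => by
        rw [if_pos (Nat.le_add_right _ _), Nat.add_sub_cancel_left]
    _ = x k := hN k t (by omega)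

lemma smul_FD {i n : ℕ} {a : R} (ha : a ∈ A.deg i) {x : κ → R} (hx : x ∈ A.FD s n) :
    a • x ∈ A.FD s (i + n) := fun k => by
  rw [Pi.smul_apply, smul_eq_mul]
  refine ⟨fun h => ?_, fun h => by rw [(hx k).2 (by omega), mul_zero]⟩
  rcases Nat.lt_or_ge n (s k) with h' | h'
  · rw [(hx k).2 h', mul_zero]; exact zero_mem _
  · rw [show i + n - s k = i + (n - s k) by omega]
    exact A.mul_mem ha ((hx k).1 h')

/-- Homogeneous submodules. -/
def Homog (M : Submodule R (κ → R)) : Prop := ∀ x ∈ M, ∀ n, A.FP s n x ∈ M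

/-- The Hilbert series. -/
noncomputable def hilb (M : Submodule R (κ → R)) :
    PowerSeries ℤ :=
  PowerSeries.mk fun n => (Module.finrank K ↥(M.restrictScalars K ⊓ A.FD s n) : ℤ)

end Model

end Vale.Agent.P200.Prime
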