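import Vale.Agent.P200.Prime.Dade

/-!
Jacobson's formula for a `p`-th power of a sum, in the case of commuting brackets.
-/

namespace Vale.Agent.P200.Prime

open Polynomial

variable {K : Type*} [Field K] {E : Type*} [Ring E] [Algebra K E]

/-- The bracket with `a`. -/
noncomputable def bra (K : Type*) [Field K] {E : Type*} [Ring E] [Algebra K E] (a : E) :
    Module.End K E := LinearMap.mulLeft K a - LinearMap.mulRight K a

lemma bra_apply (a b : E) : bra K a b = a * b - b * a := rfl

lemma bra_pow_sub_one {p : ℕ} (hp : p.Prime) [CharP K p] (a b : E) :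
    (bra K a ^ (p - 1)) b = ∑ j ∈ Finset.range p, a ^ (p - 1 - j) * b * a ^ j := by
  have h := sub_smul_pow (K := K) hp (LinearMap.commute_mulLeft_right a a : Commute
    (LinearMap.mulLeft K a) (LinearMap.mulRight K a)) 1 b
  rw [one_smul] at h
  rw [bra, h]
  refine Finset.sum_congr rfl fun j _ => ?_
  rw [one_pow, one_smul, LinearMap.pow_mulLeft, LinearMap.pow_mulRight]
  exact (mul_assoc _ _ _).symm

lemma bra_pow_char {p : ℕ} (hp : p.Prime) [CharP K p] (a b : E) :
    (bra K a ^ p) b = a ^ p * b - b * a ^ p := by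
  have hp1 : p = 1 + (p - 1) := by have := hp.pos; omega
  conv_lhs => rw [hp1, pow_apply_add, pow_one, bra_apply, bra_pow_sub_one hp]
  rw [Finset.mul_sum, Finset.sum_mul]
  have h1 : ∀ j ∈ Finset.range p, a * (a ^ (p - 1 - j) * b * a ^ j) = a ^ (p - j) * b * a ^ j :=
    fun j hj => by
      rw [← mul_assoc, ← mul_assoc, ← pow_succ',
        show p - 1 - j + 1 = p - j by have := Finset.mem_range.1 hj; omega]
  have h2 : ∀ j ∈ Finset.range p,
      a ^ (p - 1 - j) * b * a ^ j * a = a ^ (p - (j + 1)) * b * a ^ (j + 1) := fun j hj => by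
    rw [mul_assoc, ← pow_succ, show p - 1 - j = p - (j + 1) by
      have := Finset.mem_range.1 hj; omega]
  rw [Finset.sum_congr rfl h1, Finset.sum_congr rfl h2, ← Finset.sum_sub_distrib,
    Finset.sum_range_sub' (fun j => a ^ (p - j) * b * a ^ j)]
  simp

lemma derivative_pow_sum (A : E[X]) (n : ℕ) :
    derivative (A ^ n) = ∑ j ∈ Finset.range n, A ^ (n - 1 - j) * derivative A * A ^ j := by
  induction n with
  | zero => simp
  | succ n ih =>
    rw [pow_succ, derivative_mul, ih, Finset.sum_mul, Finset.sum_range_succ']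
    congr 1
    · refine Finset.sum_congr rfl fun j _ => ?_
      rw [show n + 1 - 1 - (j + 1) = n - 1 - j by omega, pow_succ, mul_assoc _ _ A]
    · simp

/-- Jacobson's formula when `b` commutes with all its brackets with `a`. -/
theorem add_pow_jacobson {p : ℕ} (hp : p.Prime) [CharP K p] {a b : E}
    (hb : ∀ k, Commute b ((bra K a ^ k) b)) :
    (a + b) ^ p = a ^ p + b ^ p + (bra K a ^ (p - 1)) b := by
  set A : E[X] := C a + X * C b
  set h := A ^ p
  have hA' : derivative A = C b := by simp [A, derivative_mul]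
  have hbra : ∀ k, (bra K A ^ k) (C b) = C ((bra K a ^ k) b) := by
    intro k
    induction k with
    | zero => simp
    | succ k ih =>
      rw [pow_succ', pow_succ', Module.End.mul_apply, Module.End.mul_apply, ih, bra_apply,
        bra_apply, map_sub, map_mul, map_mul]
      simp only [A, add_mul, mul_add]
      have hc : (X * C b) * C ((bra K a ^ k) b) = C ((bra K a ^ k) b) * (X * C b) := by
        rw [mul_assoc, ← map_mul, (hb k).eq, map_mul, ← mul_assoc, X_mul, mul_assoc]
      rw [hc]
      abel
  have hder : derivative h = C ((bra K a ^ (p - 1)) b) := by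
    rw [derivative_pow_sum, hA', ← bra_pow_sub_one (K := K) hp, hbra]
  have hdeg : A.natDegree ≤ 1 := by
    refine (natDegree_add_le _ _).trans (max_le (by simp) ?_)
    exact natDegree_mul_le.trans (by simp [natDegree_X_le])
  have hhdeg : h.natDegree < p + 1 := Nat.lt_succ_of_le <| by
    refine natDegree_pow_le.trans ?_
    calc p * A.natDegree ≤ p * 1 := Nat.mul_le_mul_left p hdeg
      _ = p := Nat.mul_one p
  have hcoeff : ∀ k, k + 1 < p → k ≠ 0 → h.coeff (k + 1) = 0 := by
    intro k hk hk0
    have h0 := congrArg (fun q => coeff q k) hder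
    simp only [coeff_derivative, coeff_C, if_neg hk0] at h0
    have hne : (((k + 1 : ℕ) : K)) ≠ 0 := fun h1 =>
      absurd (Nat.le_of_dvd (by omega) ((CharP.cast_eq_zero_iff K p _).1 h1)) (by omega)
    have h2 : ((k : E) + 1) = algebraMap K E ((k + 1 : ℕ) : K) := by simp
    rw [h2, ← Algebra.commutes, ← Algebra.smul_def] at h0
    exact (smul_eq_zero_iff_right hne).1 h0
  have hc1 : h.coeff 1 = (bra K a ^ (p - 1)) b := by
    have h0 := congrArg (fun q => coeff q 0) hder
    simpa [coeff_derivative] using h0
  have hpow0 : ∀ n, (A ^ n).coeff 0 = a ^ n := by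
    intro n
    induction n with
    | zero => simp
    | succ n ih => rw [pow_succ, mul_coeff_zero, ih, pow_succ]; simp [A]
  have hcp : h.coeff p = b ^ p := by
    have := coeff_pow_of_natDegree_le (m := p) hdeg
    rw [mul_one] at this
    rw [this]
    simp [A]
  have heval : (a + b) ^ p = ∑ i ∈ Finset.range (p + 1), h.coeff i := by
    have hφ : ∀ x : E, Commute ((RingHom.id E) x) (1 : E) := fun x => Commute.one_right x
    have h1 : eval₂RingHom' (RingHom.id E) 1 hφ h = h.eval 1 := eval₂_at_one (RingHom.id E)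
    have h2 : eval₂RingHom' (RingHom.id E) 1 hφ A = a + b := by
      rw [show eval₂RingHom' (RingHom.id E) 1 hφ A = A.eval 1 from eval₂_at_one (RingHom.id E)]
      simp [A]
    rw [← h2, ← map_pow, h1, eval_eq_sum_range' hhdeg]
    simp
  rw [heval, Finset.sum_range_succ, hcp]
  obtain ⟨q, hq⟩ : ∃ q, p = q + 2 := ⟨p - 2, by have := hp.two_le; omega⟩
  rw [hq, Finset.sum_range_succ', Finset.sum_range_succ',
    Finset.sum_eq_zero fun i hi => hcoeff (i + 1) (by
      have := Finset.mem_range.1 hi; omega) (by omega), hpow0, zero_add, ← hq, zero_add, hc1]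
  abel

end Vale.Agent.P200.Prime
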