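import Vale.Agent.P200.Prime.Domain

/-!
A model algebra has no zero divisors.
-/

namespace Vale.Agent.P200.Prime

open MvPolynomial

variable {K : Type*} [Field K] [IsAlgClosed K] {p r : ℕ} [Fact p.Prime] [CharP K p]
variable {R : Type*} [Ring R] [Algebra K R] [Algebra (Par K r) R] [IsScalarTower K (Par K r) R]

namespace Model

variable (A : Model K p r R)

omit [IsAlgClosed K] [Fact p.Prime] [CharP K p] in
/-- The dimension of a homogeneous submodule containing a nonzero vector. -/
lemma lower_bound [NeZero p] (M : Submodule R (Fin 1 → R)) {β : ℕ} {x : Fin 1 → R} (hx : x ∈ M)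
    (hx' : x ∈ A.FD (fun _ => 0) β) (hx0 : x ≠ 0) (n : ℕ) :
    Nat.card (expo (fun i => A.d i * p) n) ≤
      Module.finrank K ↥(M.restrictScalars K ⊓ A.FD (fun _ => 0) (β + n)) := by
  have hd : ∀ i, 0 < A.d i * p := fun i => Nat.mul_pos (A.d_pos i) (NeZero.pos p)
  have := (expo_finite hd n).fintype
  have : Module.Finite K (A.FD (fun _ : Fin 1 => 0) (β + n)) := A.finite_FD _ _
  have : Module.Finite K ↥(M.restrictScalars K ⊓ A.FD (fun _ : Fin 1 => 0) (β + n)) :=
    Submodule.finiteDimensional_of_le inf_le_right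
  let E : (Fin r → ℕ) → (Fin r →₀ ℕ) := fun γ => Finsupp.equivFunOnFinite.symm γ
  have hmem : ∀ γ : expo (fun i => A.d i * p) n, (monomial (E γ.1) (1 : K) : Par K r) • x ∈
      M.restrictScalars K ⊓ A.FD (fun _ => 0) (β + n) := fun γ => by
    refine ⟨(show (monomial (E γ.1) (1 : K) : Par K r) • x ∈ M from smul_par_mem _ hx), ?_⟩
    rw [← algebraMap_smul R (monomial (E γ.1) (1 : K)) x, Nat.add_comm]
    refine A.smul_FD _ ?_ hx'
    have := A.monomial_mem (E γ.1)
    convert this using 2
    exact γ.2.symm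
  rw [Nat.card_eq_fintype_card]
  refine LinearIndependent.fintype_card_le_finrank
    (b := fun γ => (⟨_, hmem γ⟩ : ↥(M.restrictScalars K ⊓ A.FD (fun _ => 0) (β + n)))) ?_
  refine LinearIndependent.of_comp (Submodule.subtype _) ?_
  have hli : LinearIndependent K fun γ : expo (fun i => A.d i * p) n =>
      (monomial (E γ.1) (1 : K) : Par K r) := by
    have h := (basisMonomials (Fin r) K).linearIndependent
    rw [coe_basisMonomials] at h
    exact h.comp _ fun γ δ hγ => Subtype.ext (Finsupp.equivFunOnFinite.symm.injective hγ)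
  refine hli.map' ((LinearMap.toSpanSingleton (Par K r) (Fin 1 → R) x).restrictScalars K) ?_
  refine LinearMap.ker_eq_bot'.2 fun f hf => ?_
  by_contra hne
  apply hx0
  funext k
  have h0 : f • x k = 0 := congrFun hf k
  refine A.pBasis.ext_elem fun α => ?_
  have h1 := congrArg (fun z => A.pBasis.repr z α) h0
  simp only [map_smul, Finsupp.smul_apply, smul_eq_mul, map_zero, Finsupp.zero_apply] at h1
  simpa using (mul_eq_zero.1 h1).resolve_left hne

omit [IsAlgClosed K] [CharP K p] [Fact p.Prime] [IsScalarTower K (Par K r) R] in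
/-- A nonzero element has a nonzero component of lowest degree. -/
lemma exists_low {x : R} (hx : x ≠ 0) :
    ∃ n, A.proj n x ≠ 0 ∧ ∀ i, i < n → A.proj i x = 0 := by
  classical
  have h : ∃ n, A.proj n x ≠ 0 := by
    by_contra hcon
    push Not at hcon
    obtain ⟨N, hN⟩ := A.proj_sum x
    exact hx (by rw [← hN N le_rfl, Finset.sum_eq_zero fun n _ => hcon n])
  exact ⟨Nat.find h, Nat.find_spec h, fun i hi => by_contra (Nat.find_min h hi)⟩

include A in
/-- A model algebra is a domain. -/
theorem noZeroDivisors : NoZeroDivisors R := by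
  classical
  have hp := (Fact.out : p.Prime)
  have hp0 : NeZero p := ⟨hp.ne_zero⟩
  constructor
  intro x y hxy
  by_contra hne
  push Not at hne
  obtain ⟨i, hi, hil⟩ := A.exists_low hne.1
  obtain ⟨j, hj, hjl⟩ := A.exists_low hne.2
  -- the lowest components multiply to zero
  have hab : A.proj i x * A.proj j y = 0 := by
    obtain ⟨N, hN⟩ := A.proj_sum x
    obtain ⟨N', hN'⟩ := A.proj_sum y
    have h0 := congrArg (A.proj (i + j)) hxy
    rw [map_zero, ← hN (max N (i + 1)) (le_max_left _ _),
      ← hN' (max N' (j + 1)) (le_max_left _ _), Finset.sum_mul_sum, map_sum] at h0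
    simp only [map_sum] at h0
    have hmul : ∀ a b, A.proj a x * A.proj b y ∈ A.deg (a + b) := fun a b =>
      A.mul_mem (A.proj_mem a x) (A.proj_mem b y)
    rw [Finset.sum_eq_single i, Finset.sum_eq_single j, A.proj_same (hmul i j)] at h0
    · exact h0
    · intro b _ hb
      exact A.proj_other (hmul i b) (by omega)
    · intro h; exact absurd (Finset.mem_range.2 (by omega)) h
    · intro a _ ha
      refine Finset.sum_eq_zero fun b _ => ?_
      rcases Nat.lt_or_ge a i with ha' | ha'
      · rw [hil a ha', zero_mul, map_zero]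
      · rcases Nat.lt_or_ge b j with hb' | hb'
        · rw [hjl b hb', mul_zero, map_zero]
        · exact A.proj_other (hmul a b) (by omega)
    · intro h; exact absurd (Finset.mem_range.2 (by omega)) h
  set a := A.proj j y
  let g : Fin 1 → (Fin 1 → R) := fun _ => fun _ => a
  let φ : (Fin 1 → R) →ₗ[R] (Fin 1 → R) := Fintype.linearCombination R g
  have hφ : ∀ c k, φ c k = c 0 * a := fun c k => by
    simp [φ, g, Fintype.linearCombination_apply]
  let s₀ : Fin 1 → ℕ := fun _ => 0
  let sj : Fin 1 → ℕ := fun _ => j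
  have hf0 : ∀ m, ∀ c ∈ A.FD s₀ m, φ c ∈ A.FD s₀ (m + j) := fun m c hc k => by
    refine ⟨fun _ => ?_, fun h => absurd h (Nat.not_lt_zero _)⟩
    rw [hφ, show m + j - s₀ k = (m - s₀ 0) + j from rfl]
    exact A.mul_mem ((hc 0).1 (Nat.zero_le _)) (A.proj_mem j y)
  have hfj : ∀ m, ∀ c ∈ A.FD sj m, φ c ∈ A.FD s₀ m := fun m c hc k => by
    refine ⟨fun _ => ?_, fun h => absurd h (Nat.not_lt_zero _)⟩
    rw [hφ]
    rcases Nat.lt_or_ge m j with h | h
    · rw [(hc 0).2 h, zero_mul]; exact zero_mem _
    · have := A.mul_mem ((hc 0).1 h) (A.proj_mem j y)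
      rwa [show m - sj 0 + j = m - s₀ k from by simp only [sj, s₀]; omega] at this
  have hM₁ := A.range_homog s₀ sj φ 0 hfj
  have hM₂ := A.ker_homog s₀ s₀ φ j hf0
  obtain ⟨U₁, hU₁⟩ := A.exists_numerator s₀ _ hM₁
  obtain ⟨U₂, hU₂⟩ := A.exists_numerator s₀ _ hM₂
  set h₁ : ℕ → ℤ := fun n =>
    (Module.finrank K ↥((LinearMap.range φ).restrictScalars K ⊓ A.FD s₀ n) : ℤ)
  set h₂ : ℕ → ℤ := fun n =>
    (Module.finrank K ↥((LinearMap.ker φ).restrictScalars K ⊓ A.FD s₀ n) : ℤ)
  have hW := weightSeries_mul A.d A.d_pos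
  have hshift : A.hilb sj (LinearMap.ker φ) = PowerSeries.X ^ j * PowerSeries.mk h₂ := by
    refine PowerSeries.ext fun n => ?_
    rw [hilb, PowerSeries.coeff_mk, PowerSeries.coeff_X_pow_mul', PowerSeries.coeff_mk]
    split_ifs with h
    · have : A.FD sj n = A.FD s₀ (n - j) := by
        ext c
        refine ⟨fun hc k => ⟨fun _ => ?_, fun h' => absurd h' (Nat.not_lt_zero _)⟩,
          fun hc k => ⟨fun _ => (hc k).1 (Nat.zero_le _), fun h' => ?_⟩⟩
        · exact (hc k).1 h
        · simp only [sj] at h'; omega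
      rw [this]
    · have : A.FD sj n = ⊥ := (Submodule.eq_bot_iff _).2 fun c hc => funext fun k =>
        (hc k).2 (by simp only [sj]; omega)
      rw [this, inf_bot_eq, finrank_bot]
      rfl
  have hsum : PowerSeries.mk h₁ + PowerSeries.X ^ j * PowerSeries.mk h₂ =
      PowerSeries.X ^ j * weightSeries A.d := by
    have h := A.hilb_range s₀ sj φ hfj
    rw [hshift, A.hilb_top sj] at h
    simpa [hilb, sj, h₁] using h
  refine no_split hp.pos A.d j j i h₁ h₂ U₁ U₂ hW
    (weightSeries_mul (fun i => A.d i * p) fun i => Nat.mul_pos (A.d_pos i) hp.pos)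
    (by rw [show PowerSeries.mk h₁ = A.hilb s₀ (LinearMap.range φ) from rfl, hU₁, mul_assoc, hW,
      mul_one])
    (by rw [show PowerSeries.mk h₂ = A.hilb s₀ (LinearMap.ker φ) from rfl, hU₂, mul_assoc, hW,
      mul_one])
    hsum (fun n => Int.natCast_nonneg _) (fun n => Int.natCast_nonneg _)
    (fun n => ?_) (fun n => ?_)
  · rw [weightSeries, PowerSeries.coeff_mk]
    refine Int.ofNat_le.2 (A.lower_bound (LinearMap.range φ) (x := fun _ => a) ⟨fun _ => 1, funext fun k => by
      rw [hφ, one_mul]⟩ (fun k => ⟨fun _ => A.proj_mem j y, fun h => absurd h (Nat.not_lt_zero _)⟩)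
      (fun h => hj (congrFun h 0)) n)
  · rw [weightSeries, PowerSeries.coeff_mk]
    refine Int.ofNat_le.2 (A.lower_bound (LinearMap.ker φ) (x := fun _ => A.proj i x) (LinearMap.mem_ker.2
      (funext fun k => by rw [hφ]; exact hab))
      (fun k => ⟨fun _ => A.proj_mem i x, fun h => absurd h (Nat.not_lt_zero _)⟩)
      (fun h => hi (congrFun h 0)) n)

end Model

end Vale.Agent.P200.Prime
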