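import Vale.Agent.P200.Prime.Psi
import Vale.Agent.P200.Prime.NoZero

/-!
The algebra of a system of forms of degree `p` in characteristic `p`.
-/

namespace Vale.Agent.P200.Prime

open MvPolynomial
open scoped IsMulCommutative

namespace Sys

variable {K : Type*} [Field K] {p n : ℕ} [Fact p.Prime] [CharP K p] (S : Sys K p n)

set_option linter.unusedSectionVars false

/-- Sorting key of the generators: higher jets are more central. -/
def key : S.Jet ⊕ Fin n → ℕ := Sum.elim (fun q => p - S.jlen q) fun _ => p + 1

/-- The number of generators. -/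
def r : ℕ := Fintype.card (S.Jet ⊕ Fin n)

/-- The sorted enumeration of the generators. -/
noncomputable def enum : Fin S.r ≃ S.Jet ⊕ Fin n :=
  (Tuple.sort (S.key ∘ (Fintype.equivFin (S.Jet ⊕ Fin n)).symm)).trans
    (Fintype.equivFin (S.Jet ⊕ Fin n)).symm

lemma key_mono : Monotone (S.key ∘ S.enum) :=
  Tuple.monotone_sort (S.key ∘ (Fintype.equivFin (S.Jet ⊕ Fin n)).symm)

lemma lt_of_key_lt {i j : Fin S.r} (h : S.key (S.enum i) < S.key (S.enum j)) : i < j := by
  by_contra hle
  exact absurd (S.key_mono (le_of_not_gt hle)) (not_le.2 h)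

/-- The algebra. -/
abbrev R : Type _ := S.alg

noncomputable instance ringR : Ring S.R := Subalgebra.toRing S.alg

noncomputable instance algR : Algebra K S.R := Subalgebra.algebra S.alg

noncomputable instance addR : AddCommGroup S.R := S.ringR.toAddCommGroup

noncomputable instance addMonR : AddCommMonoid S.R := S.addR.toAddCommMonoid

noncomputable instance modR : Module K S.R := S.algR.toModule

/-- The value of a parameter. -/
noncomputable def pv : S.Jet ⊕ Fin n → S.S0 :=
  Sum.elim (fun q => X (Sum.inr q) ^ p) fun l => X (Sum.inl l)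

/-- The parameters as scalars. -/
noncomputable def rho : Par K S.r →ₐ[K] S.S0 := aeval fun i => S.pv (S.enum i)

lemma der_rho (j : Fin n) (c : Par K S.r) : S.der j (S.rho c) = 0 := by
  induction c using MvPolynomial.induction_on with
  | C a => rw [← MvPolynomial.algebraMap_eq, AlgHom.commutes, Derivation.map_algebraMap]
  | add u w hu hw => rw [map_add, map_add, hu, hw, add_zero]
  | mul_X u i hu =>
    rw [map_mul, Derivation.leibniz, hu, smul_zero, add_zero, rho, aeval_X]
    cases h : S.enum i with
    | inl q => simp only [pv, Sum.elim_inl, der_pow_p, smul_zero]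
    | inr l => simp only [pv, Sum.elim_inr, der_z, smul_zero]

lemma L_comm (s : S.S0) (t : S.S0) : Commute (S.L s) (S.L t) := (Commute.all s t).map S.L

lemma rho_central (c : Par K S.r) {T : Module.End K S.Mod} (hT : T ∈ S.alg) :
    Commute (S.L (S.rho c)) T := by
  obtain ⟨m, rfl⟩ := S.mem_alg.1 hT
  rw [psi_apply]
  refine Commute.sum_right _ _ _ fun β _ => (S.L_comm _ _).mul_right ?_
  rw [Dp_eq_list]
  refine Commute.list_prod_right _ _ fun U hU => ?_
  obtain ⟨j, -, rfl⟩ := List.mem_map.1 hU
  refine Commute.pow_right ?_ _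
  refine Commute.symm ?_
  rw [Commute, SemiconjBy, D_L, der_rho, map_zero, zero_add]

/-- The parameters inside the algebra. -/
noncomputable def parHom : Par K S.r →ₐ[K] S.R :=
  (S.L.comp S.rho).codRestrict S.alg fun c => S.L_mem (S.rho c)

noncomputable instance algebraPar : Algebra (Par K S.r) S.R :=
  S.parHom.toRingHom.toAlgebra' fun c T => Subtype.ext (S.rho_central c T.2).eq

lemma algebraMap_coe (c : Par K S.r) :
    ((algebraMap (Par K S.r) S.R c : S.R) : Module.End K S.Mod) = S.L (S.rho c) := rfl

instance : IsScalarTower K (Par K S.r) S.R :=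
  IsScalarTower.of_algebraMap_eq fun a => (S.parHom.commutes a).symm

/-- A generator as an operator. -/
noncomputable def term : S.Jet ⊕ Fin n → Module.End K S.Mod :=
  Sum.elim (fun q => S.L (X (Sum.inr q))) S.D

/-- The scalar part of a generator. -/
noncomputable def sterm : S.Jet ⊕ Fin n → S.S0 := Sum.elim (fun q => X (Sum.inr q)) fun _ => 1

/-- The symbol part of a generator. -/
noncomputable def dterm : S.Jet ⊕ Fin n → S.CD :=
  Sum.elim (fun _ => 1) fun j => ⟨S.D j, Algebra.subset_adjoin ⟨j, rfl⟩⟩

/-- The generators. -/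
noncomputable def gen (i : Fin S.r) : S.R :=
  ⟨S.term (S.enum i), by
    cases h : S.enum i with
    | inl q => exact S.L_mem _
    | inr j => exact S.D_mem j⟩

/-- Their degrees. -/
noncomputable def deg1 (i : Fin S.r) : ℕ := Sum.elim (fun q => S.jlen q + 1) (fun _ => 1) (S.enum i)

lemma list_split (α : Fin S.r → ℕ) : ∀ l : List (Fin S.r),
    l.Pairwise (fun a b => S.key (S.enum a) ≤ S.key (S.enum b)) →
      (l.map fun i => S.term (S.enum i) ^ α i).prod =
        S.L (l.map fun i => S.sterm (S.enum i) ^ α i).prod *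
          (((l.map fun i => S.dterm (S.enum i) ^ α i).prod : S.CD) : Module.End K S.Mod) := by
  intro l
  induction l with
  | nil => intro _; simp
  | cons a l ih =>
    intro hl
    rw [List.pairwise_cons] at hl
    simp only [List.map_cons, List.prod_cons, ih hl.2, map_mul, MulMemClass.coe_mul,
      SubmonoidClass.coe_pow]
    cases h : S.enum a with
    | inl q =>
      simp only [term, sterm, dterm, Sum.elim_inl, OneMemClass.coe_one, one_pow, one_mul, map_pow,
        mul_assoc]
    | inr j =>
      have hone : (l.map fun i => S.sterm (S.enum i) ^ α i).prod = 1 := by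
        refine List.prod_eq_one fun x hx => ?_
        obtain ⟨i, hi, rfl⟩ := List.mem_map.1 hx
        have hk := hl.1 i hi
        rw [h] at hk
        cases h' : S.enum i with
        | inl q => rw [h'] at hk; simp only [key, Sum.elim_inl, Sum.elim_inr] at hk; omega
        | inr j' => simp [sterm]
      rw [hone]
      simp only [term, sterm, dterm, Sum.elim_inr, map_one, one_mul, one_pow]

/-- The exponent of the symbols in a monomial. -/
noncomputable def dB (α : Fin S.r → Fin p) : Fin n → Fin p := fun j => α (S.enum.symm (Sum.inr j))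

/-- The jets in a monomial. -/
noncomputable def gA (α : Fin S.r → Fin p) : S.S0 :=
  ∏ i, S.sterm (S.enum i) ^ (α i : ℕ)

/-- An ordered monomial in the generators. -/
noncomputable def monR (α : Fin S.r → Fin p) : S.R :=
  ((List.finRange S.r).map fun i => S.gen i ^ (α i : ℕ)).prod

lemma monR_coe (α : Fin S.r → Fin p) :
    (S.monR α : Module.End K S.Mod) = S.L (S.gA α) * S.Dp (nat (S.dB α)) := by
  rw [monR, show ((((List.finRange S.r).map fun i => S.gen i ^ (α i : ℕ)).prod : S.R) :
      Module.End K S.Mod) = S.alg.val _ from rfl, map_list_prod, List.map_map]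
  have : (S.alg.val ∘ fun i => S.gen i ^ (α i : ℕ)) =
      fun i => S.term (S.enum i) ^ (α i : ℕ) := by
    funext i
    simp [gen]
  rw [this, S.list_split (fun i => (α i : ℕ)) _
    ((List.pairwise_le_finRange _).imp fun {a b} h => S.key_mono h),
    ← List.ofFn_eq_map, List.prod_ofFn, ← List.ofFn_eq_map, List.prod_ofFn]
  congr 1
  rw [Dp]
  refine congrArg Subtype.val ?_
  rw [← S.enum.symm.prod_comp, Fintype.prod_sum_type,
    Finset.prod_eq_one fun q _ => by simp [dterm], one_mul]
  exact Finset.prod_congr rfl fun j _ => by simp [dterm, nat, dB]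

/-- The index of a basis monomial. -/
noncomputable def idx : (Fin S.r → Fin p) × (Fin S.r →₀ ℕ) ≃
    (Fin n → Fin p) × ((Fin n ⊕ S.Jet) →₀ ℕ) where
  toFun x := (S.dB x.1, Finsupp.equivFunOnFinite.symm (Sum.elim
    (fun l => x.2 (S.enum.symm (Sum.inr l)))
    fun q => p * x.2 (S.enum.symm (Sum.inl q)) + x.1 (S.enum.symm (Sum.inl q))))
  invFun y :=
    (fun i => Sum.elim (fun q => ⟨y.2 (Sum.inr q) % p, Nat.mod_lt _ (Fact.out : p.Prime).pos⟩)
        y.1 (S.enum i),
      Finsupp.equivFunOnFinite.symm fun i =>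
        Sum.elim (fun q => y.2 (Sum.inr q) / p) (fun l => y.2 (Sum.inl l)) (S.enum i))
  left_inv x := by
    have hp := (Fact.out : p.Prime).pos
    refine Prod.ext (funext fun i => ?_) (Finsupp.ext fun i => ?_)
    · cases h : S.enum i with
      | inl q =>
        rw [← Equiv.eq_symm_apply] at h
        subst h
        ext
        simp [Nat.mod_eq_of_lt (x.1 (S.enum.symm (Sum.inl q))).2]
      | inr j =>
        rw [← Equiv.eq_symm_apply] at h
        subst h
        simp [dB]
    · cases h : S.enum i with
      | inl q =>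
        rw [← Equiv.eq_symm_apply] at h
        subst h
        simp [Nat.mul_add_div hp, Nat.div_eq_of_lt (x.1 (S.enum.symm (Sum.inl q))).2]
      | inr j =>
        rw [← Equiv.eq_symm_apply] at h
        subst h
        simp
  right_inv y := by
    refine Prod.ext (funext fun j => by simp [dB]) (Finsupp.ext fun v => ?_)
    cases v with
    | inl l => simp
    | inr q => simp [Nat.div_add_mod]

lemma basis_value (x : (Fin S.r → Fin p) × (Fin S.r →₀ ℕ)) :
    ((monomial x.2 (1 : K) : Par K S.r) • S.monR x.1 : S.R).1 (S.eb zidx) =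
      Pi.single (S.idx x).1 (monomial (S.idx x).2 (1 : K)) := by
  classical
  have h1 : ((monomial x.2 (1 : K) : Par K S.r) • S.monR x.1 : S.R).1 =
      S.L (S.rho (monomial x.2 1)) * (S.L (S.gA x.1) * S.Dp (nat (S.dB x.1))) := by
    rw [Algebra.smul_def, MulMemClass.coe_mul, algebraMap_coe, monR_coe]
  rw [h1, ← mul_assoc, ← map_mul, Module.End.mul_apply, Dp_eb]
  have hmon : S.rho (monomial x.2 1) * S.gA x.1 = monomial (S.idx x).2 1 := by
    rw [rho, aeval_monomial, map_one, one_mul, Finsupp.prod_fintype _ _ (fun i => pow_zero _), gA,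
      ← Finset.prod_mul_distrib, monomial_eq, map_one, one_mul,
      Finsupp.prod_fintype _ _ (fun i => pow_zero _), ← S.enum.symm.prod_comp,
      Fintype.prod_sum_type, Fintype.prod_sum_type, mul_comm]
    congr 1
    · exact Finset.prod_congr rfl fun l _ => by simp [idx, pv, sterm]
    · exact Finset.prod_congr rfl fun q _ => by simp [idx, pv, sterm, pow_add, pow_mul]
  funext β
  rw [L_apply, hmon, eb]
  rcases eq_or_ne β (S.dB x.1) with rfl | h
  · rw [Pi.single_eq_same, mul_one, show (S.idx x).1 = S.dB x.1 from rfl, Pi.single_eq_same]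
  · rw [show (S.idx x).1 = S.dB x.1 from rfl, Pi.single_eq_of_ne h, mul_zero, Pi.single_eq_of_ne h]

/-- Evaluation at the zero vector. -/
noncomputable def evalE : S.R ≃ₗ[K] S.Mod where
  toFun T := T.1 (S.eb zidx)
  map_add' _ _ := rfl
  map_smul' _ _ := rfl
  invFun m := ⟨S.psi m, S.mem_alg.2 ⟨m, rfl⟩⟩
  left_inv T := Subtype.ext (S.eq_psi T.2)
  right_inv m := S.psi_e0 m

lemma kFam_indep_spans :
    LinearIndependent K (fun x : (Fin S.r → Fin p) × (Fin S.r →₀ ℕ) =>
        (monomial x.2 (1 : K) : Par K S.r) • S.monR x.1) ∧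
      Submodule.span K (Set.range fun x : (Fin S.r → Fin p) × (Fin S.r →₀ ℕ) =>
        (monomial x.2 (1 : K) : Par K S.r) • S.monR x.1) = ⊤ := by
  classical
  let b : Module.Basis ((Fin S.r → Fin p) × (Fin S.r →₀ ℕ)) K S.R :=
    (((Pi.basis fun _ : Fin n → Fin p => MvPolynomial.basisMonomials (Fin n ⊕ S.Jet) K).reindex
      ((Equiv.sigmaEquivProd _ _).trans S.idx.symm)).map S.evalE.symm)
  have hb : (fun x : (Fin S.r → Fin p) × (Fin S.r →₀ ℕ) =>
      (monomial x.2 (1 : K) : Par K S.r) • S.monR x.1) = ⇑b := by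
    funext x
    apply S.evalE.injective
    rw [Module.Basis.map_apply, LinearEquiv.apply_symm_apply, Module.Basis.reindex_apply,
      Pi.basis_apply, coe_basisMonomials]
    exact S.basis_value x
  rw [hb]
  exact ⟨b.linearIndependent, b.span_eq⟩

lemma monR_spans : Submodule.span (Par K S.r) (Set.range S.monR) = ⊤ := by
  refine eq_top_iff.2 fun x _ => ?_
  have hx : x ∈ Submodule.span K (Set.range fun x : (Fin S.r → Fin p) × (Fin S.r →₀ ℕ) =>
      (monomial x.2 (1 : K) : Par K S.r) • S.monR x.1) := by
    rw [S.kFam_indep_spans.2]; exact Submodule.mem_top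
  induction hx using Submodule.span_induction with
  | mem y hy =>
    obtain ⟨q, rfl⟩ := hy
    exact Submodule.smul_mem _ _ (Submodule.subset_span ⟨q.1, rfl⟩)
  | zero => exact zero_mem _
  | add y z _ _ hy hz => exact add_mem (hy trivial) (hz trivial)
  | smul c y _ hy =>
    rw [← algebraMap_smul (Par K S.r) c y]
    exact Submodule.smul_mem _ _ (hy trivial)

lemma monR_indep : LinearIndependent (Par K S.r) S.monR := by
  classical
  refine Fintype.linearIndependent_iff.2 fun g hg α => ?_
  refine MvPolynomial.ext _ _ fun μ => ?_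
  rw [MvPolynomial.coeff_zero]
  set T : Finset ((Fin S.r → Fin p) × (Fin S.r →₀ ℕ)) :=
    Finset.univ ×ˢ (Finset.univ.biUnion fun α => (g α).support)
  have hsum : ∑ x ∈ T, coeff x.2 (g x.1) • ((monomial x.2 (1 : K) : Par K S.r) • S.monR x.1) = 0 := by
    rw [Finset.sum_product, ← hg]
    refine Finset.sum_congr rfl fun β _ => ?_
    conv_rhs => rw [(g β).as_sum, Finset.sum_smul]
    rw [← Finset.sum_subset (s₁ := (g β).support) (fun m hm => Finset.mem_biUnion.2
      ⟨β, Finset.mem_univ _, hm⟩) (fun m _ hm => by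
        rw [MvPolynomial.notMem_support_iff.1 hm, zero_smul])]
    refine Finset.sum_congr rfl fun m _ => ?_
    rw [← smul_assoc, smul_monomial, smul_eq_mul, mul_one]
  have h := linearIndependent_iff'.1 S.kFam_indep_spans.1 T _ hsum (α, μ)
  by_contra hne
  refine hne (h (Finset.mem_product.2 ⟨Finset.mem_univ _,
    Finset.mem_biUnion.2 ⟨α, Finset.mem_univ _, ?_⟩⟩))
  exact MvPolynomial.mem_support_iff.2 hne

/-- The components of the regular representation. -/
noncomputable def MP (a : ℕ) : S.Mod →ₗ[K] S.Mod :=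
  LinearMap.pi fun β => if mwt β ≤ a then
    (weightedHomogeneousComponent S.wv (a - mwt β)).comp (LinearMap.proj β) else 0

lemma MP_apply (a : ℕ) (m : S.Mod) (β : Fin n → Fin p) :
    S.MP a m β = if mwt β ≤ a then weightedHomogeneousComponent S.wv (a - mwt β) (m β) else 0 := by
  simp only [MP, LinearMap.pi_apply]
  split_ifs <;> rfl

lemma MP_mem (a : ℕ) (m : S.Mod) : S.MP a m ∈ S.MD a := fun β => by
  rw [MP_apply]
  refine ⟨fun h => ?_, fun h => if_neg (by omega)⟩
  rw [if_pos h]
  exact weightedHomogeneousComponent_isWeightedHomogeneous _ _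

lemma MP_same {a : ℕ} {m : S.Mod} (hm : m ∈ S.MD a) : S.MP a m = m := funext fun β => by
  rw [MP_apply]
  split_ifs with h
  · exact ((hm β).1 h).weightedHomogeneousComponent_same
  · exact ((hm β).2 (by omega)).symm

lemma MP_other {a b : ℕ} {m : S.Mod} (hm : m ∈ S.MD b) (h : b ≠ a) : S.MP a m = 0 :=
  funext fun β => by
    rw [MP_apply]
    split_ifs with h'
    · rcases Nat.lt_or_ge b (mwt β) with hb | hb
      · rw [(hm β).2 hb, map_zero]; rfl
      · exact ((hm β).1 hb).weightedHomogeneousComponent_ne _ (by omega)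
    · rfl

/-- The homogeneous components of the algebra. -/
noncomputable def degR (a : ℕ) : Submodule K S.R := (S.ED a).comap S.alg.val.toLinearMap

/-- The projection of the algebra to a component. -/
noncomputable def projR (a : ℕ) : S.R →ₗ[K] S.R :=
  S.evalE.symm.toLinearMap.comp ((S.MP a).comp S.evalE.toLinearMap)

lemma eval_mem {a : ℕ} {T : S.R} (hT : T ∈ S.degR a) : S.evalE T ∈ S.MD a := by
  have := hT 0 _ S.eb_zero_mem
  rwa [add_zero] at this

lemma projR_sum (T : S.R) : ∃ N, ∀ N', N ≤ N' → ∑ a ∈ Finset.range N', S.projR a T = T := by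
  classical
  set m := S.evalE T
  let N := ∑ β, (mwt β + ((m β).support.sup fun α => Finsupp.weight S.wv α + 1))
  refine ⟨N, fun N' hN' => S.evalE.injective ?_⟩
  show S.evalE.toLinearMap _ = S.evalE.toLinearMap _
  rw [map_sum S.evalE.toLinearMap]
  simp only [projR, LinearMap.comp_apply, LinearEquiv.coe_coe, LinearEquiv.apply_symm_apply]
  funext β
  rw [Finset.sum_apply]
  simp only [MP_apply]
  have hβ : mwt β + ((m β).support.sup fun α => Finsupp.weight S.wv α + 1) ≤ N' :=
    le_trans (Finset.single_le_sum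
      (f := fun β => mwt β + ((m β).support.sup fun α => Finsupp.weight S.wv α + 1))
      (fun _ _ => Nat.zero_le _) (Finset.mem_univ β)) hN'
  obtain ⟨t, rfl⟩ : ∃ t, N' = mwt β + t := ⟨N' - mwt β, by omega⟩
  rw [Finset.sum_range_add, Finset.sum_eq_zero (fun a ha => if_neg (by
    have := Finset.mem_range.1 ha; omega)), zero_add]
  refine MvPolynomial.ext _ _ fun α => ?_
  rw [coeff_sum]
  simp only [if_pos (Nat.le_add_right _ _), Nat.add_sub_cancel_left,
    coeff_weightedHomogeneousComponent]
  rw [Finset.sum_ite_eq]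
  split_ifs with h
  · rfl
  · by_contra hne
    apply h
    have : Finsupp.weight S.wv α + 1 ≤ ((m β).support.sup fun α => Finsupp.weight S.wv α + 1) :=
      Finset.le_sup (f := fun α => Finsupp.weight S.wv α + 1)
        (MvPolynomial.mem_support_iff.2 (Ne.symm hne))
    exact Finset.mem_range.2 (by omega)

/-- The combination of top jets at a point. -/
lemma V_top (i : Fin n) (c : Fin n → K) :
    ∃ ζ : Fin n → K, S.V i (lin c ^ (p - 1)) = ∑ l, C (ζ l) * X (Sum.inl l) := by
  have hp := (Fact.out : p.Prime)
  set P := lin c ^ (p - 1)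
  have hP : P.IsHomogeneous (p - 1) := by simpa using (lin_isHomogeneous c).pow (p - 1)
  refine ⟨fun l => ∑ α ∈ P.support, coeff α P * S.tau i α l, ?_⟩
  conv_lhs => rw [P.as_sum, map_sum]
  simp only [map_sum, Finset.sum_mul]
  rw [Finset.sum_comm]
  refine Finset.sum_congr rfl fun α hα => ?_
  have hdeg : ∑ j, α j = p - 1 := by
    have := hP (MvPolynomial.mem_support_iff.1 hα)
    rw [Finsupp.weight_apply, Finsupp.sum_fintype _ _ (by simp)] at this
    simpa using this
  rw [show monomial α (coeff α P) = coeff α P • (monomial α 1 : MvPolynomial (Fin n) K) by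
    rw [smul_monomial, smul_eq_mul, mul_one], map_smul, V_monomial, val,
    dif_neg (fun h => by have := h.1; have := hp.two_le; omega),
    if_pos (by have := hp.two_le; omega), Finset.smul_sum]
  exact Finset.sum_congr rfl fun l _ => by rw [smul_eq_C_mul, ← mul_assoc, ← map_mul]

/-- The zeroth jet. -/
def zq (j : Fin n) : S.Jet :=
  S.mkJet j 0 (by
    have h : ∑ t, (0 : Fin n → ℕ) t = 0 := by simp
    have := (Fact.out : p.Prime).two_le
    omega) fun _ h => absurd rfl h

lemma pot_eq (j : Fin n) : S.pot j = X (Sum.inr (S.zq j)) := by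
  have h : ∑ t, (0 : Fin n → ℕ) t = 0 := by simp
  have := (Fact.out : p.Prime).two_le
  rw [pot, val, dif_pos ⟨by omega, fun _ h => absurd rfl h⟩]
  rfl

/-- Jacobson's formula for a combination of generators. -/
lemma power_formula (c : Fin n → K) (y : S.Jet → K) :
    (S.Dc c + S.L (∑ q, C (y q) * X (Sum.inr q))) ^ p =
      S.L (-(∑ j, C (c j ^ p) * X (Sum.inr (S.zq j)) ^ p) + ∑ q, C (y q ^ p) * X (Sum.inr q) ^ p
        + ∑ q, if S.je q = 0 then C (y q) * S.V (S.ji q) (lin c ^ (p - 1)) else 0) := by
  classical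
  have hp := (Fact.out : p.Prime)
  have := S.charEnd
  set s : S.S0 := ∑ q, C (y q) * X (Sum.inr q)
  rw [add_pow_jacobson (K := K) hp (fun k => by rw [bra_pow_L]; exact S.L_comm _ _), bra_pow_L,
    ← map_pow, map_add, map_add]
  congr 1
  · congr 1
    · have hDc : S.Dc c = ((∑ j, c j • (⟨S.D j, Algebra.subset_adjoin ⟨j, rfl⟩⟩ : S.CD) : S.CD) :
          Module.End K S.Mod) := by
        simp [Dc]
      have : CharP S.CD p :=
        charP_of_injective_algebraMap (algebraMap K S.CD).injective p
      rw [hDc, ← SubmonoidClass.coe_pow, sum_pow_char p]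
      simp only [AddSubmonoidClass.coe_finsetSum, SubmonoidClass.coe_pow, smul_pow,
        SetLike.val_smul, D_pow, top, pot_eq, ← map_smul, ← map_sum, smul_eq_C_mul, mul_neg,
        Finset.sum_neg_distrib]
    · congr 1
      rw [sum_pow_char p]
      simp only [mul_pow, map_pow]
  · congr 1
    rw [map_sum]
    refine Finset.sum_congr rfl fun q _ => ?_
    rw [← smul_eq_C_mul, map_smul, derc_pow_jet]
    split_ifs with h
    · have h0 : Finsupp.equivFunOnFinite.symm (0 : Fin n → ℕ) = 0 := by ext; simp
      rw [h, h0, monomial_zero', map_one (C : K →+* MvPolynomial (Fin n) K), mul_one, smul_eq_C_mul]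
    · rw [S.V_of_degree_ge (d := (p - 1) + S.jlen q), smul_zero]
      · refine IsHomogeneous.mul (by simpa using (lin_isHomogeneous c).pow (p - 1))
          (isHomogeneous_monomial 1 ?_)
        rw [Finsupp.degree_eq_sum]
        simp [jlen]
      · obtain ⟨t, ht⟩ := Function.ne_iff.1 h
        have : S.je q t ≤ S.jlen q :=
          Finset.single_le_sum (f := S.je q) (fun _ _ => Nat.zero_le _) (Finset.mem_univ t)
        simp only [Pi.zero_apply] at ht
        omega

lemma gen_comb (c : Fin S.r → K) :
    ((∑ i, c i • S.gen i : S.R) : Module.End K S.Mod) =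
      S.Dc (fun j => c (S.enum.symm (Sum.inr j))) +
        S.L (∑ q, C (c (S.enum.symm (Sum.inl q))) * X (Sum.inr q)) := by
  rw [AddSubmonoidClass.coe_finsetSum, ← S.enum.symm.sum_comp, Fintype.sum_sum_type, add_comm,
    map_sum, Dc]
  congr 1
  · exact Finset.sum_congr rfl fun j _ => by simp [gen, term]
  · exact Finset.sum_congr rfl fun q _ => by simp [gen, term, ← smul_eq_C_mul, map_smul]

lemma algebraMap_linear (a : Fin S.r → K) :
    ((algebraMap (Par K S.r) S.R (∑ i, C (a i) * X i) : S.R) : Module.End K S.Mod) =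
      S.L (∑ q, C (a (S.enum.symm (Sum.inl q))) * X (Sum.inr q) ^ p +
        ∑ l, C (a (S.enum.symm (Sum.inr l))) * X (Sum.inl l)) := by
  rw [algebraMap_coe, map_sum, ← S.enum.symm.sum_comp, Fintype.sum_sum_type]
  simp [rho, pv]

lemma bracket_DG (j : Fin n) (q : S.Jet) :
    ∃ c : Fin S.r → K, (∀ k, c k ≠ 0 → k < S.enum.symm (Sum.inr j) ∧ k < S.enum.symm (Sum.inl q)) ∧
      ∃ a : Fin S.r → K, S.D j * S.L (X (Sum.inr q)) - S.L (X (Sum.inr q)) * S.D j =
        ((∑ k, c k • S.gen k : S.R) : Module.End K S.Mod) +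
          ((algebraMap (Par K S.r) S.R (∑ k, C (a k) * X k) : S.R) : Module.End K S.Mod) := by
  classical
  rw [D_L, add_sub_cancel_right, der_jet]
  set γ := fun t => S.je q t + if t = j then 1 else 0
  have hsum : ∑ t, γ t = S.jlen q + 1 := sum_bump _ _
  by_cases h : (∑ t, γ t) + 2 ≤ p ∧ S.InBlock (S.ji q) γ
  · refine ⟨Pi.single (S.enum.symm (Sum.inl (S.mkJet _ γ h.1 h.2))) 1, fun k hk => ?_, 0, ?_⟩
    · obtain rfl : k = S.enum.symm (Sum.inl (S.mkJet _ γ h.1 h.2)) := by
        by_contra hne; exact hk (Pi.single_eq_of_ne hne _)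
      have hlen : S.jlen (S.mkJet _ γ h.1 h.2) = S.jlen q + 1 := hsum
      constructor <;>
      · refine S.lt_of_key_lt ?_
        simp only [Equiv.apply_symm_apply, key, Sum.elim_inl, Sum.elim_inr, hlen]
        have := S.jlen_le q
        omega
    · rw [Finset.sum_eq_single (S.enum.symm (Sum.inl (S.mkJet _ γ h.1 h.2)))
        (fun k _ hk => by rw [Pi.single_eq_of_ne hk, zero_smul]) (by simp), Pi.single_eq_same,
        one_smul]
      simp [gen, term, val, dif_pos h]
  · refine ⟨0, fun k hk => absurd rfl hk, fun k =>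
      Sum.elim (fun _ => 0) (fun l => if (∑ t, γ t) + 1 = p then S.tau (S.ji q) γ l else 0)
        (S.enum k), ?_⟩
    rw [algebraMap_linear]
    simp only [Pi.zero_apply, zero_smul, Finset.sum_const_zero, ZeroMemClass.coe_zero, zero_add,
      Equiv.apply_symm_apply, Sum.elim_inl, Sum.elim_inr, map_zero, zero_mul]
    rw [val, dif_neg h]
    split_ifs <;> simp

variable (haniso : ∀ c : Fin n → K, (∀ l, eval c (S.f l) = 0) → c = 0)

include haniso in
lemma power_gen (c : Fin S.r → K) : ∃ a : Fin S.r → K,
    (∑ i, c i • S.gen i) ^ p = algebraMap (Par K S.r) S.R (∑ i, C (a i) * X i) ∧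
      (c ≠ 0 → a ≠ 0) := by
  classical
  have hp := (Fact.out : p.Prime)
  set cd : Fin n → K := fun j => c (S.enum.symm (Sum.inr j))
  set y : S.Jet → K := fun q => c (S.enum.symm (Sum.inl q))
  choose ζ hζ using fun i => S.V_top i cd
  set a : Fin S.r → K := fun k => Sum.elim
    (fun q => y q ^ p - if S.je q = 0 then cd (S.ji q) ^ p else 0)
    (fun l => ∑ q, if S.je q = 0 then y q * ζ (S.ji q) l else 0) (S.enum k)
  have hz : ∀ f : Fin n → S.S0, ∑ q, (if S.je q = 0 then f (S.ji q) else 0) = ∑ j, f j := by
    intro f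
    rw [← Finset.sum_filter]
    refine Finset.sum_nbij' (fun q => S.ji q) (fun j => S.zq j)
      (fun q _ => Finset.mem_univ _) (fun j _ => Finset.mem_filter.2 ⟨Finset.mem_univ _, rfl⟩)
      (fun q hq => S.jet_ext rfl (Finset.mem_filter.1 hq).2.symm) (fun j _ => rfl) (fun q _ => rfl)
  refine ⟨a, Subtype.ext ?_, fun hc ha => hc ?_⟩
  · rw [SubmonoidClass.coe_pow, gen_comb, power_formula, algebraMap_linear]
    congr 1
    simp only [a, Equiv.apply_symm_apply, Sum.elim_inl, Sum.elim_inr, map_sub, sub_mul,
      Finset.sum_sub_distrib]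
    have h1 : ∑ q, C (if S.je q = 0 then cd (S.ji q) ^ p else 0) * X (Sum.inr q) ^ p =
        (∑ j, C (cd j ^ p) * X (Sum.inr (S.zq j)) ^ p : S.S0) := by
      rw [← hz]
      refine Finset.sum_congr rfl fun q _ => ?_
      split_ifs with h
      · rw [S.jet_ext (q := S.zq (S.ji q)) (q' := q) rfl h.symm]
      · simp
    have h2 : ∑ q, (if S.je q = 0 then C (y q) * S.V (S.ji q) (lin cd ^ (p - 1)) else 0) =
        (∑ l, C (∑ q, if S.je q = 0 then y q * ζ (S.ji q) l else 0) * X (Sum.inl l) : S.S0) := by
      simp only [map_sum, Finset.sum_mul]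
      rw [Finset.sum_comm]
      refine Finset.sum_congr rfl fun q _ => ?_
      split_ifs
      · rw [hζ, Finset.mul_sum]
        exact Finset.sum_congr rfl fun l _ => by rw [← mul_assoc, ← map_mul]
      · simp
    rw [h1, h2]
    abel
  · have hk : ∀ x, a (S.enum.symm x) = 0 := fun x => congrFun ha _
    have hy : ∀ q, y q = if S.je q = 0 then cd (S.ji q) else 0 := fun q => by
      have h := hk (Sum.inl q)
      simp only [a, Equiv.apply_symm_apply, Sum.elim_inl] at h
      split_ifs at h ⊢ with h'
      · exact frobenius_inj K p (sub_eq_zero.1 h)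
      · rw [sub_zero] at h
        exact pow_eq_zero_iff hp.ne_zero |>.1 h
    have hform : S.formVal cd = 0 := by
      rw [← sum_top, ← hz (fun i => cd i • S.V i (lin cd ^ (p - 1)))]
      calc ∑ q, (if S.je q = 0 then cd (S.ji q) • S.V (S.ji q) (lin cd ^ (p - 1)) else 0)
          = ∑ q, ∑ l, (if S.je q = 0 then C (y q * ζ (S.ji q) l) * X (Sum.inl l) else 0) := by
            refine Finset.sum_congr rfl fun q _ => ?_
            split_ifs with h
            · rw [hζ, hy, if_pos h, Finset.smul_sum]
              exact Finset.sum_congr rfl fun l _ => by rw [smul_eq_C_mul, ← mul_assoc, ← map_mul]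
            · simp
        _ = 0 := by
            rw [Finset.sum_comm]
            refine Finset.sum_eq_zero fun l _ => ?_
            have h := hk (Sum.inr l)
            simp only [a, Equiv.apply_symm_apply, Sum.elim_inr] at h
            calc ∑ q, (if S.je q = 0 then C (y q * ζ (S.ji q) l) * X (Sum.inl l) else 0 : S.S0)
                = C (∑ q, if S.je q = 0 then y q * ζ (S.ji q) l else 0) * X (Sum.inl l) := by
                  rw [map_sum, Finset.sum_mul]
                  exact Finset.sum_congr rfl fun q _ => by split_ifs <;> simp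
              _ = 0 := by rw [h, map_zero, zero_mul]
    have heval : ∀ l, eval cd (S.f l) = 0 := by
      intro l
      have h := congrArg (coeff (Finsupp.single (Sum.inl l : Fin n ⊕ S.Jet) 1)) hform
      simp only [formVal, coeff_sum, coeff_C_mul, coeff_zero] at h
      rw [Finset.sum_eq_single l] at h
      · simpa using h
      · intro l' _ hl'
        rw [coeff_X, if_neg, mul_zero]
        simp [Finsupp.single_eq_single_iff, hl']
      · simp
    have hcd : ∀ j, cd j = 0 := congrFun (haniso cd heval)
    funext k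
    obtain ⟨x, rfl⟩ := S.enum.symm.surjective k
    cases x with
    | inl q => show y q = 0; rw [hy, hcd, ite_self]
    | inr j => exact hcd j

include haniso in
/-- The model. -/
noncomputable def model : Model K p S.r S.R where
  gen := S.gen
  d := S.deg1
  deg := S.degR
  proj := S.projR
  d_pos i := by unfold deg1; cases S.enum i <;> simp
  one_mem := S.ED_one
  mul_mem hx hy := S.ED_mul hx hy
  gen_mem i := by
    show S.term (S.enum i) ∈ S.ED (S.deg1 i)
    unfold deg1
    cases S.enum i with
    | inl q => exact S.L_ED (isWeightedHomogeneous_X K S.wv (Sum.inr q))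
    | inr j => exact S.D_ED j
  var_mem i := by
    show S.L (S.rho (X i)) ∈ S.ED (S.deg1 i * p)
    rw [rho, aeval_X]
    unfold deg1 pv
    cases S.enum i with
    | inl q =>
      refine S.L_ED ?_
      have := (isWeightedHomogeneous_X K S.wv (Sum.inr q)).pow p
      simpa [wv, mul_comm] using this
    | inr l =>
      refine S.L_ED ?_
      simpa [wv] using isWeightedHomogeneous_X K S.wv (Sum.inl l)
  proj_mem a T := S.psi_ED (S.MP_mem a _)
  proj_same {a T} h := S.evalE.injective (by
    simp only [projR, LinearMap.comp_apply, LinearEquiv.coe_coe, LinearEquiv.apply_symm_apply]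
    exact S.MP_same (S.eval_mem h))
  proj_other {b a T} h hne := S.evalE.injective (by
    rw [show S.evalE (0 : S.R) = 0 from S.evalE.toLinearMap.map_zero]
    simp only [projR, LinearMap.comp_apply, LinearEquiv.coe_coe, LinearEquiv.apply_symm_apply]
    exact S.MP_other (S.eval_mem h) hne)
  proj_sum := S.projR_sum
  spans := S.monR_spans
  indep := S.monR_indep
  bracket i j := by
    classical
    have key : ∀ (b : S.R) (a : Fin S.r → K),
        algebraMap (Par K S.r) S.R (∑ k, C (a k) * X k) * b =
          ∑ k, algebraMap (Par K S.r) S.R (X k) * (a k • b) := fun b a => by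
      rw [map_sum, Finset.sum_mul]
      refine Finset.sum_congr rfl fun k _ => ?_
      rw [mul_comm (C (a k)), map_mul, mul_assoc, ← Algebra.smul_def (C (a k)) b,
        ← MvPolynomial.algebraMap_eq, algebraMap_smul]
    obtain ⟨x, rfl⟩ := S.enum.symm.surjective i
    obtain ⟨y, rfl⟩ := S.enum.symm.surjective j
    rcases x with q | j' <;> rcases y with q' | j''
    · refine ⟨0, fun k hk => absurd rfl hk, 0, Subtype.ext ?_⟩
      simp [gen, term, (S.L_comm _ _).eq]
    · obtain ⟨c, hc, a, hca⟩ := S.bracket_DG j'' q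
      refine ⟨-c, fun k hk => ?_, fun k => (-a k) • (1 : S.R), ?_⟩
      · exact ((hc k) (by simpa using hk)).symm
      · rw [← key, mul_one]
        refine Subtype.ext ?_
        simp only [Pi.neg_apply, neg_smul, map_neg, neg_mul, Finset.sum_neg_distrib, map_neg,
          AddMemClass.coe_add, NegMemClass.coe_neg, AddSubgroupClass.coe_sub, MulMemClass.coe_mul]
        rw [← neg_add, ← hca, neg_sub]
        simp [gen, term]
    · obtain ⟨c, hc, a, hca⟩ := S.bracket_DG j' q'
      refine ⟨c, hc, fun k => a k • (1 : S.R), ?_⟩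
      rw [← key, mul_one]
      refine Subtype.ext ?_
      simp only [AddMemClass.coe_add, AddSubgroupClass.coe_sub, MulMemClass.coe_mul]
      rw [← hca]
      simp [gen, term]
    · refine ⟨0, fun k hk => absurd rfl hk, 0, Subtype.ext ?_⟩
      simp [gen, term, (S.D_comm _ _).eq]
  power := S.power_gen haniso

include haniso in
/-- The algebra has no zero divisors. -/
theorem noZeroDivisors [IsAlgClosed K] : NoZeroDivisors S.R := (S.model haniso).noZeroDivisors

/-- The elements whose combinations take the forms as `p`-th powers. -/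
noncomputable def xi (j : Fin n) : S.R :=
  ⟨S.D j + S.L (S.pot j), S.alg.add_mem (S.D_mem j) (S.L_mem _)⟩

/-- The central element of a form. -/
noncomputable def zel (l : Fin n) : S.R :=
  algebraMap (Par K S.r) S.R (X (S.enum.symm (Sum.inr l)))

lemma zel_coe (l : Fin n) : (S.zel l : Module.End K S.Mod) = S.L (X (Sum.inl l)) := by
  rw [zel, algebraMap_coe, rho, aeval_X, Equiv.apply_symm_apply]
  rfl

/-- The `p`-th power of a combination is the value of the system. -/
theorem xi_pow (c : Fin n → K) :
    (∑ j, c j • S.xi j) ^ p = ∑ l, eval c (S.f l) • S.zel l := by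
  classical
  refine Subtype.ext ?_
  rw [SubmonoidClass.coe_pow, AddSubmonoidClass.coe_finsetSum, AddSubmonoidClass.coe_finsetSum]
  set y : S.Jet → K := fun q => if S.je q = 0 then c (S.ji q) else 0
  have hz : ∀ f : Fin n → S.S0, ∑ q, (if S.je q = 0 then f (S.ji q) else 0) = ∑ j, f j := by
    intro f
    rw [← Finset.sum_filter]
    refine Finset.sum_nbij' (fun q => S.ji q) (fun j => S.zq j)
      (fun q _ => Finset.mem_univ _) (fun j _ => Finset.mem_filter.2 ⟨Finset.mem_univ _, rfl⟩)
      (fun q hq => S.jet_ext rfl (Finset.mem_filter.1 hq).2.symm) (fun j _ => rfl) (fun q _ => rfl)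
  have hjet : ∀ q, S.je q = 0 → S.zq (S.ji q) = q := fun q h => S.jet_ext rfl h.symm
  have hlhs : ∑ j, ((c j • S.xi j : S.R) : Module.End K S.Mod) =
      S.Dc c + S.L (∑ q, C (y q) * X (Sum.inr q)) := by
    have h1 : ∑ q, C (y q) * X (Sum.inr q) = (∑ j, C (c j) * X (Sum.inr (S.zq j)) : S.S0) := by
      rw [← hz]
      refine Finset.sum_congr rfl fun q _ => ?_
      by_cases h : S.je q = 0
      · simp [y, h, hjet q h]
      · simp [y, h]
    rw [h1, map_sum, Dc, ← Finset.sum_add_distrib]
    exact Finset.sum_congr rfl fun j _ => by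
      simp [xi, pot_eq, smul_add, ← smul_eq_C_mul, map_smul]
  rw [hlhs, power_formula]
  simp only [SetLike.val_smul, zel_coe, ← map_smul, ← map_sum]
  congr 1
  have h2 : ∑ q, C (y q ^ p) * X (Sum.inr q) ^ p =
      (∑ j, C (c j ^ p) * X (Sum.inr (S.zq j)) ^ p : S.S0) := by
    rw [← hz]
    refine Finset.sum_congr rfl fun q _ => ?_
    by_cases h : S.je q = 0
    · simp [y, h, hjet q h]
    · simp [y, h, zero_pow (Fact.out : p.Prime).ne_zero]
  rw [h2, neg_add_cancel, zero_add]
  calc ∑ q, (if S.je q = 0 then C (y q) * S.V (S.ji q) (lin c ^ (p - 1)) else 0)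
      = ∑ i, C (c i) * S.V i (lin c ^ (p - 1)) := by
        rw [← hz]
        refine Finset.sum_congr rfl fun q _ => ?_
        by_cases h : S.je q = 0 <;> simp [y, h]
    _ = S.formVal c := by
        rw [← sum_top]
        exact Finset.sum_congr rfl fun i _ => (smul_eq_C_mul ..).symm
    _ = _ := by
        rw [formVal]
        exact Finset.sum_congr rfl fun l _ => (smul_eq_C_mul ..).symm

/-- Elements of different blocks commute. -/
theorem xi_comm {i j : Fin n} (h : S.grp i ≠ S.grp j) : Commute (S.xi i) (S.xi j) := by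
  refine Subtype.ext ?_
  have hd : ∀ a b : Fin n, S.grp a ≠ S.grp b → S.der a (S.pot b) = 0 := fun a b hab => by
    rw [pot, der_val]
    refine S.val_eq_zero fun hb => hab (hb a ?_)
    simp
  show (S.D i + S.L (S.pot i)) * (S.D j + S.L (S.pot j)) =
    (S.D j + S.L (S.pot j)) * (S.D i + S.L (S.pot i))
  rw [mul_add, mul_add, add_mul, add_mul, add_mul, add_mul, D_L, D_L, hd i j h, hd j i h.symm,
    map_zero, zero_add, zero_add, (S.D_comm i j).eq, (S.L_comm (S.pot i) (S.pot j)).eq]
  abel

/-- The elements are of degree one. -/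
lemma xi_mem (j : Fin n) : S.xi j ∈ S.degR 1 := by
  refine (S.ED 1).add_mem (S.D_ED j) (S.L_ED ?_)
  have := S.val_weight j 0
  simpa [pot] using this

end Sys

end Vale.Agent.P200.Prime
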