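import Mathlib

/-!
Counting: Hilbert series of the shape `U(T) / ∏ (1 - T^(d i))` admit no splitting of one.
-/

namespace Vale.Agent.P200.Prime

open PowerSeries Finset

/-- All coefficients are nonnegative. -/
def Nonneg (G : ℤ⟦X⟧) : Prop := ∀ s, 0 ≤ coeff s G

lemma Nonneg.mul {G H : ℤ⟦X⟧} (hG : Nonneg G) (hH : Nonneg H) : Nonneg (G * H) := fun s => by
  rw [PowerSeries.coeff_mul]
  exact Finset.sum_nonneg fun x _ => mul_nonneg (hG _) (hH _)

lemma nonneg_geom (e p : ℕ) : Nonneg (∑ k ∈ range p, (X : ℤ⟦X⟧) ^ (e * k)) := fun s => by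
  rw [map_sum]
  refine Finset.sum_nonneg fun k _ => ?_
  rw [PowerSeries.coeff_X_pow]
  split_ifs <;> norm_num

lemma not_eventually_neg : ∀ (r : ℕ) {G : ℤ⟦X⟧}, Nonneg G →
    ¬ ∃ s₀, ∀ s, s₀ ≤ s → coeff s (G * (1 - X) ^ r) ≤ -1 := by
  intro r
  induction r with
  | zero =>
    rintro G hG ⟨s₀, h⟩
    have := h s₀ le_rfl
    rw [pow_zero, mul_one] at this
    linarith [hG s₀]
  | succ r ih =>
    rintro G hG ⟨s₀, h⟩
    apply ih hG
    set T := G * (1 - X) ^ r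
    have hstep : ∀ s, s₀ ≤ s → coeff (s + 1) T ≤ coeff s T - 1 := fun s hs => by
      have := h (s + 1) (by omega)
      rw [pow_succ, ← mul_assoc, mul_sub, mul_one, map_sub, coeff_succ_mul_X] at this
      linarith
    have hlin : ∀ n : ℕ, coeff (s₀ + n) T ≤ coeff s₀ T - n := by
      intro n
      induction n with
      | zero => simp
      | succ n ihn =>
        have := hstep (s₀ + n) (by omega)
        push_cast
        rw [← Nat.add_assoc]
        linarith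
    refine ⟨s₀ + (coeff s₀ T).natAbs + 1, fun s hs => ?_⟩
    obtain ⟨n, rfl⟩ : ∃ n, s = s₀ + n := ⟨s - s₀, by omega⟩
    have := hlin n
    have := Int.le_natAbs (a := coeff s₀ T)
    have : ((coeff s₀ T).natAbs : ℤ) + 1 ≤ (n : ℤ) := by exact_mod_cast (by omega : _ + 1 ≤ n)
    linarith

/-- A nonnegative series with a numerator over `∏ (1 - X^(d i))` has nonnegative numerator at `1`. -/
theorem eval_one_nonneg {r : ℕ} (d : Fin r → ℕ) {G : ℤ⟦X⟧} (hG : Nonneg G) (V : Polynomial ℤ)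
    (hV : G * ∏ i, (1 - X ^ d i) = (V : ℤ⟦X⟧)) : 0 ≤ V.eval 1 := by
  by_contra hneg
  have hone : Nonneg (PowerSeries.mk fun _ => (1 : ℤ)) := fun s => by simp
  have hgeo : Nonneg (∏ i, ∑ k ∈ range (d i), (X : ℤ⟦X⟧) ^ (1 * k)) := by
    refine Finset.prod_induction _ Nonneg (fun _ _ h1 h2 => h1.mul h2) ?_ fun i _ => nonneg_geom 1 _
    intro s
    rw [PowerSeries.coeff_one]
    split_ifs <;> norm_num
  refine not_eventually_neg r ((hG.mul hgeo).mul hone) ⟨V.natDegree + 1, fun s hs => ?_⟩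
  have hfac : ∀ i, (∑ k ∈ range (d i), (X : ℤ⟦X⟧) ^ (1 * k)) * (1 - X) = 1 - X ^ d i := fun i => by
    simp only [one_mul]
    exact geom_sum_mul_neg X (d i)
  have heq : G * (∏ i, ∑ k ∈ range (d i), (X : ℤ⟦X⟧) ^ (1 * k)) * PowerSeries.mk (fun _ => (1 : ℤ))
      * (1 - X) ^ r = (V : ℤ⟦X⟧) * PowerSeries.mk (fun _ => (1 : ℤ)) := by
    rw [← hV, ← Finset.prod_congr rfl (fun i _ => hfac i), Finset.prod_mul_distrib,
      Finset.prod_const, Finset.card_univ, Fintype.card_fin]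
    ring
  rw [heq, PowerSeries.coeff_mul, Finset.Nat.sum_antidiagonal_eq_sum_range_succ
    (fun i j => coeff i (V : ℤ⟦X⟧) * coeff j (PowerSeries.mk fun _ => (1 : ℤ)))]
  simp only [coeff_mk, mul_one, Polynomial.coeff_coe, Nat.succ_eq_add_one]
  rw [Polynomial.eval_eq_sum_range' (show V.natDegree < s + 1 by omega)] at hneg
  simp only [one_pow, mul_one] at hneg
  omega

/-- No splitting of one: the two numerators would both be positive at `1`. -/
theorem no_split {r p : ℕ} (hp : 0 < p) (d : Fin r → ℕ) (q β₁ β₂ : ℕ) (h₁ h₂ : ℕ → ℤ)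
    (U₁ U₂ : Polynomial ℤ) {R P : ℤ⟦X⟧}
    (hR : R * ∏ i, (1 - X ^ d i) = 1) (hP : P * ∏ i, (1 - X ^ (d i * p)) = 1)
    (hU₁ : PowerSeries.mk h₁ * ∏ i, (1 - X ^ d i) = (U₁ : ℤ⟦X⟧))
    (hU₂ : PowerSeries.mk h₂ * ∏ i, (1 - X ^ d i) = (U₂ : ℤ⟦X⟧))
    (hsum : PowerSeries.mk h₁ + X ^ q * PowerSeries.mk h₂ = X ^ q * R)
    (hn₁ : ∀ s, 0 ≤ h₁ s) (hn₂ : ∀ s, 0 ≤ h₂ s)
    (hl₁ : ∀ s, coeff s P ≤ h₁ (β₁ + s)) (hl₂ : ∀ s, coeff s P ≤ h₂ (β₂ + s)) : False := by
  set D : ℤ⟦X⟧ := ∏ i, (1 - X ^ d i)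
  set E : ℤ⟦X⟧ := ∏ i, ∑ k ∈ range p, (X : ℤ⟦X⟧) ^ (d i * k)
  have hDE : ∏ i, ((1 : ℤ⟦X⟧) - X ^ (d i * p)) = D * E := by
    rw [← Finset.prod_mul_distrib]
    refine Finset.prod_congr rfl fun i _ => ?_
    simp only [pow_mul]
    exact (mul_neg_geom_sum (X ^ d i) p).symm
  have hE1 : ((∏ i, ∑ k ∈ range p, (Polynomial.X : Polynomial ℤ) ^ (d i * k) : Polynomial ℤ) :
      ℤ⟦X⟧) = E := by
    rw [← Polynomial.coeToPowerSeries.ringHom_apply, map_prod]
    simp [E, map_sum, Polynomial.coeToPowerSeries.ringHom_apply]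
  have pos : ∀ (h : ℕ → ℤ) (U : Polynomial ℤ) (β : ℕ), PowerSeries.mk h * D = (U : ℤ⟦X⟧) →
      (∀ s, 0 ≤ h s) → (∀ s, coeff s P ≤ h (β + s)) → 1 ≤ U.eval 1 := by
    intro h U β hU hn hl
    set G : ℤ⟦X⟧ := PowerSeries.mk h - X ^ β * P
    have hG : Nonneg G := fun s => by
      rw [map_sub, coeff_mk]
      rcases lt_or_ge s β with hs | hs
      · rw [coeff_X_pow_mul', if_neg (by omega)]
        linarith [hn s]
      · obtain ⟨t, rfl⟩ : ∃ t, s = β + t := ⟨s - β, by omega⟩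
        rw [Nat.add_comm β t, coeff_X_pow_mul, Nat.add_comm t β]
        linarith [hl t]
    have key := eval_one_nonneg (fun i => d i * p) hG
      (U * (∏ i, ∑ k ∈ range p, (Polynomial.X : Polynomial ℤ) ^ (d i * k)) - Polynomial.X ^ β) (by
        rw [Polynomial.coe_sub, Polynomial.coe_mul, hE1, Polynomial.coe_pow, Polynomial.coe_X,
          ← hU]
        simp only [G, sub_mul]
        rw [mul_assoc (X ^ β), hP, mul_one, hDE, ← mul_assoc])
    simp only [Polynomial.eval_sub, Polynomial.eval_mul, Polynomial.eval_prod,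
      Polynomial.eval_finsetSum, Polynomial.eval_pow, Polynomial.eval_X, one_pow,
      Finset.sum_const, Finset.card_range, nsmul_eq_mul, mul_one, Finset.prod_const] at key
    by_contra hlt
    have : (0 : ℤ) < (p : ℤ) ^ r := pow_pos (by exact_mod_cast hp) r
    simp only [Finset.card_univ, Fintype.card_fin] at key
    nlinarith
  have h1 := pos h₁ U₁ β₁ hU₁ hn₁ hl₁
  have h2 := pos h₂ U₂ β₂ hU₂ hn₂ hl₂
  have hpoly : U₁ + Polynomial.X ^ q * U₂ = Polynomial.X ^ q := by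
    apply Polynomial.coe_injective ℤ
    rw [Polynomial.coe_add, Polynomial.coe_mul, Polynomial.coe_pow, Polynomial.coe_X, ← hU₁, ← hU₂,
      ← mul_assoc, ← add_mul, hsum, mul_assoc, hR, mul_one]
  have := congrArg (Polynomial.eval (1 : ℤ)) hpoly
  simp only [Polynomial.eval_add, Polynomial.eval_mul, Polynomial.eval_pow, Polynomial.eval_X,
    one_pow, one_mul] at this
  omega

end Vale.Agent.P200.Prime
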