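import Mathlib

/-!
An elementary form of the lemma of Dade: a finite dimensional module over a nilpotent restricted
Lie algebra with zero `p`-map which is free on every line is free.
-/

namespace Vale.Agent.P200.Prime

open Module

variable {K V : Type*} [Field K] [AddCommGroup V] [Module K V]

lemma pow_apply_add (f : Module.End K V) (i j : ℕ) (x : V) :
    (f ^ (i + j)) x = (f ^ i) ((f ^ j) x) := by
  rw [pow_add, Module.End.mul_apply]

/-- Freeness on a line passes to all powers. -/
lemma free_pow {p : ℕ} {b : Module.End K V}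
    (hb : ∀ x, b x = 0 → ∃ y, (b ^ (p - 1)) y = x) :
    ∀ j, j ≤ p → ∀ x, (b ^ j) x = 0 → ∃ y, (b ^ (p - j)) y = x := by
  intro j
  induction j generalizing p with
  | zero => exact fun _ x hx => ⟨0, by simpa using hx.symm⟩
  | succ j ih =>
    intro hj x hx
    rw [pow_succ', Module.End.mul_apply] at hx
    obtain ⟨y, hy⟩ := hb _ hx
    have hy' : (b ^ j) (x - (b ^ (p - 1 - j)) y) = 0 := by
      rw [map_sub, ← pow_apply_add, show j + (p - 1 - j) = p - 1 by omega, hy, sub_self]
    obtain ⟨z, hz⟩ := ih hb (by omega) _ hy'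
    refine ⟨y + b z, ?_⟩
    rw [map_add, ← Module.End.mul_apply, ← pow_succ, show p - (j + 1) + 1 = p - j by omega, hz,
      show p - (j + 1) = p - 1 - j by omega]
    abel

lemma cast_choose_prime_sub_one {p : ℕ} (hp : p.Prime) [CharP K p] :
    ∀ k, k < p → ((p - 1).choose k : K) = (-1) ^ k := by
  intro k
  induction k with
  | zero => intro _; simp
  | succ k ih =>
    intro hk
    have h : (p.choose (k + 1) : K) = 0 :=
      (CharP.cast_eq_zero_iff K p _).2 (hp.dvd_choose_self (by omega) hk)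
    have h' : p.choose (k + 1) = (p - 1).choose k + (p - 1).choose (k + 1) := by
      conv_lhs => rw [show p = p - 1 + 1 by omega, Nat.choose_succ_succ]
    rw [h', Nat.cast_add, ih (by omega)] at h
    rw [pow_succ]
    linear_combination h

lemma sub_smul_pow {p : ℕ} (hp : p.Prime) [CharP K p] {a b : Module.End K V} (hab : Commute a b)
    (s : K) (x : V) :
    ((a - s • b) ^ (p - 1)) x =
      ∑ j ∈ Finset.range p, s ^ j • (a ^ (p - 1 - j)) ((b ^ j) x) := by
  have hc : Commute a ((-s) • b) := hab.smul_right (-s)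
  rw [show a - s • b = (-s) • b + a by rw [neg_smul]; abel, hc.symm.add_pow,
    show p - 1 + 1 = p by have := hp.pos; omega, LinearMap.sum_apply]
  refine Finset.sum_congr rfl fun j hj => ?_
  rw [Finset.mem_range] at hj
  have hcomm : Commute (b ^ j) (a ^ (p - 1 - j)) := hab.symm.pow_pow _ _
  rw [smul_pow, smul_mul_assoc, hcomm.eq, ← nsmul_eq_mul', ← Nat.cast_smul_eq_nsmul K,
    smul_smul, cast_choose_prime_sub_one hp j hj, ← mul_pow,
    show (-1 : K) * -s = s by ring]
  rfl

variable [FiniteDimensional K V]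

/-- The lemma of Dade for two commuting operators. -/
theorem dade_two [IsAlgClosed K] {p : ℕ} (hp : p.Prime) [CharP K p] {a b : Module.End K V}
    (hab : Commute a b) (hap : a ^ p = 0) (hbp : b ^ p = 0)
    (hb : ∀ x, b x = 0 → ∃ y, (b ^ (p - 1)) y = x)
    (h : ∀ t : K, ∀ x, (a + t • b) x = 0 → ∃ y, ((a + t • b) ^ (p - 1)) y = x)
    {u : V} (hau : a u = 0) (hbu : b u = 0) :
    ∃ e, (a ^ (p - 1)) ((b ^ (p - 1)) e) = u := by
  have hp1 : p - 1 + 1 = p := by have := hp.pos; omega
  set C : Submodule K V := LinearMap.ker a ⊓ LinearMap.ker b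
  set Rf : Module.End K V := a ^ (p - 1) * b ^ (p - 1)
  have hbf := free_pow hb
  -- linear choices
  have hq : ∃ q : C →ₗ[K] V, ∀ x : C, (b ^ (p - 1)) (q x) = x := by
    obtain ⟨g, hg⟩ := (b ^ (p - 1)).rangeRestrict.exists_rightInverse_of_surjective
      (b ^ (p - 1)).range_rangeRestrict
    refine ⟨g.comp (LinearMap.codRestrict (LinearMap.range (b ^ (p - 1))) C.subtype
      fun x => hb x.1 x.2.2), fun x => ?_⟩
    have := LinearMap.congr_fun hg (LinearMap.codRestrict (LinearMap.range (b ^ (p - 1))) C.subtype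
      (fun x => hb x.1 x.2.2) x)
    exact congrArg Subtype.val this
  obtain ⟨q, hq⟩ := hq
  have haq : ∀ x : C, a (q x) ∈ LinearMap.range b := fun x => by
    have h0 : (b ^ (p - 1)) (a (q x)) = 0 := by
      rw [← Module.End.mul_apply, ← (hab.pow_right _).eq, Module.End.mul_apply, hq]
      exact x.2.1
    obtain ⟨y, hy⟩ := hbf (p - 1) (by omega) _ h0
    rw [show p - (p - 1) = 1 by have := hp.pos; omega, pow_one] at hy
    exact ⟨y, hy⟩
  have hp0 : ∃ p0 : C →ₗ[K] V, ∀ x : C, b (p0 x) = a (q x) := by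
    obtain ⟨g, hg⟩ := b.rangeRestrict.exists_rightInverse_of_surjective b.range_rangeRestrict
    refine ⟨g.comp (LinearMap.codRestrict (LinearMap.range b) (a.comp q) haq), fun x => ?_⟩
    have := LinearMap.congr_fun hg
      (LinearMap.codRestrict (LinearMap.range b) (a.comp q) haq x)
    exact congrArg Subtype.val this
  obtain ⟨p0, hp0⟩ := hp0
  have hT : ∀ x : C, (a ^ (p - 1)) (p0 x) ∈ C := fun x => by
    refine ⟨?_, ?_⟩
    · show a ((a ^ (p - 1)) (p0 x)) = 0
      rw [← Module.End.mul_apply, ← pow_succ', hp1, hap]; rfl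
    · show b ((a ^ (p - 1)) (p0 x)) = 0
      rw [← Module.End.mul_apply, ← (hab.pow_left _).eq, Module.End.mul_apply, hp0,
        ← Module.End.mul_apply, ← pow_succ, hp1, hap]; rfl
  let T : C →ₗ[K] C := LinearMap.codRestrict C ((a ^ (p - 1)).comp p0) hT
  set R : Submodule K C := (LinearMap.range Rf).comap C.subtype
  have hR : R ≤ R.comap T := by
    rintro x ⟨r, hr⟩
    have hr' : (a ^ (p - 1)) ((b ^ (p - 1)) r) = (x : V) := hr
    have h1 : (b ^ (p - 1)) (q x - (a ^ (p - 1)) r) = 0 := by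
      rw [map_sub, hq, ← hr', ← Module.End.mul_apply (b ^ (p - 1)),
        ← ((hab.pow_pow _ _).eq), Module.End.mul_apply, sub_self]
    obtain ⟨s, hs⟩ := hbf (p - 1) (by omega) _ h1
    rw [show p - (p - 1) = 1 by have := hp.pos; omega, pow_one] at hs
    have h2 : b (p0 x - a s) = 0 := by
      rw [map_sub, hp0, ← Module.End.mul_apply b, ← hab.eq, Module.End.mul_apply, hs,
        ← map_sub, sub_sub_cancel, ← Module.End.mul_apply, ← pow_succ', hp1, hap]
      rfl
    obtain ⟨e, he⟩ := hb _ h2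
    refine ⟨e, ?_⟩
    show (a ^ (p - 1)) ((b ^ (p - 1)) e) = (a ^ (p - 1)) (p0 x)
    rw [he, map_sub, ← Module.End.mul_apply (a ^ (p - 1)) a, ← pow_succ, hp1, hap]
    simp
  by_contra hne
  have hnt : Nontrivial (C ⧸ R) := by
    refine ⟨Submodule.Quotient.mk (⟨u, hau, hbu⟩ : C), 0, fun h0 => hne ?_⟩
    obtain ⟨e, he⟩ := (Submodule.Quotient.mk_eq_zero R).1 h0
    exact ⟨e, he⟩
  obtain ⟨c, hc⟩ := Module.End.exists_eigenvalue (R.mapQ R T hR)
  obtain ⟨z, hz, hz0⟩ := hc.exists_hasEigenvector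
  obtain ⟨w, rfl⟩ := Submodule.Quotient.mk_surjective R z
  apply hz0
  rw [Submodule.Quotient.mk_eq_zero]
  rw [Module.End.mem_eigenspace_iff, Submodule.mapQ_apply, ← Submodule.Quotient.mk_smul,
    Submodule.Quotient.eq] at hz
  obtain ⟨e0, he0⟩ := hz
  have he0' : (a ^ (p - 1)) ((b ^ (p - 1)) e0) = (a ^ (p - 1)) (p0 w) - c • (w : V) := he0
  obtain ⟨s, hs⟩ := IsAlgClosed.exists_pow_nat_eq c hp.pos
  set p1 := p0 w - (b ^ (p - 1)) e0
  have h1 : b p1 = a (q w) := by
    rw [map_sub, hp0, ← Module.End.mul_apply b, ← pow_succ', hp1, hbp]; simp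
  have h2 : (a ^ (p - 1)) p1 = c • (w : V) := by rw [map_sub, he0']; abel
  have key : ((a - s • b) ^ (p - 1)) (p1 - s • q w) = 0 := by
    rw [map_sub, map_smul, sub_smul_pow hp hab, sub_smul_pow hp hab, Finset.smul_sum, sub_eq_zero]
    conv_lhs => rw [← hp1, Finset.sum_range_succ']
    conv_rhs => rw [← hp1, Finset.sum_range_succ]
    simp only [hp1]
    have hsum : ∀ j ∈ Finset.range (p - 1),
        s ^ (j + 1) • (a ^ (p - 1 - (j + 1))) ((b ^ (j + 1)) p1)
          = s • s ^ j • (a ^ (p - 1 - j)) ((b ^ j) (q w)) := by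
      intro j hj
      rw [Finset.mem_range] at hj
      rw [pow_succ b j, Module.End.mul_apply, h1, ← Module.End.mul_apply (b ^ j) a,
        ← (hab.pow_right j).eq, Module.End.mul_apply, ← Module.End.mul_apply (a ^ _) a,
        ← pow_succ, show p - 1 - (j + 1) + 1 = p - 1 - j by omega, smul_smul, ← pow_succ']
    rw [Finset.sum_congr rfl hsum]
    simp only [pow_zero, one_smul, Module.End.one_apply, Nat.sub_zero, Nat.sub_self]
    rw [h2, hq, smul_smul, ← pow_succ', hp1, hs]
  have hfree : ∀ x, (a - s • b) x = 0 → ∃ y, ((a - s • b) ^ (p - 1)) y = x := by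
    have := h (-s)
    simpa only [neg_smul, ← sub_eq_add_neg] using this
  obtain ⟨y, hy⟩ := free_pow hfree (p - 1) (by omega) _ key
  rw [show p - (p - 1) = 1 by have := hp.pos; omega, pow_one] at hy
  have hc' : Commute (a - s • b) b := hab.sub_left ((Commute.refl b).smul_left s)
  have h3 : (a - s • b) (b y - q w) = 0 := by
    rw [map_sub, ← Module.End.mul_apply, hc'.eq, Module.End.mul_apply, hy, map_sub, h1, map_smul]
    simp
  obtain ⟨e, he⟩ := hfree _ h3
  refine ⟨-e, ?_⟩
  show (a ^ (p - 1)) ((b ^ (p - 1)) (-e)) = (w : V)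
  have hz : ∀ j ∈ Finset.range p, j ≠ 0 →
      s ^ j • (a ^ (p - 1 - j)) ((b ^ j) ((b ^ (p - 1)) e)) = 0 := by
    intro j hj hj0
    rw [← pow_apply_add, show j + (p - 1) = (j - 1) + p by omega, pow_add, hbp, mul_zero]
    simp
  have hfin : ((a - s • b) ^ (p - 1)) ((b ^ (p - 1)) e) = -(w : V) := by
    rw [← Module.End.mul_apply, (hc'.pow_pow _ _).eq, Module.End.mul_apply, he, map_sub, hq,
      ← Module.End.mul_apply, ← pow_succ, hp1, hbp]
    simp
  rw [sub_smul_pow hp hab, Finset.sum_eq_single 0 hz (fun h0 => absurd (by simp [hp.pos]) h0)]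
    at hfin
  simp only [pow_zero, one_smul, Module.End.one_apply, Nat.sub_zero] at hfin
  rw [map_neg, map_neg, hfin, neg_neg]

end Vale.Agent.P200.Prime
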