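import Vale.Agent.P200.Prime.Grading
import Vale.Agent.P200.Prime.Count

/-!
A model algebra is a domain.
-/

namespace Vale.Agent.P200.Prime

open MvPolynomial

variable {K : Type*} [Field K] [IsAlgClosed K] {p r : ℕ} [Fact p.Prime] [CharP K p]
variable {R : Type*} [Ring R] [Algebra K R] [Algebra (Par K r) R] [IsScalarTower K (Par K r) R]

namespace Model

variable (A : Model K p r R) {κ : Type} [Fintype κ] (s : κ → ℕ)

omit [IsAlgClosed K] [Fact p.Prime] [CharP K p] [Fintype κ] in
lemma C_smul (c : K) (x : κ → R) : (C c : Par K r) • x = c • x := by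
  rw [← MvPolynomial.algebraMap_eq, algebraMap_smul]

/-- The standard basis of a free module over the parameters. -/
noncomputable def freeBasis : Module.Basis ((_ : κ) × (Fin r → Fin p)) (Par K r) (κ → R) :=
  Pi.basis fun _ => A.pBasis

omit [IsAlgClosed K] [CharP K p] [Fact p.Prime] [IsScalarTower K (Par K r) R] in
include A in
lemma noetherian : IsNoetherian (Par K r) (κ → R) :=
  have := Module.Finite.of_basis (A.freeBasis (κ := κ))
  isNoetherian_of_isNoetherianRing_of_finite _ _

omit [IsAlgClosed K] [CharP K p] [Fact p.Prime] [IsScalarTower K (Par K r) R] in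
/-- Every homogeneous submodule has a finite homogeneous family of generators. -/
lemma exists_cover (M : Submodule R (κ → R)) (hM : A.Homog s M) :
    ∃ (N : ℕ) (s' : Fin N → ℕ) (φ : (Fin N → R) →ₗ[R] (κ → R)),
      LinearMap.range φ = M ∧ ∀ m, ∀ y ∈ A.FD s' m, φ y ∈ A.FD s m := by
  classical
  have := A.noetherian (κ := κ)
  have : IsNoetherian R (κ → R) := isNoetherian_of_tower (Par K r) this
  obtain ⟨S, hS⟩ := IsNoetherian.noetherian M
  choose D hD using fun x : κ → R => A.FP_sum s x
  let J : Finset ((κ → R) × ℕ) := S.biUnion fun x => (Finset.range (D x)).image fun n => (x, n)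
  let e := J.equivFin
  let g : Fin J.card → (κ → R) := fun a => A.FP s (e.symm a).1.2 (e.symm a).1.1
  refine ⟨J.card, fun a => (e.symm a).1.2, Fintype.linearCombination R g, ?_, fun m y hy => ?_⟩
  · rw [Fintype.range_linearCombination]
    refine le_antisymm (Submodule.span_le.2 ?_) ?_
    · rintro _ ⟨a, rfl⟩
      obtain ⟨x, hx, hxa⟩ := Finset.mem_biUnion.1 (e.symm a).2
      obtain ⟨n, -, hn⟩ := Finset.mem_image.1 hxa
      exact hM _ (hS ▸ Submodule.subset_span (by rw [← hn]; exact hx)) _
    · rw [← hS, Submodule.span_le]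
      intro x hx
      have hmem : ∀ n ∈ Finset.range (D x), A.FP s n x ∈ Submodule.span R (Set.range g) := by
        intro n hn
        refine Submodule.subset_span ⟨e ⟨(x, n), Finset.mem_biUnion.2
          ⟨x, hx, Finset.mem_image.2 ⟨n, hn, rfl⟩⟩⟩, ?_⟩
        simp [g]
      exact hD x (D x) le_rfl ▸ Submodule.sum_mem _ hmem
  · rw [Fintype.linearCombination_apply]
    refine Submodule.sum_mem _ fun a _ => ?_
    rcases Nat.lt_or_ge m (e.symm a).1.2 with h | h
    · rw [(hy a).2 h, zero_smul]
      exact zero_mem _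
    · have := A.smul_FD s ((hy a).1 h) (A.FP_mem s (e.symm a).1.2 (e.symm a).1.1)
      rwa [Nat.sub_add_cancel h] at this

omit [IsAlgClosed K] [CharP K p] [Fact p.Prime] in
/-- Homogeneous representatives of a basis modulo `W`. -/
lemma exists_residues (M : Submodule R (κ → R)) (hM : A.Homog s M) (W : Submodule K (κ → R))
    (hW : (Q K r M r).restrictScalars K ≤ W) :
    ∃ (N : ℕ) (t : Fin N → ℕ) (b : Fin N → (κ → R)),
      (∀ a, b a ∈ M ∧ b a ∈ A.FD s (t a)) ∧
      (∀ x ∈ M, ∃ c : Fin N → K, x - ∑ a, c a • b a ∈ W) ∧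
      ∀ c : Fin N → K, ∑ a, c a • b a ∈ W → c = 0 := by
  classical
  have hnoe := A.noetherian (κ := κ)
  obtain ⟨S, hS⟩ := IsNoetherian.noetherian (M.restrictScalars (Par K r))
  let T : Set ((κ → R) ⧸ W) := W.mkQ '' {x | x ∈ M ∧ ∃ n, x ∈ A.FD s n}
  obtain ⟨B, hBT, hBspan, hBli⟩ := exists_linearIndependent K T
  have hle : Submodule.span K T ≤ Submodule.span K (W.mkQ '' (S : Set (κ → R))) := by
    rw [Submodule.span_le]
    rintro _ ⟨x, ⟨hx, -⟩, rfl⟩
    have hx' : x ∈ Submodule.span (Par K r) (S : Set (κ → R)) := hS ▸ hx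
    induction hx' using Submodule.span_induction with
    | mem y hy => exact Submodule.subset_span ⟨y, hy, rfl⟩
    | zero => rw [map_zero]; exact zero_mem _
    | add y z _ _ hy hz => rw [map_add]; exact add_mem (hy (by simp_all)) (hz (by simp_all))
    | smul c y hy' hy =>
      have hyM : y ∈ M := hS.le hy'
      have h1 : c • y - constantCoeff c • y ∈ W := hW <| by
        rw [← C_smul (r := r) (constantCoeff c) y, ← sub_smul]
        have := mem_Q_of_repr (K := K) (r := r) (R := R) (fun _ : Unit => y) (M := M) (k := r)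
          (fun _ => hyM) (fun _ => c - C (constantCoeff c)) (fun _ => by
            rw [mem_span_vars_iff]
            intro m hm
            have hm0 : m ≠ 0 := by
              rintro rfl
              rw [MvPolynomial.mem_support_iff, coeff_sub, coeff_C, if_pos rfl] at hm
              exact hm (sub_self _)
            obtain ⟨i, hi⟩ := Finsupp.ne_iff.1 hm0
            exact ⟨i, i.2, by simpa using hi⟩)
        simpa using this
      rw [← Submodule.Quotient.eq] at h1
      show Submodule.Quotient.mk (c • y) ∈ _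
      rw [h1, Submodule.Quotient.mk_smul]
      exact Submodule.smul_mem _ _ (hy hyM)
  have : FiniteDimensional K (Submodule.span K (W.mkQ '' (S : Set (κ → R)))) :=
    FiniteDimensional.span_of_finite K (S.finite_toSet.image _)
  have hBfin : B.Finite := by
    have hsub : ∀ v : B, (v : (κ → R) ⧸ W) ∈ Submodule.span K (W.mkQ '' (S : Set (κ → R))) :=
      fun v => hle (Submodule.subset_span (hBT v.2))
    have hli : LinearIndependent K (fun v : B =>
        (⟨v.1, hsub v⟩ : Submodule.span K (W.mkQ '' (S : Set (κ → R))))) :=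
      LinearIndependent.of_comp (Submodule.subtype _) hBli
    exact Set.finite_coe_iff.1 hli.finite
  have := hBfin.fintype
  let e := Fintype.equivFin B
  choose b hb hbmk using fun v : B => hBT v.2
  choose t ht using fun v : B => (hb v).2
  refine ⟨Fintype.card B, fun a => t (e.symm a), fun a => b (e.symm a),
    fun a => ⟨(hb _).1, ht _⟩, fun x hx => ?_, fun c hc => ?_⟩
  · have hxT : W.mkQ x ∈ Submodule.span K (Set.range ((↑) : B → (κ → R) ⧸ W)) := by
      rw [Subtype.range_coe, hBspan]
      obtain ⟨D, hD⟩ := A.FP_sum s x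
      rw [← hD D le_rfl, map_sum]
      exact Submodule.sum_mem _ fun n _ =>
        Submodule.subset_span ⟨_, ⟨hM x hx n, n, A.FP_mem s n x⟩, rfl⟩
    obtain ⟨c, hc⟩ := (Submodule.mem_span_range_iff_exists_fun K).1 hxT
    refine ⟨fun a => c (e.symm a), ?_⟩
    rw [← Submodule.Quotient.eq, ← Submodule.mkQ_apply, ← Submodule.mkQ_apply, map_sum, ← hc,
      ← e.symm.sum_comp]
    simp [← hbmk]
  · have h0 : ∑ a, c a • (((e.symm a : B)) : (κ → R) ⧸ W) = 0 := by
      have := (Submodule.Quotient.mk_eq_zero W).2 hc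
      rw [← Submodule.mkQ_apply, map_sum] at this
      simpa [← hbmk] using this
    exact funext (Fintype.linearIndependent_iff.1 (hBli.comp _ e.symm.injective) c h0)

omit [IsAlgClosed K] [CharP K p] in
/-- Homogeneous families with residues spanning modulo the parameters generate over the parameters. -/
lemma span_of_residues {ι : Type*} [Fintype ι] (M : Submodule R (κ → R)) (_hM : A.Homog s M)
    (b : ι → (κ → R)) (t : ι → ℕ) (hb : ∀ a, b a ∈ M ∧ b a ∈ A.FD s (t a))
    (hres : ∀ x ∈ M, ∃ c : ι → K, x - ∑ a, c a • b a ∈ Q K r M r) :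
    ∀ x ∈ M, ∃ c : ι → Par K r, ∑ a, c a • b a = x := by
  classical
  have hp : 0 < p := (Fact.out : p.Prime).pos
  suffices h : ∀ n, ∀ x ∈ M, A.FP s n x ∈ Submodule.span (Par K r) (Set.range b) by
    intro x hx
    obtain ⟨D, hD⟩ := A.FP_sum s x
    refine (Submodule.mem_span_range_iff_exists_fun _).1 ?_
    rw [← hD D le_rfl]
    exact Submodule.sum_mem _ fun n _ => h n x hx
  intro n
  induction n using Nat.strong_induction_on with
  | _ n ih =>
    intro x hx
    obtain ⟨c, u, hu, -, hsum⟩ := hres x hx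
    rw [eq_sub_iff_add_eq] at hsum
    rw [← hsum, map_add, map_sum, map_sum]
    refine add_mem (Submodule.sum_mem _ fun i _ => ?_) (Submodule.sum_mem _ fun a _ => ?_)
    · have h := A.FP_map s s (DistribSMul.toAddMonoidHom (κ → R) (X i : Par K r)) (A.d i * p)
        (fun m y hy => by
          have := A.smul_FD s (A.var_mem i) hy
          rw [algebraMap_smul] at this
          rwa [Nat.add_comm] at this) n (u i)
      simp only [DistribSMul.toAddMonoidHom_apply] at h
      rw [h]
      split_ifs with hle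
      · exact Submodule.smul_mem _ _
          (ih _ (by have := Nat.mul_pos (A.d_pos i) hp; omega) _ (hu i))
      · exact zero_mem _
    · rw [map_smul]
      rcases eq_or_ne (t a) n with h | h
      · rw [A.FP_same s (h ▸ (hb a).2), ← C_smul (r := r)]
        exact Submodule.smul_mem _ _ (Submodule.subset_span ⟨a, rfl⟩)
      · rw [A.FP_other s (hb a).2 h, smul_zero]
        exact zero_mem _

omit [IsAlgClosed K] [CharP K p] in
/-- Homogeneous families with residues forming a basis are a basis over the parameters. -/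
lemma basis_of_residues {ι : Type*} [Fintype ι] (M : Submodule R (κ → R)) (hM : A.Homog s M)
    (hreg : Reg K r M r) (b : ι → (κ → R)) (t : ι → ℕ)
    (hb : ∀ a, b a ∈ M ∧ b a ∈ A.FD s (t a))
    (hres : ∀ x ∈ M, ∃ c : ι → K, x - ∑ a, c a • b a ∈ Q K r M r)
    (hind : ∀ c : ι → K, ∑ a, c a • b a ∈ Q K r M r → c = 0) :
    (∀ x ∈ M, ∃ c : ι → Par K r, ∑ a, c a • b a = x) ∧
      ∀ c : ι → Par K r, ∑ a, c a • b a = 0 → c = 0 := by
  refine ⟨A.span_of_residues s M hM b t hb hres, ?_⟩
  refine indep_of_regular b (fun a => (hb a).1) hreg fun c hc => hind c ?_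
  simpa [C_smul] using hc

omit [IsAlgClosed K] [CharP K p] in
/-- A combination of generators is free on a regular module modulo the parameters. -/
lemma line_free (M : Submodule R (κ → R)) (hM : A.Homog s M) (hreg : Reg K r M r)
    (c : Fin r → K) (hc : c ≠ 0) {x : κ → R} (hx : x ∈ M)
    (hvx : (∑ i, c i • A.gen i) • x ∈ Q K r M r) :
    ∃ y ∈ M, x - (∑ i, c i • A.gen i) ^ (p - 1) • y ∈ Q K r M r := by
  classical
  set v := ∑ i, c i • A.gen i
  obtain ⟨a, ha, hane⟩ := A.power c
  obtain ⟨j₀, hj₀⟩ := Function.ne_iff.1 (hane hc)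
  simp only [Pi.zero_apply] at hj₀
  set l : Par K r := ∑ i, C (a i) * X i
  obtain ⟨N, t, b, hb, hres, hind⟩ := A.exists_residues s M hM _ le_rfl
  obtain ⟨hspan, hli⟩ := A.basis_of_residues s M hM hreg b t hb hres hind
  -- the other parameters
  set J : Ideal (Par K r) := Ideal.span (X '' {i : Fin r | i ≠ j₀})
  have hJ : ∀ f : Par K r, l * f ∈ J → f ∈ J := by
    intro f hf
    rw [mem_ideal_span_X_image] at hf ⊢
    intro m hm
    by_contra hcon
    push Not at hcon
    have hm' : ∀ i, i ≠ j₀ → m i = 0 := fun i hi => hcon i hi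
    have hne : coeff (Finsupp.single j₀ 1 + m) (l * f) ≠ 0 := by
      rw [Finset.sum_mul, coeff_sum, Finset.sum_eq_single j₀]
      · rw [mul_assoc, coeff_C_mul, coeff_X_mul]
        exact mul_ne_zero hj₀ (MvPolynomial.mem_support_iff.1 hm)
      · intro i _ hi
        rw [mul_assoc, coeff_C_mul, coeff_X_mul', if_neg, mul_zero]
        simp [Finsupp.mem_support_iff, hm' i hi, Finsupp.single_eq_of_ne hi]
      · simp
    obtain ⟨i, hi, hi'⟩ := hf _ (MvPolynomial.mem_support_iff.2 hne)
    exact hi' (by simp [Finsupp.single_eq_of_ne hi, hm' i hi])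
  obtain ⟨u, hu, -, husum⟩ := hvx
  have hp1 : p - 1 + 1 = p := by have := (Fact.out : p.Prime).pos; omega
  set w := fun i => u i - ((a i / a j₀ : K)) • u j₀
  have hsplit : (v • x : κ → R) = l • ((a j₀)⁻¹ • u j₀) + ∑ i, (X i : Par K r) • w i := by
    rw [← husum]
    simp only [w, smul_sub, Finset.sum_sub_distrib, Finset.sum_smul, l]
    have : ∀ i, (C (a i) * X i : Par K r) • ((a j₀)⁻¹ • u j₀) =
        (X i : Par K r) • ((a i / a j₀) • u j₀) := fun i => by
      rw [mul_comm, mul_smul, C_smul, smul_smul, div_eq_mul_inv]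
    simp only [this]
    abel
  set y := (a j₀)⁻¹ • u j₀
  have hy : y ∈ M := by
    show (a j₀)⁻¹ • u j₀ ∈ M
    rw [← algebraMap_smul R (a j₀)⁻¹]
    exact M.smul_mem _ (hu j₀)
  have hw : ∀ i, w i ∈ M := fun i => by
    refine sub_mem (hu i) ?_
    rw [← algebraMap_smul R (a i / a j₀)]
    exact M.smul_mem _ (hu j₀)
  have hw₀ : w j₀ = 0 := by simp [w, div_self hj₀]
  have hcomm : ∀ (c : Par K r) (z : κ → R), v • c • z = c • v • z := fun c z => by
    rw [← algebraMap_smul R c z, ← algebraMap_smul R c (v • z), smul_smul, smul_smul,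
      Algebra.commutes]
  have hl : l • y = v ^ p • y := by rw [ha, algebraMap_smul]
  set z := x - v ^ (p - 1) • y
  refine ⟨y, hy, ?_⟩
  have hz : z ∈ M := sub_mem hx (M.smul_mem _ hy)
  have hvz : l • z = ∑ i, (X i : Par K r) • (v ^ (p - 1) • w i) := by
    have h1 : v • z = ∑ i, (X i : Par K r) • w i := by
      rw [smul_sub, smul_smul, ← pow_succ', hp1, hsplit, hl]
      abel
    have h2 : v ^ (p - 1) • v • z = l • z := by
      rw [smul_smul, ← pow_succ, hp1, ha, algebraMap_smul]
    rw [← h2, h1, Finset.smul_sum]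
    refine Finset.sum_congr rfl fun i _ => ?_
    rw [← algebraMap_smul R (X i : Par K r) (w i),
      ← algebraMap_smul R (X i : Par K r) (v ^ (p - 1) • w i), smul_smul, smul_smul,
      Algebra.commutes]
  obtain ⟨cz, hcz⟩ := hspan z hz
  choose cw hcw using fun i => hspan _ (M.smul_mem (v ^ (p - 1)) (hw i))
  have hzero := hli (fun a => l * cz a - ∑ i, if i = j₀ then 0 else X i * cw i a) (by
    simp only [sub_smul, Finset.sum_sub_distrib, Finset.sum_smul, mul_smul, ← Finset.smul_sum,
      hcz, hvz, sub_eq_zero]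
    rw [Finset.sum_comm]
    refine Finset.sum_congr rfl fun i _ => ?_
    rcases eq_or_ne i j₀ with rfl | hi
    · simp [hw₀]
    · simp only [if_neg hi, mul_smul, ← Finset.smul_sum, hcw])
  show z ∈ Q K r M r
  rw [← hcz]
  refine mem_Q_of_repr b (fun a => (hb a).1) cz fun a => ?_
  have hmem : l * cz a ∈ J := by
    have := congrFun hzero a
    rw [Pi.zero_apply, sub_eq_zero] at this
    rw [this]
    refine sum_mem fun i _ => ?_
    split_ifs with hi
    · exact zero_mem _
    · exact Ideal.mul_mem_right _ _ (Ideal.subset_span ⟨i, hi, rfl⟩)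
  refine Ideal.span_mono (Set.image_mono ?_) (hJ _ hmem)
  exact fun i _ => i.2

/-- A homogeneous module on which all parameters are regular is free over the model. -/
theorem hilb_of_reg (M : Submodule R (κ → R)) (hM : A.Homog s M) (hreg : Reg K r M r) :
    ∃ U : Polynomial ℤ, A.hilb s M = (U : PowerSeries ℤ) * weightSeries A.d := by
  classical
  have hp := (Fact.out : p.Prime)
  have hp0 : NeZero p := ⟨hp.ne_zero⟩
  obtain ⟨N₀, t₀, b₀, hb₀, hres₀, hind₀⟩ := A.exists_residues s M hM _ le_rfl
  let W₀ : Submodule K (M.restrictScalars K) :=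
    ((Q K r M r).restrictScalars K).comap (M.restrictScalars K).subtype
  let V := ↥(M.restrictScalars K) ⧸ W₀
  have hfin : FiniteDimensional K V := by
    refine Module.Finite.of_surjective
      (W₀.mkQ.comp (Fintype.linearCombination K fun a =>
        (⟨b₀ a, (hb₀ a).1⟩ : M.restrictScalars K))) ?_
    intro z
    obtain ⟨⟨x, hx⟩, rfl⟩ := Submodule.Quotient.mk_surjective _ z
    obtain ⟨c, hc⟩ := hres₀ x hx
    refine ⟨c, ?_⟩
    rw [LinearMap.comp_apply, Submodule.mkQ_apply, eq_comm, Submodule.Quotient.eq]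
    simpa [W₀, Fintype.linearCombination_apply] using hc
  let op : R → (↥(M.restrictScalars K) →ₗ[K] ↥(M.restrictScalars K)) := fun a =>
    { toFun := fun x => ⟨a • (x : κ → R), M.smul_mem a x.2⟩
      map_add' := fun x y => Subtype.ext (smul_add ..)
      map_smul' := fun c x => Subtype.ext (smul_comm ..) }
  have hop : ∀ a, W₀ ≤ W₀.comap (op a) := fun a x hx => (Q K r M r).smul_mem a hx
  let act : R → Module.End K V := fun a => W₀.mapQ W₀ (op a) (hop a)
  have hact : ∀ a (x : M.restrictScalars K),
      act a (Submodule.Quotient.mk x) = Submodule.Quotient.mk ⟨a • (x : κ → R), M.smul_mem a x.2⟩ :=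
    fun a x => rfl
  have act_mul : ∀ a a', act (a * a') = act a * act a' := fun a a' => by
    refine LinearMap.ext fun z => ?_
    obtain ⟨x, rfl⟩ := Submodule.Quotient.mk_surjective _ z
    rw [Module.End.mul_apply, hact, hact, hact]
    simp only [mul_smul]
  have act_one : act 1 = 1 := by
    refine LinearMap.ext fun z => ?_
    obtain ⟨x, rfl⟩ := Submodule.Quotient.mk_surjective _ z
    rw [hact]
    simp
  have act_add : ∀ a a', act (a + a') = act a + act a' := fun a a' => by
    refine LinearMap.ext fun z => ?_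
    obtain ⟨x, rfl⟩ := Submodule.Quotient.mk_surjective _ z
    rw [LinearMap.add_apply, hact, hact, hact, ← Submodule.Quotient.mk_add]
    congr 1
    exact Subtype.ext (add_smul ..)
  have act_smul : ∀ (c : K) a, act (c • a) = c • act a := fun c a => by
    refine LinearMap.ext fun z => ?_
    obtain ⟨x, rfl⟩ := Submodule.Quotient.mk_surjective _ z
    rw [LinearMap.smul_apply, hact, hact, ← Submodule.Quotient.mk_smul]
    congr 1
    exact Subtype.ext (smul_assoc ..)
  let Φ : R →ₐ[K] Module.End K V := AlgHom.ofLinearMap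
    { toFun := act, map_add' := act_add, map_smul' := act_smul } act_one act_mul
  have hΦ : ∀ a, Φ a = act a := fun a => rfl
  have hpar : ∀ i (a : R), Φ (algebraMap (Par K r) R (X i) * a) = 0 := fun i a => by
    refine LinearMap.ext fun z => ?_
    obtain ⟨x, rfl⟩ := Submodule.Quotient.mk_surjective _ z
    rw [hΦ, hact, LinearMap.zero_apply, Submodule.Quotient.mk_eq_zero]
    show (algebraMap (Par K r) R (X i) * a) • (x : κ → R) ∈ Q K r M r
    rw [mul_smul, algebraMap_smul]
    exact mem_Q i.2 (M.smul_mem a x.2)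
  set e : Fin r → Module.End K V := fun i => Φ (A.gen i)
  have hbr : ∀ i j, e i * e j - e j * e i ∈ Submodule.span K (e '' {k | k < i ∧ k < j}) := by
    intro i j
    obtain ⟨c, hc, a, hca⟩ := A.bracket i j
    rw [← map_mul, ← map_mul, ← map_sub, hca, map_add, map_sum, map_sum,
      Finset.sum_eq_zero (fun l _ => hpar l (a l)), add_zero]
    refine Submodule.sum_mem _ fun k _ => ?_
    rw [map_smul]
    by_cases hk : c k = 0
    · rw [hk, zero_smul]; exact zero_mem _
    · exact Submodule.smul_mem _ _ (Submodule.subset_span ⟨k, hc k hk, rfl⟩)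
  have hv : ∀ c : Fin r → K, ∑ i, c i • e i = Φ (∑ i, c i • A.gen i) := fun c => by
    simp [e, map_sum, map_smul]
  have hpow : ∀ c : Fin r → K, (∑ i, c i • e i) ^ p = 0 := fun c => by
    obtain ⟨a, ha, -⟩ := A.power c
    rw [hv, ← map_pow, ha, map_sum, map_sum]
    refine Finset.sum_eq_zero fun i _ => ?_
    rw [map_mul, ← Algebra.commutes]
    exact hpar i _
  have hline : ∀ c : Fin r → K, c ≠ 0 → ∀ x, (∑ i, c i • e i) x = 0 →
      ∃ y, ((∑ i, c i • e i) ^ (p - 1)) y = x := by
    intro c hc z hz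
    obtain ⟨x, rfl⟩ := Submodule.Quotient.mk_surjective _ z
    rw [hv, hΦ, hact, Submodule.Quotient.mk_eq_zero] at hz
    obtain ⟨y, hy, hy'⟩ := A.line_free s M hM hreg c hc x.2 hz
    refine ⟨Submodule.Quotient.mk ⟨y, hy⟩, ?_⟩
    rw [hv, ← map_pow, hΦ, hact, eq_comm, Submodule.Quotient.eq]
    exact hy'
  -- generators
  let sw : Submodule K (κ → R) :=
    ((⨆ i, LinearMap.range (e i)).comap W₀.mkQ).map (M.restrictScalars K).subtype
  have hWle : (Q K r M r).restrictScalars K ≤ sw := fun x hx =>
    ⟨⟨x, (show x ∈ M from Q_le (show x ∈ Q K r M r from hx))⟩, by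
      rw [SetLike.mem_coe, Submodule.mem_comap, Submodule.mkQ_apply,
        (Submodule.Quotient.mk_eq_zero W₀).2 (by exact hx)]
      exact zero_mem _, rfl⟩
  have hsw : ∀ x : M.restrictScalars K,
      (Submodule.Quotient.mk x : V) ∈ (⨆ i, LinearMap.range (e i)) ↔ (x : κ → R) ∈ sw :=
    fun x => ⟨fun h => ⟨x, h, rfl⟩, fun ⟨x', h, hx'⟩ => (Subtype.ext hx' : x' = x) ▸ h⟩
  obtain ⟨N, t, g, hg, hgres, hgind⟩ := A.exists_residues s M hM sw hWle
  obtain ⟨hS, hI⟩ := free_of_lines hp r e hbr hpow hline
    (fun a : Fin N => (Submodule.Quotient.mk ⟨g a, (hg a).1⟩ : V))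
    (fun z => by
      obtain ⟨x, rfl⟩ := Submodule.Quotient.mk_surjective _ z
      obtain ⟨c, hc⟩ := hgres x x.2
      refine ⟨c, ?_⟩
      have := (hsw (x - ∑ a, c a • ⟨g a, (hg a).1⟩)).2 (by simpa using hc)
      simpa [← Submodule.mkQ_apply, map_sum] using this)
    (fun c hc => hgind c (by
      have := (hsw (∑ a, c a • ⟨g a, (hg a).1⟩)).1 (by
        simpa [← Submodule.mkQ_apply, map_sum] using hc)
      simpa using this))
  have hmono : ∀ (α : Fin r → Fin p), mono e (fun i => (α i : ℕ)) = Φ (A.mon α) := fun α => by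
    rw [Model.mon, map_list_prod, mono, List.map_map]
    simp [e, Function.comp_def]
  let G : Fin N × (Fin r → Fin p) → (κ → R) := fun q => A.mon q.2 • g q.1
  have hG : ∀ q, G q ∈ M ∧ G q ∈ A.FD s (A.monWt q.2 + t q.1) := fun q =>
    ⟨M.smul_mem _ (hg q.1).1, A.smul_FD s (A.mon_mem q.2) (hg q.1).2⟩
  have hGmk : ∀ c : Fin N × (Fin r → Fin p) → K,
      ∑ q, c q • mono e (fun i => (q.2 i : ℕ)) (Submodule.Quotient.mk ⟨g q.1, (hg q.1).1⟩) =
        (Submodule.Quotient.mk (∑ q, c q • ⟨G q, (hG q).1⟩) : V) := fun c => by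
    simp only [hmono, hΦ, ← Submodule.mkQ_apply, map_sum, map_smul]
    rfl
  obtain ⟨hGspan, hGind⟩ := A.basis_of_residues s M hM hreg G _ hG
    (fun x hx => by
      obtain ⟨c, hc⟩ := hS (Submodule.Quotient.mk ⟨x, hx⟩)
      refine ⟨c, ?_⟩
      rw [hGmk, eq_comm, Submodule.Quotient.eq] at hc
      simpa [W₀] using hc)
    (fun c hc => hI c (by
      rw [hGmk, Submodule.Quotient.mk_eq_zero]
      simpa [W₀] using hc))
  -- the isomorphism with a free module
  let φ : (Fin N → R) →ₗ[R] (κ → R) := Fintype.linearCombination R g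
  have hf : ∀ m, ∀ y ∈ A.FD t m, φ y ∈ A.FD s m := fun m y hy => by
    rw [Fintype.linearCombination_apply]
    refine Submodule.sum_mem _ fun a _ => ?_
    rcases Nat.lt_or_ge m (t a) with h | h
    · rw [(hy a).2 h, zero_smul]
      exact zero_mem _
    · have := A.smul_FD s ((hy a).1 h) (hg a).2
      rwa [Nat.sub_add_cancel h] at this
  have hrange : LinearMap.range φ = M := by
    refine le_antisymm ?_ fun x hx => ?_
    · rw [Fintype.range_linearCombination, Submodule.span_le]
      rintro _ ⟨a, rfl⟩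
      exact (hg a).1
    · obtain ⟨c, rfl⟩ := hGspan x hx
      refine sum_mem fun q _ => smul_par_mem _ ?_
      exact (LinearMap.range φ).smul_mem _
        ⟨Pi.single q.1 1, by rw [Fintype.linearCombination_apply_single, one_smul]⟩
  have hker : LinearMap.ker φ = ⊥ := by
    refine (Submodule.eq_bot_iff _).2 fun y hy => funext fun a => ?_
    have h0 := hGind (fun q => A.pBasis.repr (y q.1) q.2) (by
      rw [← LinearMap.mem_ker.1 hy, Fintype.linearCombination_apply, Fintype.sum_prod_type]
      refine Finset.sum_congr rfl fun a _ => ?_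
      conv_rhs => rw [← A.pBasis.sum_repr (y a), Finset.sum_smul]
      exact Finset.sum_congr rfl fun α _ => by rw [A.pBasis_apply, smul_assoc])
    rw [← A.pBasis.sum_repr (y a)]
    exact Finset.sum_eq_zero fun α _ => by
      rw [show A.pBasis.repr (y a) α = 0 from congrFun h0 (a, α), zero_smul]
  have h := A.hilb_range s t φ hf
  rw [hrange, hker, A.hilb_top t] at h
  refine ⟨∑ a, Polynomial.X ^ t a, ?_⟩
  have hbot : A.hilb t (⊥ : Submodule R (Fin N → R)) = 0 := by
    refine PowerSeries.ext fun n => ?_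
    rw [hilb, PowerSeries.coeff_mk, show (⊥ : Submodule R (Fin N → R)).restrictScalars K ⊓ A.FD t n = ⊥ by
      rw [Submodule.restrictScalars_bot, bot_inf_eq], finrank_bot]
    simp
  rw [hbot, add_zero] at h
  rw [h, ← Polynomial.coeToPowerSeries.ringHom_apply, map_sum]
  simp [Polynomial.coeToPowerSeries.ringHom_apply]

/-- Every homogeneous submodule of a free module has a Hilbert numerator over the model. -/
theorem exists_numerator {κ : Type} [Fintype κ] (s : κ → ℕ) (M : Submodule R (κ → R))
    (hM : A.Homog s M) : ∃ U : Polynomial ℤ, A.hilb s M = (U : PowerSeries ℤ) * weightSeries A.d := by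
  have hp0 : NeZero p := ⟨(Fact.out : p.Prime).ne_zero⟩
  suffices h : ∀ j (κ : Type) [Fintype κ] (s : κ → ℕ) (M : Submodule R (κ → R)), j ≤ r →
      A.Homog s M → Reg K r M (r - j) →
      ∃ U : Polynomial ℤ, A.hilb s M = (U : PowerSeries ℤ) * weightSeries A.d from
    h r κ s M le_rfl hM (fun i hi => absurd hi (by omega))
  intro j
  induction j with
  | zero => exact fun κ _ s M _ hM hreg => A.hilb_of_reg s M hM hreg
  | succ j ih =>
    intro κ _ s M hj hM hreg
    obtain ⟨N, t, φ, hφ, hf⟩ := A.exists_cover s M hM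
    have hker := A.ker_homog s t φ 0 (fun m y hy => hf m y hy)
    have hreg' := reg_ker φ M hφ hreg (reg_top_of_basis (A.freeBasis (κ := Fin N)) _)
    rw [show r - (j + 1) + 1 = r - j by omega] at hreg'
    obtain ⟨U, hU⟩ := ih (Fin N) t _ (by omega) hker hreg'
    refine ⟨(∑ a, Polynomial.X ^ t a) - U, ?_⟩
    have h := A.hilb_range s t φ hf
    rw [hφ, A.hilb_top t, hU] at h
    rw [eq_sub_of_add_eq h, Polynomial.coe_sub, sub_mul,
      ← Polynomial.coeToPowerSeries.ringHom_apply (φ := ∑ a, Polynomial.X ^ t a), map_sum]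
    simp [Polynomial.coeToPowerSeries.ringHom_apply]

end Model

end Vale.Agent.P200.Prime
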