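import Vale.Agent.P200.Prime.Copies

/-!
Forms of degree `p` in characteristic `p` as `p`-th powers of commuting linear forms over a
division ring.
-/

namespace Vale.Agent.P200.Prime

open MvPolynomial Module
open scoped TensorProduct

universe u

variable {K : Type u} [Field K]

/-- A power identity for all scalars becomes an identity of tensors modulo the forms. -/
lemma tensor_pow_eq_zero [Infinite K] {p n : ℕ} {D : Type u} [Ring D] [Algebra K D]
    (f : Fin n → MvPolynomial (Fin n) K) (g z : Fin n → D)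
    (h : ∀ c : Fin n → K, (∑ i, c i • g i) ^ p = ∑ l, eval c (f l) • z l) :
    (∑ i, g i ⊗ₜ[K] Quad.mkA f (X i) : D ⊗[K] Quad.Quo f) ^ p = 0 := by
  have hpoly : (∑ i, g i ⊗ₜ[K] (X i : MvPolynomial (Fin n) K)) ^ p -
      ∑ l, z l ⊗ₜ[K] f l = 0 := by
    refine eq_zero_of_values _ fun c => ?_
    let ev : D ⊗[K] MvPolynomial (Fin n) K →ₐ[K] D :=
      (Algebra.TensorProduct.rid K K D).toAlgHom.comp
        (Algebra.TensorProduct.map (AlgHom.id K D) (aeval c))
    have hev : ∀ x, TensorProduct.rid K _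
        ((aeval c : MvPolynomial (Fin n) K →ₐ[K] K).toLinearMap.lTensor _ x) = ev x := by
      intro x
      induction x using TensorProduct.induction_on with
      | zero => simp only [map_zero]
      | add a b ha hb => simp only [map_add, ha, hb]
      | tmul a u => simp [ev]
    rw [hev, map_sub, map_pow, map_sum, map_sum, sub_eq_zero]
    simpa [ev] using h c
  have h2 := congrArg
    (Algebra.TensorProduct.map (AlgHom.id K D)
      (Ideal.Quotient.mkₐ K (Ideal.span (Set.range f)))) hpoly
  rw [map_sub, map_pow, map_sum, map_sum, map_zero, sub_eq_zero] at h2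
  simp only [Algebra.TensorProduct.map_tmul, AlgHom.id_apply] at h2
  refine h2.trans (Finset.sum_eq_zero fun l _ => ?_)
  have hl : f l ∈ Ideal.span (Set.range f) := Ideal.subset_span ⟨l, rfl⟩
  rw [Ideal.Quotient.mkₐ_eq_mk, Ideal.Quotient.eq_zero_iff_mem.2 hl, TensorProduct.tmul_zero]

namespace Sys

variable {p N : ℕ} [Fact p.Prime] [CharP K p] (S : Sys K p N)

/-- An element of the localised algebra from a variable. -/
noncomputable def xiL (j : Fin N) : Loc K S.r S.R := toL (S.xi j)

lemma free : Module.Free (Par K S.r) S.R :=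
  Module.Free.of_basis (Basis.mk S.monR_indep S.monR_spans.ge)

/-- The localisation of the elements avoiding a block. -/
noncomputable def avoidL (b : ℕ) : Submodule (Fr K S.r) (Loc K S.r S.R) :=
  Submodule.span (Fr K S.r) (toL '' (S.avoid b : Set S.R))

lemma adjoin_le_avoidL (b : ℕ) {A : Set (Loc K S.r S.R)}
    (hA : ∀ y ∈ A, ∃ j, S.grp j ≠ b ∧ y = S.xiL j) {x : Loc K S.r S.R}
    (hx : x ∈ Algebra.adjoin (Fr K S.r) A) : x ∈ S.avoidL b := by
  have key : ∀ w ∈ S.avoidL b, x * w ∈ S.avoidL b := by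
    induction hx using Algebra.adjoin_induction with
    | mem y hy =>
      obtain ⟨j, hj, rfl⟩ := hA y hy
      intro w hw
      induction hw using Submodule.span_induction with
      | mem w hw =>
        obtain ⟨T, hT, rfl⟩ := hw
        rw [xiL, ← map_mul]
        exact Submodule.subset_span ⟨_, S.xi_mul_mem_avoid hj hT, rfl⟩
      | zero => rw [mul_zero]; exact zero_mem _
      | add a b _ _ ha hb => rw [mul_add]; exact add_mem ha hb
      | smul a w _ hw => rw [mul_smul_comm]; exact Submodule.smul_mem _ _ hw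
    | algebraMap a => intro w hw; rw [← Algebra.smul_def]; exact Submodule.smul_mem _ _ hw
    | add a b _ _ ha hb => intro w hw; rw [add_mul]; exact add_mem (ha w hw) (hb w hw)
    | mul a b _ _ ha hb => intro w hw; rw [mul_assoc]; exact ha _ (hb w hw)
  simpa using key 1 (Submodule.subset_span ⟨1, S.one_mem_avoid b, map_one _⟩)

lemma eq_zero_of_sum_xiL_mul {m : ℕ} (ι : Fin m → Fin N) (hι : Function.Injective ι) (b : ℕ)
    (hb : ∀ i, S.grp (ι i) = b) (w : Fin m → Loc K S.r S.R) (hw : ∀ i, w i ∈ S.avoidL b)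
    (hsum : ∑ i, S.xiL (ι i) * w i = 0) : w = 0 := by
  classical
  have := S.free
  choose s hs y hy hsy using fun i => exists_clear_mem (S.avoid b) (hw i)
  set P := ∏ i, s i
  set T := fun i => (∏ j ∈ Finset.univ.erase i, s j) • y i
  have hT : ∀ i, P • w i = toL (T i) := fun i => by
    rw [map_smul, ← hsy, ← mul_smul, Finset.prod_erase_mul _ _ (Finset.mem_univ i)]
  have h0 : ∑ i, S.xi (ι i) * T i = 0 := by
    apply toL_injective (K := K) (r := S.r)
    rw [map_zero, ← smul_zero (A := Loc K S.r S.R) P, ← hsum, Finset.smul_sum, map_sum]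
    refine Finset.sum_congr rfl fun i _ => ?_
    rw [map_mul, ← hT, mul_smul_comm]
    rfl
  have hT0 : T = 0 := S.eq_zero_of_sum_xi_mul ι hι b hb T
    (fun i => Submodule.smul_mem _ _ (hy i)) h0
  funext i
  refine smul_cancel (s := P) (Finset.prod_ne_zero_iff.2 fun i _ => hs i) ?_
  rw [hT i, congrFun hT0 i]
  exact map_zero _

lemma xiL_comm {i j : Fin N} (h : S.grp i ≠ S.grp j) : S.xiL i * S.xiL j = S.xiL j * S.xiL i := by
  rw [xiL, xiL, ← map_mul, ← map_mul, (S.xi_comm h).eq]

lemma xiL_pow (c : Fin N → K) :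
    (∑ j, c j • S.xiL j) ^ p = ∑ l, eval c (S.f l) • (toL (S.zel l) : Loc K S.r S.R) := by
  have h := congrArg (AlgHom.restrictScalars K (toL : S.R →ₐ[Par K S.r] Loc K S.r S.R))
    (S.xi_pow c)
  simp only [map_pow, map_sum, map_smul] at h
  exact h

/-- The matrix of the copies has trivial left kernel. -/
lemma independent [NoZeroDivisors (Loc K S.r S.R)] [Nontrivial (Loc K S.r S.R)]
    [FiniteDimensional (Fr K S.r) (Loc K S.r S.R)] {m : ℕ} (ι : Fin m → Fin m → Fin N)
    (hι : ∀ k, Function.Injective (ι k)) (hgrp : ∀ k i, S.grp (ι k i) = (k : ℕ))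
    (b : Fin m → Loc K S.r S.R) (hb : ∀ i, ∑ l, b l * S.xiL (ι l i) = 0) : b = 0 := by
  classical
  by_contra hbne
  obtain ⟨l₀, hl₀⟩ := Function.ne_iff.1 hbne
  obtain ⟨k, hk, hmax⟩ := (Finset.univ.filter fun l => b l ≠ 0).exists_max_image id
    ⟨l₀, by simpa using hl₀⟩
  simp only [Finset.mem_filter, Finset.mem_univ, true_and, id] at hk hmax
  obtain ⟨w, hw0, hwA, hlow⟩ :=
    Quad.exists_kernel_adjoin (F := Fr K S.r) (fun l i => S.xiL (ι l i)) k
  have hk0 : b k * ∑ i, S.xiL (ι k i) * w i = 0 := by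
    calc b k * ∑ i, S.xiL (ι k i) * w i = ∑ l, b l * ∑ i, S.xiL (ι l i) * w i := by
          symm
          refine Finset.sum_eq_single k ?_ ?_
          · intro l _ hne'
            rcases lt_or_gt_of_ne hne' with hlt | hgt
            · rw [hlow l hlt, mul_zero]
            · rw [show b l = 0 from by_contra fun h => not_lt.2 (hmax l h) hgt, zero_mul]
          · simp
      _ = ∑ i, (∑ l, b l * S.xiL (ι l i)) * w i := by
          simp only [Finset.mul_sum, Finset.sum_mul, mul_assoc]
          exact Finset.sum_comm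
      _ = 0 := Finset.sum_eq_zero fun i _ => by rw [hb i, zero_mul]
  refine hw0 (S.eq_zero_of_sum_xiL_mul (ι k) (hι k) k (hgrp k) w
    (fun i => S.adjoin_le_avoidL k ?_ (hwA i)) ((mul_eq_zero.1 hk0).resolve_left hk))
  rintro y ⟨l, j, hl, rfl⟩
  exact ⟨ι l j, by rw [hgrp]; exact fun e => hl.ne (Fin.ext e), rfl⟩

/-- The division ring of a system without common zero. -/
lemma exists_division [IsAlgClosed K] (haniso : ∀ c : Fin N → K, (∀ l, eval c (S.f l) = 0) → c = 0)
    {m : ℕ} (ι : Fin m → Fin m → Fin N)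
    (hι : ∀ k, Function.Injective (ι k)) (hgrp : ∀ k i, S.grp (ι k i) = (k : ℕ)) :
    ∃ (D : Type u) (_ : DivisionRing D) (_ : Algebra K D) (ψ z : Fin N → D),
      (∀ i j, S.grp i ≠ S.grp j → ψ i * ψ j = ψ j * ψ i) ∧
      (∀ c : Fin N → K, (∑ j, c j • ψ j) ^ p = ∑ l, eval c (S.f l) • z l) ∧
      ∃ E : Fin m → Fin m → D, ∀ i j, ∑ k, E i k * ψ (ι k j) = if i = j then 1 else 0 := by
  classical
  have hfree := S.free
  have : NoZeroDivisors S.R := S.noZeroDivisors haniso
  have hzero : NoZeroDivisors (Loc K S.r S.R) := noZeroDivisors_loc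
  have hfin : FiniteDimensional (Fr K S.r) (Loc K S.r S.R) :=
    Module.Finite.of_basis
      (Algebra.TensorProduct.basis (Fr K S.r) (Basis.mk S.monR_indep S.monR_spans.ge))
  have hne : Nontrivial (Loc K S.r S.R) := by
    refine ⟨⟨toL 1, 0, fun h => ?_⟩⟩
    have h1 : (1 : S.R) = 0 := toL_injective (h.trans (map_zero _).symm)
    exact S.monR_indep.ne_zero (fun _ => ⟨0, (Fact.out : p.Prime).pos⟩) (by
      rw [← mul_one (S.monR _), h1, mul_zero])
  have hind := S.independent ι hι hgrp
  have hcomm : ∀ i j, S.grp i ≠ S.grp j → S.xiL i * S.xiL j = S.xiL j * S.xiL i :=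
    fun i j h => S.xiL_comm h
  have hpow := S.xiL_pow
  have hdom : IsDomain (Loc K S.r S.R) := NoZeroDivisors.to_isDomain _
  let instD : DivisionRing (Loc K S.r S.R) :=
    divisionRingOfFiniteDimensional (Fr K S.r) (Loc K S.r S.R)
  exact ⟨Loc K S.r S.R, instD, inferInstance, S.xiL, fun l => toL (S.zel l), hcomm, hpow,
    Quad.exists_inverse (fun k i => S.xiL (ι k i)) hind⟩

end Sys

variable {p n : ℕ}

lemma grp_idx {f : Fin n → MvPolynomial (Fin n) K} (hf : ∀ i, (f i).IsHomogeneous p) (k i : Fin n) :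
    (copySys f hf).grp (Quad.idx k i) = (k : ℕ) := by
  show ((finProdFinEquiv.symm (finProdFinEquiv (k, i))).1 : ℕ) = k
  rw [Equiv.symm_apply_apply]

variable [Fact p.Prime] {f : Fin n → MvPolynomial (Fin n) K}

lemma copy_power (hf : ∀ i, (f i).IsHomogeneous p) {D : Type u} [Ring D] [Algebra K D]
    (ψ z : Fin (n * n) → D)
    (h0 : ∀ c : Fin (n * n) → K,
      (∑ j, c j • ψ j) ^ p = ∑ l, eval c ((copySys f hf).f l) • z l) (k : Fin n) (c : Fin n → K) :
    (∑ i, c i • ψ (Quad.idx k i)) ^ p = ∑ l, eval c (f l) • z (Quad.idx k l) := by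
  classical
  let c' : Fin (n * n) → K := fun I =>
    if (finProdFinEquiv.symm I).1 = k then c (finProdFinEquiv.symm I).2 else 0
  have e1 : ∀ i, c' (Quad.idx k i) = c i := fun i => by
    simp only [c', Quad.idx, Equiv.symm_apply_apply, if_true]
  have e2 : ∀ b i, b ≠ k → c' (Quad.idx b i) = 0 := fun b i hb => by
    simp only [c', Quad.idx, Equiv.symm_apply_apply, if_neg hb]
  have hz : ∀ l, eval (fun _ => (0 : K)) (f l) = 0 := fun l => by
    rw [show (fun _ : Fin n => (0 : K)) = 0 from rfl, eval_zero, constantCoeff_eq]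
    exact (hf l).coeff_eq_zero (by simp [(Fact.out : p.Prime).ne_zero.symm])
  have hev : ∀ b l, eval c' ((copySys f hf).f (Quad.idx b l)) =
      eval (fun i => c' (Quad.idx b i)) (f l) := fun b l => by
    show eval c' (rename _ (f (finProdFinEquiv.symm (finProdFinEquiv (b, l))).2)) = _
    rw [eval_rename, Equiv.symm_apply_apply]
    rfl
  have h := h0 c'
  rw [← Equiv.sum_comp finProdFinEquiv, Fintype.sum_prod_type, Finset.sum_eq_single k
    (fun b _ hb => Finset.sum_eq_zero fun i _ => by rw [e2 b i hb, zero_smul]) (by simp),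
    ← Equiv.sum_comp finProdFinEquiv, Fintype.sum_prod_type, Finset.sum_eq_single k
    (fun b _ hb => Finset.sum_eq_zero fun l _ => by
      rw [hev, funext fun i => e2 b i hb, hz, zero_smul]) (by simp)] at h
  refine Eq.trans ?_ (h.trans (Finset.sum_congr rfl fun l _ => ?_))
  · exact congrArg (· ^ p) (Finset.sum_congr rfl fun i _ => by rw [e1])
  · rw [hev, funext e1]

/-- Commuting linear forms over a division ring whose `p`-th powers vanish modulo the forms,
with invertible matrix. -/
theorem exists_factorisation [CharP K p] [IsAlgClosed K] (hf : ∀ i, (f i).IsHomogeneous p)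
    (hreg : RegList ⊥ (List.ofFn f)) :
    ∃ (D : Type u) (_ : DivisionRing D) (_ : Algebra K D) (g : Fin n → Fin n → D),
      (∀ k l, k ≠ l → ∀ i j, g k i * g l j = g l j * g k i) ∧
      (∀ k, (∑ i, g k i ⊗ₜ[K] Quad.mkA f (X i) : D ⊗[K] Quad.Quo f) ^ p = 0) ∧
      ∃ E : Fin n → Fin n → D, ∀ i j, ∑ k, E i k * g k j = if i = j then 1 else 0 := by
  obtain ⟨D, iD, iA, ψ, z, hcomm, hpow, hE⟩ :=
    (copySys f hf).exists_division (copySys_aniso hf hreg) Quad.idx
      (fun k a b h => congrArg Prod.snd (finProdFinEquiv.injective h)) (grp_idx hf)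
  refine ⟨D, iD, iA, fun k i => ψ (Quad.idx k i), fun k l h i j => hcomm _ _ ?_, fun k => ?_, hE⟩
  · rw [grp_idx, grp_idx]; exact fun e => h (Fin.ext e)
  · exact tensor_pow_eq_zero f _ _ (copy_power hf ψ z hpow k)

end Vale.Agent.P200.Prime
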