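import Vale.Agent.P200.Prime.Regular

/-!
The graded basis of a model, dimensions of homogeneous pieces, and equivariant maps.
-/

namespace Vale.Agent.P200.Prime

open MvPolynomial PowerSeries

variable {K : Type*} [Field K] {p r : ℕ} {R : Type*} [Ring R] [Algebra K R]
  [Algebra (Par K r) R] [IsScalarTower K (Par K r) R]

/-- Exponent vectors of given weight. -/
def expo (d : Fin r → ℕ) (n : ℕ) : Set (Fin r → ℕ) := {γ | ∑ i, d i * γ i = n}

lemma expo_finite {d : Fin r → ℕ} (hd : ∀ i, 0 < d i) (n : ℕ) : (expo d n).Finite := by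
  refine (Set.Finite.pi fun _ : Fin r => Set.finite_Iic n).subset fun γ hγ i _ => ?_
  calc γ i ≤ d i * γ i := Nat.le_mul_of_pos_left _ (hd i)
    _ ≤ ∑ j, d j * γ j :=
        Finset.single_le_sum (f := fun j => d j * γ j) (fun _ _ => Nat.zero_le _) (Finset.mem_univ i)
    _ = n := hγ

/-- The counting series of exponent vectors by weight. -/
noncomputable def weightSeries (d : Fin r → ℕ) : PowerSeries ℤ :=
  PowerSeries.mk fun n => (Nat.card (expo d n) : ℤ)

/-- The counting series is the inverse of `∏ (1 - X^(d i))`. -/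
theorem weightSeries_mul : ∀ {r : ℕ} (d : Fin r → ℕ), (∀ i, 0 < d i) →
    weightSeries d * ∏ i, (1 - PowerSeries.X ^ d i) = 1 := by
  intro r
  induction r with
  | zero =>
    intro d _
    rw [Fin.prod_univ_zero, mul_one]
    refine PowerSeries.ext fun n => ?_
    rw [weightSeries, coeff_mk, PowerSeries.coeff_one]
    rcases eq_or_ne n 0 with rfl | hn
    · have h : expo d 0 = Set.univ := Set.eq_univ_of_forall fun γ => by simp [expo]
      simp [h]
    · have h : expo d n = ∅ := Set.eq_empty_of_forall_notMem fun γ hγ => hn (by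
        simpa [expo] using hγ.symm)
      simp [h, hn]
  | succ r ih =>
    intro d hd
    rw [Fin.prod_univ_succ, ← mul_assoc]
    suffices h : weightSeries d * (1 - PowerSeries.X ^ d 0) = weightSeries (fun i => d i.succ) by
      rw [h]
      exact ih _ fun i => hd i.succ
    refine PowerSeries.ext fun n => ?_
    simp only [weightSeries, mul_sub, mul_one, map_sub, coeff_mul_X_pow', coeff_mk]
    have hzero : ∀ γ ∈ {γ ∈ expo d n | γ 0 = 0}, (fun i : Fin r => γ i.succ) ∈
        expo (fun i => d i.succ) n := fun γ hγ => by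
      have := hγ.1
      simp only [expo, Set.mem_ofPred_eq, Fin.sum_univ_succ, hγ.2, mul_zero, zero_add] at this ⊢
      exact this
    have e₀ : {γ ∈ expo d n | γ 0 = 0} ≃ expo (fun i => d i.succ) n :=
      { toFun := fun γ => ⟨fun i => γ.1 i.succ, hzero γ.1 γ.2⟩
        invFun := fun γ => ⟨Fin.cons 0 γ.1, by
          have := γ.2
          simpa [expo, Fin.sum_univ_succ] using this⟩
        left_inv := fun γ => Subtype.ext (funext fun i => by
          rcases Fin.eq_zero_or_eq_succ i with rfl | ⟨j, rfl⟩
          · simpa using γ.2.2.symm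
          · simp)
        right_inv := fun γ => Subtype.ext (funext fun i => by simp) }
    have hfin := (expo_finite hd n).subset (Set.sep_subset _ fun γ => γ 0 = 0)
    have hfin' := (expo_finite hd n).subset (Set.sep_subset _ fun γ => γ 0 ≠ 0)
    have hsplit : Nat.card (expo d n) =
        Nat.card {γ ∈ expo d n | γ 0 = 0} + Nat.card {γ ∈ expo d n | γ 0 ≠ 0} := by
      rw [Nat.card_coe_set_eq, Nat.card_coe_set_eq, Nat.card_coe_set_eq, ← Set.ncard_union_eq ?_ hfin hfin']
      · congr 1
        ext γ
        by_cases h : γ 0 = 0 <;> simp [h]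
      · exact Set.disjoint_left.2 fun γ h h' => h'.2 h.2
    rw [hsplit, Nat.card_congr e₀]
    rcases le_or_gt (d 0) n with hle | hlt
    · have e₁ : {γ ∈ expo d n | γ 0 ≠ 0} ≃ expo d (n - d 0) :=
        { toFun := fun γ => ⟨Function.update γ.1 0 (γ.1 0 - 1), by
            have h := γ.2.1
            obtain ⟨k, hk⟩ := Nat.exists_eq_succ_of_ne_zero γ.2.2
            simp only [expo, Set.mem_ofPred_eq, Fin.sum_univ_succ, Function.update_self,
              Function.update_of_ne (Fin.succ_ne_zero _), hk, Nat.mul_succ, Nat.succ_sub_one] at h ⊢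
            omega⟩
          invFun := fun γ => ⟨Function.update γ.1 0 (γ.1 0 + 1), by
            have h := γ.2
            simp only [expo, Set.mem_ofPred_eq, Fin.sum_univ_succ, Function.update_self,
              Function.update_of_ne (Fin.succ_ne_zero _), Nat.mul_succ] at h ⊢
            omega, by simp⟩
          left_inv := fun γ => Subtype.ext (by
            have := γ.2.2
            simp only [Function.update_self, Function.update_idem]
            rw [Nat.sub_add_cancel (Nat.one_le_iff_ne_zero.2 this)]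
            exact Function.update_eq_self ..)
          right_inv := fun γ => Subtype.ext (by simp) }
      rw [if_pos hle, Nat.card_congr e₁]
      push_cast
      ring
    · have h : {γ ∈ expo d n | γ 0 ≠ 0} = ∅ :=
        Set.eq_empty_of_forall_notMem fun γ hγ => by
          have h := hγ.1
          simp only [expo, Set.mem_ofPred_eq, Fin.sum_univ_succ] at h
          have := Nat.le_mul_of_pos_right (d 0) (Nat.pos_of_ne_zero hγ.2)
          omega
      rw [if_neg (by omega), h]
      simp

namespace Model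

variable (A : Model K p r R)

/-- The basis over the parameters. -/
noncomputable def pBasis : Module.Basis (Fin r → Fin p) (Par K r) R :=
  Module.Basis.mk A.indep A.spans.ge

omit [IsScalarTower K (Par K r) R] in
lemma pBasis_apply (α : Fin r → Fin p) : A.pBasis α = A.mon α := Module.Basis.mk_apply ..

omit [IsScalarTower K (Par K r) R] in
lemma monomial_mem (β : Fin r →₀ ℕ) :
    algebraMap (Par K r) R (monomial β 1) ∈ A.deg (∑ i, A.d i * p * β i) := by
  induction β using Finsupp.induction with
  | zero => simpa using A.one_mem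
  | single_add i b β hi hb ih =>
    rw [monomial_single_add, map_mul, map_pow]
    have h1 := A.mul_mem (A.pow_mem (A.var_mem i) b) ih
    convert h1 using 2
    rw [Finset.sum_congr rfl fun j _ => (by rw [Finsupp.add_apply, mul_add] :
      A.d j * p * (Finsupp.single i b + β) j = A.d j * p * Finsupp.single i b j + A.d j * p * β j),
      Finset.sum_add_distrib, Finset.sum_eq_single i (fun j _ hj => by simp [hj]) (by simp)]
    simp

/-- The exponent vector of a basis element. -/
noncomputable def expEquiv [NeZero p] : (Fin r → ℕ) ≃ (Fin r →₀ ℕ) × (Fin r → Fin p) where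
  toFun γ := (Finsupp.equivFunOnFinite.symm fun i => γ i / p,
    fun i => ⟨γ i % p, Nat.mod_lt _ (NeZero.pos p)⟩)
  invFun q := fun i => p * q.1 i + q.2 i
  left_inv γ := funext fun i => by simp [Nat.div_add_mod]
  right_inv q := by
    refine Prod.ext (Finsupp.ext fun i => ?_) (funext fun i => Fin.ext ?_)
    · simp [Nat.mul_add_div (NeZero.pos p), Nat.div_eq_of_lt (q.2 i).2]
    · simp [Nat.mod_eq_of_lt (q.2 i).2]

/-- The homogeneous basis over the ground field. -/
noncomputable def kBasis [NeZero p] : Module.Basis (Fin r → ℕ) K R :=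
  ((MvPolynomial.basisMonomials (Fin r) K).smulTower A.pBasis).reindex expEquiv.symm

lemma kBasis_mem [NeZero p] (γ : Fin r → ℕ) : A.kBasis γ ∈ A.deg (∑ i, A.d i * γ i) := by
  have h : A.kBasis γ =
      algebraMap (Par K r) R (monomial (expEquiv (p := p) γ).1 1) * A.mon (expEquiv γ).2 := by
    rw [kBasis, Module.Basis.reindex_apply, Equiv.symm_symm, Module.Basis.smulTower_apply,
      coe_basisMonomials, pBasis_apply, Algebra.smul_def]
  rw [h]
  convert A.mul_mem (A.monomial_mem _) (A.mon_mem _) using 2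
  rw [monWt, ← Finset.sum_add_distrib]
  refine Finset.sum_congr rfl fun i _ => ?_
  simp only [expEquiv, Equiv.coe_fn_mk, Finsupp.coe_equivFunOnFinite_symm]
  rw [mul_assoc, ← mul_add, Nat.div_add_mod]

lemma deg_eq_span [NeZero p] (n : ℕ) :
    A.deg n = Submodule.span K (A.kBasis '' expo A.d n) := by
  refine le_antisymm (fun x hx => ?_) (Submodule.span_le.2 ?_)
  · rw [← A.proj_same hx, ← A.kBasis.linearCombination_repr x, Finsupp.linearCombination_apply,
      map_finsuppSum]
    refine Submodule.sum_mem _ fun γ _ => ?_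
    simp only [map_smul]
    by_cases h : γ ∈ expo A.d n
    · rw [A.proj_same (by have := A.kBasis_mem γ; rwa [h] at this)]
      exact Submodule.smul_mem _ _ (Submodule.subset_span ⟨γ, h, rfl⟩)
    · rw [A.proj_other (A.kBasis_mem γ) h, smul_zero]
      exact zero_mem _
  · rintro _ ⟨γ, hγ, rfl⟩
    have := A.kBasis_mem γ
    rwa [hγ] at this

lemma finite_deg [NeZero p] (n : ℕ) : FiniteDimensional K (A.deg n) := by
  rw [A.deg_eq_span n]
  exact FiniteDimensional.span_of_finite K ((expo_finite A.d_pos n).image _)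

lemma finrank_deg [NeZero p] (n : ℕ) :
    Module.finrank K (A.deg n) = Nat.card (expo A.d n) := by
  have : Fintype (expo A.d n) := (expo_finite A.d_pos n).fintype
  rw [A.deg_eq_span n, Set.image_eq_range, finrank_span_eq_card, Nat.card_eq_fintype_card]
  exact A.kBasis.linearIndependent.comp _ Subtype.val_injective

variable {κ : Type} [Fintype κ] (s : κ → ℕ)

/-- A component of the homogeneous vectors. -/
noncomputable def comp (n : ℕ) (k : κ) : Submodule K R :=
  if s k ≤ n then A.deg (n - s k) else ⊥

omit [IsScalarTower K (Par K r) R] [Fintype κ] in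
lemma comp_pos {n : ℕ} {k : κ} (h : s k ≤ n) : A.comp s n k = A.deg (n - s k) := if_pos h

omit [IsScalarTower K (Par K r) R] [Fintype κ] in
lemma comp_neg {n : ℕ} {k : κ} (h : ¬ s k ≤ n) : A.comp s n k = ⊥ := if_neg h

/-- Homogeneous vectors form a product. -/
noncomputable def fdEquiv (n : ℕ) : A.FD s n ≃ₗ[K] ((k : κ) → A.comp s n k) where
  toFun x := fun k => ⟨(x : κ → R) k, by
    by_cases h : s k ≤ n
    · exact (A.comp_pos s h).ge ((x.2 k).1 h)
    · exact (A.comp_neg s h).ge ((Submodule.mem_bot K).2 ((x.2 k).2 (by omega)))⟩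
  invFun y := ⟨fun k => (y k : R), fun k =>
    ⟨fun h => (A.comp_pos s h).le (y k).2,
      fun h => (Submodule.mem_bot K).1 ((A.comp_neg s (Nat.not_le.2 h)).le (y k).2)⟩⟩
  map_add' _ _ := rfl
  map_smul' _ _ := rfl
  left_inv _ := rfl
  right_inv _ := rfl

omit [Fintype κ] in
lemma finite_comp [NeZero p] (n : ℕ) (k : κ) : FiniteDimensional K (A.comp s n k) := by
  by_cases h : s k ≤ n
  · rw [A.comp_pos s h]; exact A.finite_deg _
  · rw [A.comp_neg s h]; infer_instance

lemma finite_FD [NeZero p] (n : ℕ) : FiniteDimensional K (A.FD s n) := by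
  have := fun k => A.finite_comp s n k
  exact (A.fdEquiv s n).symm.finiteDimensional

/-- The Hilbert series of a free module. -/
theorem hilb_top [NeZero p] :
    A.hilb s (⊤ : Submodule R (κ → R)) = (∑ k, PowerSeries.X ^ s k) * weightSeries A.d := by
  refine PowerSeries.ext fun n => ?_
  have := fun k => A.finite_comp s n k
  rw [hilb, coeff_mk, Submodule.restrictScalars_top, top_inf_eq,
    (A.fdEquiv s n).finrank_eq, Module.finrank_pi_fintype, Finset.sum_mul, map_sum]
  push_cast
  refine Finset.sum_congr rfl fun k _ => ?_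
  rw [coeff_X_pow_mul', weightSeries, coeff_mk]
  split_ifs with h
  · rw [A.comp_pos s h, A.finrank_deg]
  · rw [A.comp_neg s h]; simp

variable {κ' : Type} [Fintype κ'] (s' : κ' → ℕ)

omit [IsScalarTower K (Par K r) R] [Fintype κ] in
/-- An additive map of degree `i` commutes with the projections. -/
theorem FP_map (f : (κ' → R) →+ (κ → R)) (i : ℕ)
    (hf : ∀ m, ∀ y ∈ A.FD s' m, f y ∈ A.FD s (m + i)) (n : ℕ) (x : κ' → R) :
    A.FP s n (f x) = if i ≤ n then f (A.FP s' (n - i) x) else 0 := by
  obtain ⟨N, hN⟩ := A.FP_sum s' x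
  conv_lhs => rw [← hN (max N (n + 1)) (le_max_left _ _)]
  rw [map_sum, map_sum]
  split_ifs with h
  · rw [Finset.sum_eq_single (n - i)]
    · rw [A.FP_same]
      have := hf _ _ (A.FP_mem s' (n - i) x)
      rwa [Nat.sub_add_cancel h] at this
    · intro m _ hm
      exact A.FP_other s (hf _ _ (A.FP_mem s' m x)) (by omega)
    · intro hnot
      exact absurd (Finset.mem_range.2 (by omega)) hnot
  · exact Finset.sum_eq_zero fun m _ => A.FP_other s (hf _ _ (A.FP_mem s' m x)) (by omega)

omit [IsScalarTower K (Par K r) R] [Fintype κ] in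
lemma ker_homog (φ : (κ' → R) →ₗ[R] (κ → R)) (i : ℕ)
    (hf : ∀ m, ∀ y ∈ A.FD s' m, φ y ∈ A.FD s (m + i)) : A.Homog s' (LinearMap.ker φ) := by
  intro x hx n
  have h := A.FP_map s s' φ.toAddMonoidHom i hf (n + i) x
  rw [if_pos (Nat.le_add_left _ _), Nat.add_sub_cancel, LinearMap.toAddMonoidHom_coe,
    LinearMap.mem_ker.1 hx, map_zero] at h
  exact LinearMap.mem_ker.2 h.symm

omit [IsScalarTower K (Par K r) R] [Fintype κ] in
lemma range_homog (φ : (κ' → R) →ₗ[R] (κ → R)) (i : ℕ)
    (hf : ∀ m, ∀ y ∈ A.FD s' m, φ y ∈ A.FD s (m + i)) : A.Homog s (LinearMap.range φ) := by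
  rintro _ ⟨x, rfl⟩ n
  have h := A.FP_map s s' φ.toAddMonoidHom i hf n x
  rw [LinearMap.toAddMonoidHom_coe] at h
  rw [h]
  split_ifs
  · exact ⟨_, rfl⟩
  · exact zero_mem _

omit [Fintype κ] in
/-- Rank and nullity of a graded map in each degree. -/
theorem hilb_range [NeZero p] (φ : (κ' → R) →ₗ[R] (κ → R))
    (hf : ∀ m, ∀ y ∈ A.FD s' m, φ y ∈ A.FD s m) :
    A.hilb s (LinearMap.range φ) + A.hilb s' (LinearMap.ker φ) =
      A.hilb s' (⊤ : Submodule R (κ' → R)) := by
  refine PowerSeries.ext fun n => ?_
  simp only [hilb, map_add, coeff_mk]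
  rw [show (⊤ : Submodule R (κ' → R)).restrictScalars K ⊓ A.FD s' n = A.FD s' n by
    rw [Submodule.restrictScalars_top, top_inf_eq]]
  have := A.finite_FD s' n
  set g : A.FD s' n →ₗ[K] (κ → R) := (φ.restrictScalars K).comp (A.FD s' n).subtype
  have h := g.finrank_range_add_finrank_ker
  have h1 : LinearMap.range g = (LinearMap.range φ).restrictScalars K ⊓ A.FD s n := by
    refine le_antisymm ?_ ?_
    · rintro _ ⟨y, rfl⟩
      exact ⟨⟨(y : κ' → R), rfl⟩, hf n _ y.2⟩
    · rintro x ⟨⟨y, rfl⟩, hx⟩
      have h' := A.FP_map s s' φ.toAddMonoidHom 0 (fun m z hz => hf m z hz) n y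
      rw [if_pos (Nat.zero_le _), Nat.sub_zero, LinearMap.toAddMonoidHom_coe,
        A.FP_same s hx] at h'
      exact ⟨⟨A.FP s' n y, A.FP_mem s' n y⟩, h'.symm⟩
  have h2 : (LinearMap.ker g).map (A.FD s' n).subtype =
      (LinearMap.ker φ).restrictScalars K ⊓ A.FD s' n := by
    refine le_antisymm ?_ ?_
    · rintro _ ⟨y, hy, rfl⟩
      exact ⟨hy, y.2⟩
    · rintro x ⟨hx, hx'⟩
      exact ⟨⟨x, hx'⟩, hx, rfl⟩
  rw [← h2, ← h1,
    (Submodule.equivMapOfInjective _ (Submodule.injective_subtype _) (LinearMap.ker g)).symm.finrank_eq,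
    ← h]
  push_cast
  ring

end Model

end Vale.Agent.P200.Prime
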