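import Vale.Agent.P200.Prime.Model

/-!
Jets of the potentials of a system of forms of degree `p`, and their derivations.
-/

namespace Vale.Agent.P200.Prime

open MvPolynomial

/-- A square system of forms of degree `p` whose monomials each live in one block of variables. -/
structure Sys (K : Type*) [Field K] (p n : ℕ) where
  /-- the block of a variable -/
  grp : Fin n → ℕ
  /-- the forms -/
  f : Fin n → MvPolynomial (Fin n) K
  homog : ∀ l, (f l).IsHomogeneous p
  local_block : ∀ l, ∀ m ∈ (f l).support, ∀ i j, m i ≠ 0 → m j ≠ 0 → grp i = grp j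

namespace Sys

variable {K : Type*} [Field K] {p n : ℕ} (S : Sys K p n)

/-- The exponent `γ` lives in the block of `i`. -/
def InBlock (i : Fin n) (γ : Fin n → ℕ) : Prop := ∀ j, γ j ≠ 0 → S.grp j = S.grp i

instance (i : Fin n) (γ : Fin n → ℕ) : Decidable (S.InBlock i γ) := by
  unfold InBlock; infer_instance

/-- Jets of the potentials. -/
def Jet : Type :=
  {q : Fin n × (Fin n → Fin p) //
    (∑ j, (q.2 j : ℕ)) + 2 ≤ p ∧ S.InBlock q.1 fun j => (q.2 j : ℕ)}

instance : Fintype S.Jet := by unfold Jet; infer_instance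

instance : DecidableEq S.Jet := by unfold Jet; infer_instance

/-- The variable of a jet. -/
def ji (q : S.Jet) : Fin n := q.1.1

/-- The exponent of a jet. -/
def je (q : S.Jet) : Fin n → ℕ := fun j => (q.1.2 j : ℕ)

/-- The order of a jet. -/
def jlen (q : S.Jet) : ℕ := ∑ j, S.je q j

lemma jlen_le (q : S.Jet) : S.jlen q + 2 ≤ p := q.2.1

lemma je_block (q : S.Jet) : S.InBlock (S.ji q) (S.je q) := q.2.2

lemma jet_ext {q q' : S.Jet} (h₁ : S.ji q = S.ji q') (h₂ : S.je q = S.je q') : q = q' :=
  Subtype.ext (Prod.ext h₁ (funext fun j => Fin.ext (congrFun h₂ j)))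

/-- A jet from its exponent. -/
def mkJet (i : Fin n) (γ : Fin n → ℕ) (h : (∑ j, γ j) + 2 ≤ p) (hb : S.InBlock i γ) : S.Jet :=
  ⟨(i, fun j => ⟨γ j, lt_of_le_of_lt
    (Finset.single_le_sum (f := γ) (fun _ _ => Nat.zero_le _) (Finset.mem_univ j)) (by omega)⟩),
    h, hb⟩

lemma ji_mkJet (i : Fin n) (γ : Fin n → ℕ) (h hb) : S.ji (S.mkJet i γ h hb) = i := rfl

lemma je_mkJet (i : Fin n) (γ : Fin n → ℕ) (h hb) : S.je (S.mkJet i γ h hb) = γ := rfl

/-- The scalars: parameters and jets. -/
abbrev S0 : Type _ := MvPolynomial (Fin n ⊕ S.Jet) K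

/-- A chosen variable of a nonzero exponent. -/
noncomputable def pick (m : Fin n → ℕ) : Option (Fin n) := by
  classical
  exact if h : ∃ i, m i ≠ 0 then some h.choose else none

lemma pick_eq_some {m : Fin n → ℕ} {i : Fin n} (h : pick m = some i) : m i ≠ 0 := by
  classical
  unfold pick at h
  split_ifs at h with h'
  exact Option.some.inj h ▸ h'.choose_spec

lemma exists_pick {m : Fin n → ℕ} (h : ∃ i, m i ≠ 0) : ∃ i, pick m = some i := by
  classical
  exact ⟨h.choose, by simp [pick, h]⟩

/-- The coefficient at `z l` of the top jet `(i, k)`. -/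
noncomputable def tau (i : Fin n) (k : Fin n → ℕ) (l : Fin n) : K :=
  if pick (fun j => k j + if j = i then 1 else 0) = some i then
    (Nat.multinomial Finset.univ k : K)⁻¹ *
      coeff (Finsupp.equivFunOnFinite.symm fun j => k j + if j = i then 1 else 0) (S.f l)
  else 0

/-- The value of a derivative of a potential. -/
noncomputable def val (i : Fin n) (γ : Fin n → ℕ) : S.S0 :=
  if h : (∑ j, γ j) + 2 ≤ p ∧ S.InBlock i γ then X (Sum.inr (S.mkJet i γ h.1 h.2))
  else if (∑ j, γ j) + 1 = p then ∑ l, C (S.tau i γ l) * X (Sum.inl l) else 0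

/-- The derivation in the direction of a variable. -/
noncomputable def der (j : Fin n) : Derivation K S.S0 S.S0 :=
  MvPolynomial.mkDerivation K fun v =>
    match v with
    | .inl _ => 0
    | .inr q => S.val (S.ji q) (fun t => S.je q t + if t = j then 1 else 0)

lemma der_z (j l : Fin n) : S.der j (X (Sum.inl l)) = 0 := by
  simp [der, MvPolynomial.mkDerivation_X]

lemma der_jet (j : Fin n) (q : S.Jet) :
    S.der j (X (Sum.inr q)) = S.val (S.ji q) (fun t => S.je q t + if t = j then 1 else 0) := by
  simp [der, MvPolynomial.mkDerivation_X]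

lemma sum_bump (γ : Fin n → ℕ) (j : Fin n) :
    ∑ t, (γ t + if t = j then 1 else 0) = (∑ t, γ t) + 1 := by
  rw [Finset.sum_add_distrib]; simp

lemma inBlock_of_bump {i j : Fin n} {γ : Fin n → ℕ}
    (h : S.InBlock i fun t => γ t + if t = j then 1 else 0) : S.InBlock i γ :=
  fun t ht => h t (by show (γ t + _) ≠ 0; omega)

lemma tau_eq_zero {i : Fin n} {γ : Fin n → ℕ} (hb : ¬ S.InBlock i γ) (l : Fin n) :
    S.tau i γ l = 0 := by
  unfold tau
  split_ifs with h
  · by_cases hc : coeff (Finsupp.equivFunOnFinite.symm fun j => γ j + if j = i then 1 else 0)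
        (S.f l) = 0
    · rw [hc, mul_zero]
    · refine absurd (fun t ht => ?_) hb
      refine S.local_block l _ (MvPolynomial.mem_support_iff.2 hc) t i ?_ ?_ <;>
        simp only [Finsupp.coe_equivFunOnFinite_symm] <;> simp [ht]
  · rfl

lemma val_eq_zero {i : Fin n} {γ : Fin n → ℕ} (hb : ¬ S.InBlock i γ) : S.val i γ = 0 := by
  rw [val, dif_neg (fun h => hb h.2)]
  split_ifs
  · exact Finset.sum_eq_zero fun l _ => by rw [S.tau_eq_zero hb, map_zero, zero_mul]
  · rfl

lemma val_big {i : Fin n} {γ : Fin n → ℕ} (h : p ≤ ∑ j, γ j) : S.val i γ = 0 := by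
  rw [val, dif_neg (fun h' => by have := h'.1; omega), if_neg (by omega)]

lemma der_top (j : Fin n) (c : Fin n → K) :
    S.der j (∑ l, C (c l) * X (Sum.inl l)) = 0 := by
  rw [map_sum]
  exact Finset.sum_eq_zero fun l _ => by rw [← smul_eq_C_mul, Derivation.map_smul, der_z, smul_zero]

lemma der_val (j i : Fin n) (γ : Fin n → ℕ) :
    S.der j (S.val i γ) = S.val i (fun t => γ t + if t = j then 1 else 0) := by
  by_cases hb : S.InBlock i γ
  · by_cases h : (∑ t, γ t) + 2 ≤ p
    · conv_lhs => rw [val, dif_pos ⟨h, hb⟩, der_jet, ji_mkJet, je_mkJet]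
    · conv_lhs => rw [val, dif_neg (fun h' => h h'.1)]
      rw [S.val_big (by rw [sum_bump]; omega)]
      split_ifs
      · exact S.der_top j _
      · exact map_zero _
  · rw [S.val_eq_zero hb, map_zero, S.val_eq_zero fun h => hb (S.inBlock_of_bump h)]

lemma der_comm (i j : Fin n) (x : S.S0) : S.der i (S.der j x) = S.der j (S.der i x) := by
  have h : ⁅S.der i, S.der j⁆ = (0 : Derivation K S.S0 S.S0) := by
    refine MvPolynomial.derivation_ext fun v => ?_
    rw [Derivation.commutator_apply, Derivation.zero_apply, sub_eq_zero]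
    cases v with
    | inl l => rw [der_z, der_z, map_zero, map_zero]
    | inr q =>
      rw [der_jet, der_jet, der_val, der_val]
      congr 1
      funext t
      omega
  have := DFunLike.congr_fun h x
  rwa [Derivation.commutator_apply, Derivation.zero_apply, sub_eq_zero] at this

/-- The derivatives of a potential as a linear map on polynomials. -/
noncomputable def V (i : Fin n) : MvPolynomial (Fin n) K →ₗ[K] S.S0 :=
  (MvPolynomial.basisMonomials (Fin n) K).constr K fun α => S.val i α

lemma V_monomial (i : Fin n) (α : Fin n →₀ ℕ) : S.V i (monomial α 1) = S.val i α := by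
  have h := (MvPolynomial.basisMonomials (Fin n) K).constr_basis K (fun α => S.val i α) α
  rwa [coe_basisMonomials] at h

lemma der_V (j i : Fin n) (P : MvPolynomial (Fin n) K) :
    S.der j (S.V i P) = S.V i (X j * P) := by
  induction P using MvPolynomial.induction_on' with
  | add P Q hP hQ => simp [mul_add, hP, hQ]
  | monomial α a =>
    have h1 : monomial α a = a • (monomial α 1 : MvPolynomial (Fin n) K) := by
      rw [smul_monomial, smul_eq_mul, mul_one]
    rw [h1, map_smul, Derivation.map_smul, V_monomial, der_val, mul_smul_comm, map_smul,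
      show (X j : MvPolynomial (Fin n) K) = monomial (Finsupp.single j 1) 1 from rfl,
      monomial_mul, one_mul, V_monomial]
    congr 2
    funext t
    rw [Finsupp.add_apply, Finsupp.single_apply, add_comm]
    by_cases h : j = t <;> simp [h, eq_comm]

/-- The linear form of a direction. -/
noncomputable def lin (c : Fin n → K) : MvPolynomial (Fin n) K := ∑ j, C (c j) * X j

/-- The derivation in a direction. -/
noncomputable def derc (c : Fin n → K) : Derivation K S.S0 S.S0 := ∑ j, c j • S.der j

lemma derc_apply (c : Fin n → K) (x : S.S0) : S.derc c x = ∑ j, c j • S.der j x := by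
  rw [derc]
  induction (Finset.univ : Finset (Fin n)) using Finset.induction_on with
  | empty => simp
  | insert a s ha ih =>
    rw [Finset.sum_insert ha, Finset.sum_insert ha, Derivation.add_apply, Derivation.smul_apply, ih]

lemma derc_V (c : Fin n → K) (i : Fin n) (P : MvPolynomial (Fin n) K) :
    S.derc c (S.V i P) = S.V i (lin c * P) := by
  rw [derc_apply, lin, Finset.sum_mul, map_sum]
  exact Finset.sum_congr rfl fun j _ => by
    rw [der_V, mul_assoc, ← smul_eq_C_mul, map_smul]

lemma jet_eq_V (q : S.Jet) :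
    (X (Sum.inr q) : S.S0) = S.V (S.ji q) (monomial (Finsupp.equivFunOnFinite.symm (S.je q)) 1) := by
  rw [V_monomial, Finsupp.coe_equivFunOnFinite_symm, val, dif_pos ⟨S.jlen_le q, S.je_block q⟩]
  exact congrArg (fun q' => (X (Sum.inr q') : S.S0)) (S.jet_ext rfl rfl)

lemma derc_pow_jet (c : Fin n → K) (q : S.Jet) (k : ℕ) :
    ((S.derc c).toLinearMap ^ k) (X (Sum.inr q)) =
      S.V (S.ji q) (lin c ^ k * monomial (Finsupp.equivFunOnFinite.symm (S.je q)) 1) := by
  induction k with
  | zero => rw [pow_zero, pow_zero, one_mul, ← jet_eq_V]; rfl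
  | succ k ih =>
    rw [pow_succ' (S.derc c).toLinearMap, Module.End.mul_apply, ih]
    show S.derc c _ = _
    rw [derc_V, pow_succ' (lin c), mul_assoc]

lemma V_of_degree_ge (i : Fin n) {P : MvPolynomial (Fin n) K} {d : ℕ} (hP : P.IsHomogeneous d)
    (hd : p ≤ d) : S.V i P = 0 := by
  rw [P.as_sum, map_sum]
  refine Finset.sum_eq_zero fun α hα => ?_
  rw [show monomial α (coeff α P) = coeff α P • (monomial α 1 : MvPolynomial (Fin n) K) by
    rw [smul_monomial, smul_eq_mul, mul_one], map_smul, V_monomial, S.val_big, smul_zero]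
  have := hP (MvPolynomial.mem_support_iff.1 hα)
  rw [Finsupp.weight_apply, Finsupp.sum_fintype _ _ (by simp)] at this
  simp only [Pi.one_apply, smul_eq_mul, mul_one] at this
  omega

lemma lin_isHomogeneous (c : Fin n → K) : (lin c).IsHomogeneous 1 :=
  IsHomogeneous.sum _ _ _ fun _ _ => (isHomogeneous_X _ _).C_mul _

/-- The value of the forms at a point, in the parameters. -/
noncomputable def formVal (c : Fin n → K) : S.S0 :=
  ∑ l, C (eval c (S.f l)) * X (Sum.inl l)

/-- The top derivatives of the potentials assemble the forms. -/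
theorem sum_top [Fact p.Prime] [CharP K p] (c : Fin n → K) :
    ∑ i, c i • S.V i (lin c ^ (p - 1)) = S.formVal c := by
  classical
  have hp := (Fact.out : p.Prime)
  set P : Finset (Fin n → ℕ) := Finset.piAntidiag Finset.univ (p - 1)
  have hlin : ∀ i, S.V i (lin c ^ (p - 1)) =
      ∑ k ∈ P, ((Nat.multinomial Finset.univ k : K) * ∏ j, c j ^ k j) • S.val i k := fun i => by
    rw [lin, Finset.sum_pow_eq_sum_piAntidiag, map_sum]
    refine Finset.sum_congr rfl fun k _ => ?_
    have h1 : (∏ j, (C (c j) * X j : MvPolynomial (Fin n) K) ^ k j) =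
        C (∏ j, c j ^ k j) * monomial (Finsupp.equivFunOnFinite.symm k) 1 := by
      simp only [mul_pow, Finset.prod_mul_distrib, map_prod, map_pow]
      congr 1
      rw [monomial_eq, map_one, one_mul, Finsupp.prod_fintype _ _ (fun i => pow_zero _)]
      simp
    rw [h1, ← map_natCast (C : K →+* MvPolynomial (Fin n) K), ← mul_assoc, ← map_mul,
      ← smul_eq_C_mul, map_smul, V_monomial, Finsupp.coe_equivFunOnFinite_symm]
  have htop : ∀ i, ∀ k ∈ P, S.val i k = ∑ l, C (S.tau i k l) * X (Sum.inl l) := fun i k hk => by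
    have h := (Finset.mem_piAntidiag.1 hk).1
    have h' : (∑ j, k j) = p - 1 := h
    have := hp.two_le
    rw [val, dif_neg (fun hh => by have := hh.1; omega), if_pos (by omega)]
  have hne : ∀ k ∈ P, (Nat.multinomial Finset.univ k : K) ≠ 0 := fun k hk h0 => by
    have h1 := Nat.multinomial_spec Finset.univ k
    have hdvd : p ∣ (∑ j, k j).factorial :=
      h1 ▸ dvd_mul_of_dvd_right ((CharP.cast_eq_zero_iff K p _).1 h0) _
    rw [show (∑ j, k j) = p - 1 from (Finset.mem_piAntidiag.1 hk).1] at hdvd
    have := (hp.dvd_factorial).1 hdvd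
    have := hp.two_le
    omega
  have key : ∀ l, ∑ i, ∑ k ∈ P,
      c i * ((Nat.multinomial Finset.univ k : K) * ∏ j, c j ^ k j) * S.tau i k l =
        eval c (S.f l) := by
    intro l
    rw [MvPolynomial.eval_eq']
    rw [← Finset.sum_product' (f := fun i k =>
      c i * ((Nat.multinomial Finset.univ k : K) * ∏ j, c j ^ k j) * S.tau i k l),
      ← Finset.sum_filter_of_ne (p := fun q : Fin n × (Fin n → ℕ) =>
        pick (fun j => q.2 j + if j = q.1 then 1 else 0) = some q.1 ∧
          coeff (Finsupp.equivFunOnFinite.symm fun j => q.2 j + if j = q.1 then 1 else 0) (S.f l) ≠ 0)]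
    swap
    · intro q _ hq
      refine ⟨?_, ?_⟩
      · by_contra h; exact hq (by rw [tau, if_neg h, mul_zero])
      · intro h; exact hq (by rw [tau, h, mul_zero, ite_self, mul_zero])
    refine Finset.sum_bij (fun q _ => Finsupp.equivFunOnFinite.symm
      fun j => q.2 j + if j = q.1 then 1 else 0) (fun q hq => ?_) (fun q hq q' hq' heq => ?_)
      (fun m hm => ?_) (fun q hq => ?_)
    · exact MvPolynomial.mem_support_iff.2 (Finset.mem_filter.1 hq).2.2
    · have h1 := (Finset.mem_filter.1 hq).2.1
      have h2 := (Finset.mem_filter.1 hq').2.1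
      have heq' := Finsupp.equivFunOnFinite.symm.injective heq
      rw [heq', h2] at h1
      have h3 := Option.some.inj h1
      refine Prod.ext h3.symm (funext fun j => ?_)
      have := congrFun heq' j
      rw [h3] at this
      omega
    · have hdeg : ∑ j, m j = p := by
        have := S.homog l (MvPolynomial.mem_support_iff.1 hm)
        rw [Finsupp.weight_apply, Finsupp.sum_fintype _ _ (by simp)] at this
        simpa using this
      have hex : ∃ i, m i ≠ 0 := by
        by_contra h
        push Not at h
        rw [Finset.sum_eq_zero fun j _ => h j] at hdeg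
        exact hp.pos.ne hdeg
      obtain ⟨i, hi⟩ := exists_pick hex
      have hmi := pick_eq_some hi
      have hfun : (fun j => (m j - if j = i then 1 else 0) + if j = i then 1 else 0) = ⇑m := by
        funext j
        split_ifs with h
        · subst h; omega
        · simp
      refine ⟨(i, fun j => m j - if j = i then 1 else 0), Finset.mem_filter.2
        ⟨Finset.mem_product.2 ⟨Finset.mem_univ _, Finset.mem_piAntidiag.2 ⟨?_, by simp⟩⟩, ?_, ?_⟩, ?_⟩
      · show ∑ j, (m j - if j = i then 1 else 0) = p - 1
        have h := congrArg (fun g : Fin n → ℕ => ∑ j, g j) hfun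
        simp only [sum_bump, hdeg] at h
        omega
      · rw [hfun]; exact hi
      · rw [hfun, Finsupp.equivFunOnFinite_symm_coe]
        exact MvPolynomial.mem_support_iff.1 hm
      · rw [hfun, Finsupp.equivFunOnFinite_symm_coe]
    · obtain ⟨hmem, hpick, -⟩ := Finset.mem_filter.1 hq
      have hk := (Finset.mem_product.1 hmem).2
      rw [tau, if_pos hpick]
      simp only [Finsupp.coe_equivFunOnFinite_symm, pow_add, Finset.prod_mul_distrib, pow_ite,
        pow_one, pow_zero, Finset.prod_ite_eq', Finset.mem_univ, if_true]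
      field_simp [hne _ hk]
  rw [formVal]
  calc ∑ i, c i • S.V i (lin c ^ (p - 1))
      = ∑ i, ∑ k ∈ P, ∑ l,
          C (c i * ((Nat.multinomial Finset.univ k : K) * ∏ j, c j ^ k j) * S.tau i k l)
            * X (Sum.inl l) := by
        refine Finset.sum_congr rfl fun i _ => ?_
        rw [hlin, Finset.smul_sum]
        refine Finset.sum_congr rfl fun k hk => ?_
        rw [htop i k hk, smul_smul, Finset.smul_sum]
        refine Finset.sum_congr rfl fun l _ => ?_
        rw [smul_eq_C_mul, ← mul_assoc, ← map_mul]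
    _ = ∑ l, C (∑ i, ∑ k ∈ P,
          c i * ((Nat.multinomial Finset.univ k : K) * ∏ j, c j ^ k j) * S.tau i k l)
            * X (Sum.inl l) := by
        simp only [map_sum, Finset.sum_mul]
        exact (Finset.sum_congr rfl fun i _ => Finset.sum_comm).trans Finset.sum_comm
    _ = _ := by simp only [key]

end Sys

end Vale.Agent.P200.Prime
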