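import Vale.Agent.P200.Prime.Jets
import Vale.Agent.P200.Prime.Jacobson

/-!
The differential operators of a system and the algebra they generate.
-/

namespace Vale.Agent.P200.Prime

open MvPolynomial

namespace Sys

set_option linter.unusedSectionVars false

variable {K : Type*} [Field K] {p n : ℕ} [Fact p.Prime] [CharP K p] (S : Sys K p n)

/-- The module carrying the regular representation. -/
abbrev Mod : Type _ := (Fin n → Fin p) → S.S0

/-- The zeroth jet of a potential. -/
noncomputable def pot (j : Fin n) : S.S0 := S.val j 0

/-- The value of the `p`-th power of a derivation symbol. -/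
noncomputable def top (j : Fin n) : S.S0 := -(S.pot j ^ p)

lemma charS0 : CharP S.S0 p := inferInstance

lemma der_pow_p (j : Fin n) (x : S.S0) : S.der j (x ^ p) = 0 := by
  rw [Derivation.leibniz_pow, ← Nat.cast_smul_eq_nsmul S.S0, CharP.cast_eq_zero, zero_smul]

lemma der_top_const (i j : Fin n) : S.der i (S.top j) = 0 := by
  rw [top, map_neg, der_pow_p, neg_zero]

/-- Multiplication by a scalar. -/
noncomputable def L : S.S0 →ₐ[K] Module.End K S.Mod :=
  Algebra.lsmul K K S.Mod

lemma L_apply (s : S.S0) (m : S.Mod) (β : Fin n → Fin p) : S.L s m β = s * m β := rfl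

/-- The index one step below. -/
def below (j : Fin n) (β : Fin n → Fin p) : Fin n → Fin p :=
  Function.update β j ⟨(β j : ℕ) - 1, lt_of_le_of_lt (Nat.sub_le _ _) (β j).2⟩

/-- The index at the top in one direction. -/
def topIdx (j : Fin n) (β : Fin n → Fin p) : Fin n → Fin p :=
  Function.update β j ⟨p - 1, Nat.sub_lt (Fact.out : p.Prime).pos Nat.one_pos⟩

/-- The shift in one direction, wrapping around. -/
noncomputable def sh (j : Fin n) : Module.End K S.Mod where
  toFun m β := if (β j : ℕ) = 0 then S.top j * m (topIdx j β) else m (below j β)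
  map_add' x y := funext fun β => by simp only [Pi.add_apply]; split_ifs <;> simp [mul_add]
  map_smul' c x := funext fun β => by simp only [Pi.smul_apply, RingHom.id_apply]; split_ifs <;> simp

lemma sh_apply (j : Fin n) (m : S.Mod) (β : Fin n → Fin p) :
    S.sh j m β = if (β j : ℕ) = 0 then S.top j * m (topIdx j β) else m (below j β) := rfl

/-- The derivation acting on coefficients. -/
noncomputable def dh (j : Fin n) : Module.End K S.Mod where
  toFun m β := S.der j (m β)
  map_add' _ _ := funext fun _ => map_add _ _ _
  map_smul' _ _ := funext fun _ => Derivation.map_smul _ _ _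

lemma dh_apply (j : Fin n) (m : S.Mod) (β : Fin n → Fin p) : S.dh j m β = S.der j (m β) := rfl

/-- The operator of a derivation symbol. -/
noncomputable def D (j : Fin n) : Module.End K S.Mod := S.dh j + S.sh j

lemma dh_sh (i j : Fin n) : Commute (S.dh i) (S.sh j) := by
  refine LinearMap.ext fun m => funext fun β => ?_
  simp only [Module.End.mul_apply, dh_apply, sh_apply]
  split_ifs
  · rw [Derivation.leibniz, der_top_const, smul_zero, add_zero, smul_eq_mul]
  · rfl

lemma sh_sh (i j : Fin n) : Commute (S.sh i) (S.sh j) := by
  rcases eq_or_ne i j with rfl | hij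
  · exact Commute.refl _
  refine LinearMap.ext fun m => funext fun β => ?_
  simp only [Module.End.mul_apply, sh_apply, topIdx, below,
    Function.update_of_ne hij, Function.update_of_ne hij.symm, Function.update_comm hij]
  split_ifs <;> ring

lemma dh_dh (i j : Fin n) : Commute (S.dh i) (S.dh j) :=
  LinearMap.ext fun m => funext fun β => S.der_comm i j (m β)

lemma D_comm (i j : Fin n) : Commute (S.D i) (S.D j) :=
  ((S.dh_dh i j).add_right (S.dh_sh i j)).add_left ((S.dh_sh j i).symm.add_right (S.sh_sh i j))

lemma sh_L (j : Fin n) (s : S.S0) : Commute (S.sh j) (S.L s) := by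
  refine LinearMap.ext fun m => funext fun β => ?_
  simp only [Module.End.mul_apply, sh_apply, L_apply]
  split_ifs <;> ring

lemma D_L (j : Fin n) (s : S.S0) : S.D j * S.L s = S.L (S.der j s) + S.L s * S.D j := by
  rw [D, add_mul, mul_add, (S.sh_L j s).eq, ← add_assoc]
  congr 1
  refine LinearMap.ext fun m => funext fun β => ?_
  simp only [Module.End.mul_apply, LinearMap.add_apply, Pi.add_apply, dh_apply, L_apply,
    Derivation.leibniz, smul_eq_mul]
  ring

/-- The derivation in a direction, as an operator. -/
noncomputable def Dc (c : Fin n → K) : Module.End K S.Mod := ∑ j, c j • S.D j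

lemma Dc_L (c : Fin n → K) (s : S.S0) : bra K (S.Dc c) (S.L s) = S.L (S.derc c s) := by
  rw [bra_apply, Dc, Finset.sum_mul, Finset.mul_sum, ← Finset.sum_sub_distrib, derc_apply, map_sum]
  refine Finset.sum_congr rfl fun j _ => ?_
  rw [smul_mul_assoc, mul_smul_comm, D_L, map_smul, smul_add, add_sub_cancel_right]

lemma bra_pow_L (c : Fin n → K) (s : S.S0) (k : ℕ) :
    (bra K (S.Dc c) ^ k) (S.L s) = S.L (((S.derc c).toLinearMap ^ k) s) := by
  induction k with
  | zero => simp
  | succ k ih =>
    rw [pow_succ' (bra K (S.Dc c)), pow_succ' (S.derc c).toLinearMap, Module.End.mul_apply,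
      Module.End.mul_apply, ih, Dc_L]
    rfl

lemma charEnd : CharP (Module.End K S.Mod) p :=
  have : Nontrivial (Module.End K S.Mod) := by
    refine ⟨0, 1, fun h => ?_⟩
    have := congrFun (LinearMap.congr_fun h (fun _ => 1 : S.Mod))
      (fun _ => ⟨0, (Fact.out : p.Prime).pos⟩)
    simp at this
  charP_of_injective_algebraMap (algebraMap K (Module.End K S.Mod)).injective p

lemma der_iter_p (j : Fin n) (x : S.S0) : ((S.der j).toLinearMap ^ p) x = 0 := by
  have hp := (Fact.out : p.Prime)
  set A : Module.End K S.S0 := (S.der j).toLinearMap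
  have hA : ∀ a : S.S0, bra K A (LinearMap.mulLeft K a) = LinearMap.mulLeft K (S.der j a) :=
    fun a => by
      refine LinearMap.ext fun y => ?_
      show S.der j (a * y) - a * S.der j y = S.der j a * y
      rw [Derivation.leibniz, smul_eq_mul, smul_eq_mul]
      ring
  have hAk : ∀ k (a : S.S0), (bra K A ^ k) (LinearMap.mulLeft K a) =
      LinearMap.mulLeft K ((A ^ k) a) := fun k a => by
    induction k with
    | zero => simp
    | succ k ih =>
      rw [pow_succ' (bra K A), pow_succ' A, Module.End.mul_apply, Module.End.mul_apply, ih, hA]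
      rfl
  have hleib : ∀ a b : S.S0, (A ^ p) (a * b) = (A ^ p) a * b + a * (A ^ p) b := fun a b => by
    have h := LinearMap.congr_fun ((hAk p a).symm.trans (bra_pow_char (K := K) hp A _)) b
    simp only [LinearMap.mulLeft_apply, LinearMap.sub_apply, Module.End.mul_apply] at h
    linear_combination -h
  have hpred : ∀ y, (A ^ p) y = (A ^ (p - 1)) (A y) := fun y => by
    have h := pow_succ A (p - 1)
    rw [Nat.sub_add_cancel hp.one_le] at h
    rw [h, Module.End.mul_apply]
  induction x using MvPolynomial.induction_on with
  | C a =>
    rw [hpred]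
    show (A ^ (p - 1)) (S.der j (C a)) = 0
    rw [← MvPolynomial.algebraMap_eq, Derivation.map_algebraMap, map_zero]
  | add u w hu hw => rw [map_add, hu, hw, add_zero]
  | mul_X u v hu =>
    rw [hleib, hu, zero_mul, zero_add]
    cases v with
    | inl l =>
      rw [hpred]
      show u * (A ^ (p - 1)) (S.der j (X (Sum.inl l))) = 0
      rw [der_z, map_zero, mul_zero]
    | inr q =>
      have h := S.derc_pow_jet (Pi.single j 1) q p
      have he : S.derc (Pi.single j 1) = S.der j := Derivation.ext fun y => by
        rw [derc_apply, Finset.sum_eq_single j (fun i _ hi => by simp [hi]) (by simp)]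
        simp
      rw [he] at h
      rw [h, S.V_of_degree_ge _ (((lin_isHomogeneous _).pow p).mul (isHomogeneous_monomial 1 rfl))
        (by omega), mul_zero]

lemma sh_pow (j : Fin n) : ∀ k, k ≤ p → ∀ (m : S.Mod) (β : Fin n → Fin p),
    (S.sh j ^ k) m β =
      if (β j : ℕ) < k then
        S.top j * m (Function.update β j (if h : (β j : ℕ) + p - k < p then ⟨_, h⟩ else β j))
      else m (Function.update β j ⟨(β j : ℕ) - k, lt_of_le_of_lt (Nat.sub_le _ _) (β j).2⟩) := by
  intro k
  induction k with
  | zero => intro _ m β; simp
  | succ k ih =>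
    intro hk m β
    have hb := (β j).2
    rw [pow_succ', Module.End.mul_apply, sh_apply]
    by_cases h0 : (β j : ℕ) = 0
    · rw [if_pos h0, if_pos (by omega), ih (by omega),
        if_neg (by simp only [topIdx, Function.update_self]; omega)]
      congr 2
      simp only [topIdx, Function.update_idem, Function.update_self]
      congr 1
      rw [dif_pos (by omega)]
      ext
      simp only
      omega
    · rw [if_neg h0, ih (by omega)]
      simp only [below, Function.update_idem, Function.update_self]
      by_cases h1 : (β j : ℕ) - 1 < k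
      · rw [if_pos h1, if_pos (by omega), dif_pos (by omega), dif_pos (by omega)]
        congr 3
        ext
        simp only
        omega
      · rw [if_neg h1, if_neg (by omega)]
        congr 2
        ext
        simp only
        omega

/-- The `p`-th power of a derivation symbol. -/
theorem D_pow (j : Fin n) : S.D j ^ p = S.L (S.top j) := by
  have hp := (Fact.out : p.Prime)
  have := S.charEnd
  rw [D, add_pow_char_of_commute p (S.dh_sh j j)]
  have h1 : S.dh j ^ p = 0 := by
    refine LinearMap.ext fun m => funext fun β => ?_
    have : ∀ k, (S.dh j ^ k) m β = ((S.der j).toLinearMap ^ k) (m β) := fun k => by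
      induction k with
      | zero => rfl
      | succ k ih =>
        rw [pow_succ', pow_succ', Module.End.mul_apply, Module.End.mul_apply, dh_apply, ih]
        rfl
    rw [this, der_iter_p]
    rfl
  rw [h1, zero_add]
  refine LinearMap.ext fun m => funext fun β => ?_
  rw [S.sh_pow j p le_rfl, if_pos (β j).2, L_apply, dif_pos (by have := (β j).2; omega)]
  congr 2
  funext i
  rcases eq_or_ne i j with rfl | hi
  · rw [Function.update_self]; ext; simp
  · rw [Function.update_of_ne hi]

end Sys

end Vale.Agent.P200.Prime
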