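import Vale.Agent.P200.Prime.Ops

/-!
Normal forms of differential operators and their weights.
-/

namespace Vale.Agent.P200.Prime

open MvPolynomial
open scoped IsMulCommutative

namespace Sys

variable {K : Type*} [Field K] {p n : ℕ} [Fact p.Prime] [CharP K p] (S : Sys K p n)

set_option linter.unusedSectionVars false

/-- The commutative algebra of the derivation symbols. -/
noncomputable abbrev CD : Subalgebra K (Module.End K S.Mod) := Algebra.adjoin K (Set.range S.D)

instance : IsMulCommutative S.CD :=
  Algebra.isMulCommutative_adjoin K <| by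
    rintro _ ⟨i, rfl⟩ _ ⟨j, rfl⟩
    exact (S.D_comm i j).eq

/-- Monomials in the derivation symbols. -/
noncomputable def Dp (β : Fin n → ℕ) : Module.End K S.Mod :=
  ((∏ j, (⟨S.D j, Algebra.subset_adjoin ⟨j, rfl⟩⟩ : S.CD) ^ β j : S.CD) : Module.End K S.Mod)

lemma Dp_eq_list (β : Fin n → ℕ) :
    S.Dp β = ((List.finRange n).map fun j => S.D j ^ β j).prod := by
  show S.CD.val _ = _
  rw [← List.ofFn_eq_map, ← List.prod_ofFn (f := fun j =>
    (⟨S.D j, Algebra.subset_adjoin ⟨j, rfl⟩⟩ : S.CD) ^ β j), map_list_prod, List.map_ofFn]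
  rfl

lemma Dp_add (β γ : Fin n → ℕ) : S.Dp (β + γ) = S.Dp β * S.Dp γ := by
  simp only [Dp, Pi.add_apply, pow_add, Finset.prod_mul_distrib]
  rfl

lemma Dp_zero : S.Dp 0 = 1 := by
  rw [Dp_eq_list]
  simp

lemma Dp_single (j : Fin n) (k : ℕ) : S.Dp (Pi.single j k) = S.D j ^ k := by
  classical
  simp only [Dp]
  rw [Finset.prod_eq_single j (fun i _ hi => by simp [hi]) (by simp)]
  simp

/-- Numerical exponents. -/
def nat (β : Fin n → Fin p) : Fin n → ℕ := fun j => (β j : ℕ)

/-- The order of an index. -/
def mwt (β : Fin n → Fin p) : ℕ := ∑ j, (β j : ℕ)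

/-- A unit vector. -/
noncomputable def eb (β : Fin n → Fin p) : S.Mod := Pi.single β 1

/-- The zero index. -/
def zidx : Fin n → Fin p := fun _ => ⟨0, (Fact.out : p.Prime).pos⟩

lemma D_eb (j : Fin n) (β γ : Fin n → Fin p)
    (h : ∀ i, (γ i : ℕ) = (β i : ℕ) + if i = j then 1 else 0) : S.D j (S.eb β) = S.eb γ := by
  classical
  funext δ
  have hd : S.dh j (S.eb β) δ = 0 := by
    rw [dh_apply, eb, Pi.single_apply]
    split_ifs
    · exact Derivation.map_one_eq_zero _
    · exact map_zero _
  rw [D, LinearMap.add_apply, Pi.add_apply, hd, zero_add, sh_apply, eb, eb]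
  have hjj : (γ j : ℕ) = (β j : ℕ) + 1 := by simpa using h j
  have hlt := (γ j).2
  split_ifs with h0
  · rw [Pi.single_eq_of_ne, mul_zero, Pi.single_eq_of_ne]
    · intro e; rw [e, hjj] at h0; omega
    · intro e
      have := congrArg (fun η : Fin n → Fin p => (η j : ℕ)) e
      simp only [topIdx, Function.update_self] at this
      omega
  · by_cases hδ : δ = γ
    · subst hδ
      have : below j δ = β := by
        funext i
        rcases eq_or_ne i j with rfl | hi
        · rw [below, Function.update_self]; ext; simp [hjj]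
        · rw [below, Function.update_of_ne hi]; ext; simpa [hi] using h i
      rw [this, Pi.single_eq_same, Pi.single_eq_same]
    · rw [Pi.single_eq_of_ne, Pi.single_eq_of_ne hδ]
      intro e
      refine hδ (funext fun i => Fin.ext ?_)
      have h1 := congrArg (fun η : Fin n → Fin p => (η i : ℕ)) e
      rcases eq_or_ne i j with rfl | hi
      · simp only [below, Function.update_self] at h1; omega
      · simp only [below, Function.update_of_ne hi] at h1
        have := h i
        rw [if_neg hi] at this
        omega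

lemma Dp_eb : ∀ (β : Fin n → Fin p), S.Dp (nat β) (S.eb zidx) = S.eb β := by
  intro β
  induction hk : mwt β generalizing β with
  | zero =>
    have h := Finset.sum_eq_zero_iff.1 hk
    have hβ : β = zidx := funext fun j => Fin.ext (h j (Finset.mem_univ j))
    have h0 : nat (zidx : Fin n → Fin p) = 0 := rfl
    rw [hβ, h0, Dp_zero, Module.End.one_apply]
  | succ k ih =>
    obtain ⟨j, hj⟩ : ∃ j, (β j : ℕ) ≠ 0 := by
      by_contra h
      push Not at h
      rw [mwt, Finset.sum_eq_zero fun j _ => h j] at hk
      omega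
    have hsum : mwt (below j β) + 1 = mwt β := by
      unfold mwt
      rw [← Finset.add_sum_erase _ _ (Finset.mem_univ j),
        ← Finset.add_sum_erase (f := fun i => (β i : ℕ)) _ (Finset.mem_univ j),
        Finset.sum_congr rfl fun i hi => by
          rw [below, Function.update_of_ne (Finset.ne_of_mem_erase hi)]]
      simp only [below, Function.update_self]
      omega
    have hsplit : nat β = Pi.single j 1 + nat (below j β) := by
      funext i
      rcases eq_or_ne i j with rfl | hi
      · simp only [nat, below, Pi.add_apply, Pi.single_eq_same, Function.update_self]; omega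
      · simp [nat, below, hi]
    rw [hsplit, Dp_add, Dp_single, pow_one, Module.End.mul_apply, ih _ (by omega)]
    refine S.D_eb j _ _ fun i => ?_
    rcases eq_or_ne i j with rfl | hi
    · simp only [below, Function.update_self, if_true]; omega
    · simp [below, hi]

/-- The operator with given normal form. -/
noncomputable def psi : S.Mod →ₗ[K] Module.End K S.Mod where
  toFun m := ∑ β, S.L (m β) * S.Dp (nat β)
  map_add' x y := by simp only [Pi.add_apply, map_add, add_mul, Finset.sum_add_distrib]
  map_smul' c x := by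
    simp only [Pi.smul_apply, map_smul, smul_mul_assoc, RingHom.id_apply, Finset.smul_sum]

lemma psi_apply (m : S.Mod) : S.psi m = ∑ β, S.L (m β) * S.Dp (nat β) := rfl

lemma psi_e0 (m : S.Mod) : S.psi m (S.eb zidx) = m := by
  classical
  rw [psi_apply, LinearMap.sum_apply]
  funext γ
  rw [Finset.sum_apply]
  simp only [Module.End.mul_apply, Dp_eb, L_apply]
  simp only [eb, Pi.single_apply, mul_ite, mul_one, mul_zero]
  rw [Finset.sum_ite_eq]
  simp

lemma L_mul_psi (s : S.S0) (m : S.Mod) : S.L s * S.psi m = S.psi (S.L s m) := by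
  simp only [psi_apply, Finset.mul_sum, L_apply, map_mul, mul_assoc]

lemma psi_eb (β : Fin n → Fin p) (s : S.S0) :
    S.psi (Pi.single β s) = S.L s * S.Dp (nat β) := by
  classical
  rw [psi_apply, Finset.sum_eq_single β (fun γ _ hγ => by simp [hγ]) (by simp), Pi.single_eq_same]

lemma D_mul_psi_mem (j : Fin n) (m : S.Mod) : S.D j * S.psi m ∈ LinearMap.range S.psi := by
  classical
  rw [psi_apply, Finset.mul_sum]
  refine Submodule.sum_mem _ fun β _ => ?_
  rw [← mul_assoc, D_L, add_mul, mul_assoc]
  refine add_mem ⟨_, S.psi_eb β _⟩ ?_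
  have hp := (Fact.out : p.Prime)
  by_cases h : (β j : ℕ) + 1 < p
  · refine ⟨Pi.single (Function.update β j ⟨(β j : ℕ) + 1, h⟩) (m β), ?_⟩
    rw [psi_eb]
    congr 1
    have : nat (Function.update β j ⟨(β j : ℕ) + 1, h⟩) = Pi.single j 1 + nat β := by
      funext i
      rcases eq_or_ne i j with rfl | hi
      · simp only [nat, Function.update_self, Pi.add_apply, Pi.single_eq_same]; omega
      · simp [nat, hi]
    rw [this, Dp_add, Dp_single, pow_one]
  · set β' := Function.update β j ⟨0, hp.pos⟩
    refine ⟨Pi.single β' (m β * S.top j), ?_⟩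
    rw [psi_eb, map_mul, mul_assoc, ← D_pow]
    congr 1
    have hb := (β j).2
    have : nat β = Pi.single j (p - 1) + nat β' := by
      funext i
      rcases eq_or_ne i j with rfl | hi
      · simp only [nat, β', Function.update_self, Pi.add_apply, Pi.single_eq_same]; omega
      · simp [nat, β', hi]
    rw [this, Dp_add, Dp_single, ← mul_assoc, ← pow_succ', Nat.sub_add_cancel hp.one_le]

lemma Dp_mul_mem (β : Fin n → ℕ) {T : Module.End K S.Mod} (hT : T ∈ LinearMap.range S.psi) :
    S.Dp β * T ∈ LinearMap.range S.psi := by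
  rw [Dp_eq_list]
  induction List.finRange n with
  | nil => simpa using hT
  | cons j l ih =>
    simp only [List.map_cons, List.prod_cons, mul_assoc]
    set U := (List.map (fun j => S.D j ^ β j) l).prod * T
    induction β j with
    | zero => simpa using ih
    | succ k ihk =>
      rw [pow_succ', mul_assoc]
      obtain ⟨m, hm⟩ := ihk
      rw [← hm]
      exact S.D_mul_psi_mem j m

/-- The algebra of operators. -/
noncomputable def alg : Subalgebra K (Module.End K S.Mod) :=
  (LinearMap.range S.psi).toSubalgebra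
    ⟨Pi.single zidx 1, by
      have h0 : nat (zidx : Fin n → Fin p) = 0 := rfl
      rw [psi_eb, map_one, h0, Dp_zero, mul_one]⟩
    (fun T U hT hU => by
      obtain ⟨m, rfl⟩ := hT
      rw [psi_apply, Finset.sum_mul]
      refine Submodule.sum_mem _ fun β _ => ?_
      rw [mul_assoc]
      obtain ⟨m', hm'⟩ := S.Dp_mul_mem (nat β) hU
      rw [← hm', L_mul_psi]
      exact ⟨_, rfl⟩)

lemma mem_alg {T : Module.End K S.Mod} : T ∈ S.alg ↔ T ∈ LinearMap.range S.psi := Iff.rfl

lemma L_mem (s : S.S0) : S.L s ∈ S.alg :=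
  S.mem_alg.2 ⟨Pi.single zidx s, by
    have h0 : nat (zidx : Fin n → Fin p) = 0 := rfl
    rw [psi_eb, h0, Dp_zero, mul_one]⟩

lemma D_mem (j : Fin n) : S.D j ∈ S.alg := by
  have h1 : (1 : Module.End K S.Mod) ∈ LinearMap.range S.psi := S.alg.one_mem
  obtain ⟨m, hm⟩ := h1
  have := S.D_mul_psi_mem j m
  rw [hm, mul_one] at this
  exact this

lemma eq_psi {T : Module.End K S.Mod} (hT : T ∈ S.alg) : S.psi (T (S.eb zidx)) = T := by
  obtain ⟨m, rfl⟩ := S.mem_alg.1 hT
  rw [psi_e0]

/-- The weights of the variables. -/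
def wv : Fin n ⊕ S.Jet → ℕ := Sum.elim (fun _ => p) fun q => S.jlen q + 1

lemma val_weight (i : Fin n) (γ : Fin n → ℕ) :
    (S.val i γ).IsWeightedHomogeneous S.wv ((∑ j, γ j) + 1) := by
  rw [val]
  split_ifs with h h'
  · have hw : S.wv (Sum.inr (S.mkJet i γ h.1 h.2)) = (∑ j, γ j) + 1 := rfl
    rw [← hw]
    exact isWeightedHomogeneous_X _ _ _
  · rw [h']
    refine IsWeightedHomogeneous.sum _ _ _ fun l _ => ?_
    have := (isWeightedHomogeneous_C (R := K) S.wv (S.tau i γ l)).mul
      (isWeightedHomogeneous_X K S.wv (Sum.inl l))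
    simpa [wv] using this
  · exact isWeightedHomogeneous_zero _ _ _

lemma der_weight_monomial (j : Fin n) (α : (Fin n ⊕ S.Jet) →₀ ℕ) :
    (S.der j (monomial α 1)).IsWeightedHomogeneous S.wv (Finsupp.weight S.wv α + 1) := by
  induction α using Finsupp.induction with
  | zero =>
    rw [monomial_zero', map_one (C : K →+* S.S0), Derivation.map_one_eq_zero]
    exact isWeightedHomogeneous_zero _ _ _
  | single_add v b α hv hb ih =>
    rw [monomial_single_add, Derivation.leibniz, smul_eq_mul, smul_eq_mul]
    have hXb : ((X v : S.S0) ^ b).IsWeightedHomogeneous S.wv (b * S.wv v) := by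
      have := (isWeightedHomogeneous_X K S.wv v).pow b
      simpa using this
    have hw : Finsupp.weight S.wv (Finsupp.single v b + α) =
        b * S.wv v + Finsupp.weight S.wv α := by
      simp [map_add, Finsupp.weight_single]
    rw [hw]
    refine IsWeightedHomogeneous.add ?_ ?_
    · rw [add_assoc]
      exact hXb.mul ih
    · obtain ⟨b', rfl⟩ := Nat.exists_eq_succ_of_ne_zero hb
      rw [Derivation.leibniz_pow, Nat.succ_sub_one, smul_eq_mul, mul_smul_comm,
        show (b' + 1) * S.wv v + Finsupp.weight S.wv α + 1 =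
          Finsupp.weight S.wv α + (b' * S.wv v + (S.wv v + 1)) by rw [add_mul, one_mul]; omega]
      have hX' : ((X v : S.S0) ^ b').IsWeightedHomogeneous S.wv (b' * S.wv v) := by
        have := (isWeightedHomogeneous_X K S.wv v).pow b'
        simpa using this
      have hd : (S.der j (X v)).IsWeightedHomogeneous S.wv (S.wv v + 1) := by
        cases v with
        | inl l => rw [der_z]; exact isWeightedHomogeneous_zero _ _ _
        | inr q =>
          rw [der_jet]
          have := S.val_weight (S.ji q) fun t => S.je q t + if t = j then 1 else 0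
          rw [sum_bump] at this
          exact this
      rw [← Nat.cast_smul_eq_nsmul K]
      exact (weightedHomogeneousSubmodule K S.wv _).smul_mem _
        ((isWeightedHomogeneous_monomial _ _ _ rfl).mul (hX'.mul hd))

lemma der_weight (j : Fin n) {P : S.S0} {a : ℕ} (hP : P.IsWeightedHomogeneous S.wv a) :
    (S.der j P).IsWeightedHomogeneous S.wv (a + 1) := by
  rw [P.as_sum, map_sum]
  refine IsWeightedHomogeneous.sum _ _ _ fun α hα => ?_
  rw [show monomial α (coeff α P) = coeff α P • (monomial α 1 : S.S0) by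
    rw [smul_monomial, smul_eq_mul, mul_one], Derivation.map_smul,
    ← hP (MvPolynomial.mem_support_iff.1 hα)]
  exact (weightedHomogeneousSubmodule K S.wv _).smul_mem _ (S.der_weight_monomial j α)

lemma top_weight (j : Fin n) : (S.top j).IsWeightedHomogeneous S.wv p := by
  have h := (S.val_weight j 0).pow p
  rw [top]
  refine (weightedHomogeneousSubmodule K S.wv p).neg_mem ?_
  simpa [pot] using h

/-- Homogeneous elements of the regular representation. -/
def MD (k : ℕ) : Submodule K S.Mod where
  carrier := {m | ∀ β, (mwt β ≤ k → (m β).IsWeightedHomogeneous S.wv (k - mwt β)) ∧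
    (k < mwt β → m β = 0)}
  add_mem' := fun {x y} hx hy β =>
    ⟨fun h => ((hx β).1 h).add ((hy β).1 h), fun h => by simp [(hx β).2 h, (hy β).2 h]⟩
  zero_mem' := fun β => ⟨fun _ => isWeightedHomogeneous_zero _ _ _, fun _ => rfl⟩
  smul_mem' := fun c x hx β =>
    ⟨fun h => (weightedHomogeneousSubmodule K S.wv _).smul_mem c ((hx β).1 h),
      fun h => by simp [(hx β).2 h]⟩

/-- Operators of a given degree. -/
def ED (a : ℕ) : Submodule K (Module.End K S.Mod) where
  carrier := {T | ∀ k, ∀ m ∈ S.MD k, T m ∈ S.MD (a + k)}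
  add_mem' := fun hT hU k m hm => add_mem (hT k m hm) (hU k m hm)
  zero_mem' := fun _ _ _ => zero_mem _
  smul_mem' := fun c _ hT k m hm => Submodule.smul_mem _ c (hT k m hm)

lemma ED_mul {a b : ℕ} {T U : Module.End K S.Mod} (hT : T ∈ S.ED a) (hU : U ∈ S.ED b) :
    T * U ∈ S.ED (a + b) := fun k m hm => by
  rw [add_assoc]
  exact hT _ _ (hU k m hm)

lemma ED_one : (1 : Module.End K S.Mod) ∈ S.ED 0 := fun k m hm => by
  rw [zero_add]; exact hm

lemma L_ED {s : S.S0} {a : ℕ} (hs : s.IsWeightedHomogeneous S.wv a) : S.L s ∈ S.ED a :=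
  fun k m hm β => by
    rw [L_apply]
    refine ⟨fun h => ?_, fun h => by rw [(hm β).2 (by omega), mul_zero]⟩
    rcases Nat.lt_or_ge k (mwt β) with h' | h'
    · rw [(hm β).2 h', mul_zero]; exact isWeightedHomogeneous_zero _ _ _
    · rw [show a + k - mwt β = a + (k - mwt β) by omega]
      exact hs.mul ((hm β).1 h')

lemma mwt_update (β : Fin n → Fin p) (j : Fin n) (b : Fin p) :
    mwt (Function.update β j b) + (β j : ℕ) = mwt β + b := by
  unfold mwt
  rw [← Finset.add_sum_erase _ _ (Finset.mem_univ j),
    ← Finset.add_sum_erase (f := fun i => (β i : ℕ)) _ (Finset.mem_univ j),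
    Finset.sum_congr rfl fun i hi => by
      rw [Function.update_of_ne (Finset.ne_of_mem_erase hi)]]
  simp only [Function.update_self]
  omega

lemma D_ED (j : Fin n) : S.D j ∈ S.ED 1 := fun k m hm β => by
  rw [D, LinearMap.add_apply, Pi.add_apply, dh_apply, sh_apply]
  have h1 := mwt_update β j ⟨(β j : ℕ) - 1, lt_of_le_of_lt (Nat.sub_le _ _) (β j).2⟩
  have h2 := mwt_update β j ⟨p - 1, Nat.sub_lt (Fact.out : p.Prime).pos Nat.one_pos⟩
  have hp := (Fact.out : p.Prime).pos
  simp only at h1 h2
  change mwt (below j β) + _ = _ at h1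
  change mwt (topIdx j β) + _ = _ at h2
  refine ⟨fun h => IsWeightedHomogeneous.add ?_ ?_, fun h => ?_⟩
  · rcases Nat.lt_or_ge k (mwt β) with h' | h'
    · rw [(hm β).2 h', map_zero]; exact isWeightedHomogeneous_zero _ _ _
    · rw [show 1 + k - mwt β = k - mwt β + 1 by omega]
      exact S.der_weight j ((hm β).1 h')
  · split_ifs with h0
    · rcases Nat.lt_or_ge k (mwt (topIdx j β)) with h' | h'
      · rw [(hm _).2 h', mul_zero]; exact isWeightedHomogeneous_zero _ _ _
      · rw [show 1 + k - mwt β = p + (k - mwt (topIdx j β)) by omega]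
        exact (S.top_weight j).mul ((hm _).1 h')
    · rcases Nat.lt_or_ge k (mwt (below j β)) with h' | h'
      · rw [(hm _).2 h']; exact isWeightedHomogeneous_zero _ _ _
      · rw [show 1 + k - mwt β = k - mwt (below j β) by omega]
        exact (hm _).1 h'
  · rw [(hm β).2 (by omega), map_zero, zero_add]
    split_ifs with h0
    · rw [(hm _).2 (by omega), mul_zero]
    · exact (hm _).2 (by omega)

lemma Dp_ED (β : Fin n → ℕ) : S.Dp β ∈ S.ED (∑ j, β j) := by
  rw [Dp_eq_list, ← List.sum_ofFn, List.ofFn_eq_map]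
  induction List.finRange n with
  | nil => exact S.ED_one
  | cons j l ih =>
    simp only [List.map_cons, List.prod_cons, List.sum_cons]
    refine S.ED_mul ?_ ih
    induction β j with
    | zero => rw [pow_zero]; exact S.ED_one
    | succ k ihk => rw [pow_succ]; exact S.ED_mul ihk (S.D_ED j)

lemma psi_ED {a : ℕ} {m : S.Mod} (hm : m ∈ S.MD a) : S.psi m ∈ S.ED a := by
  rw [psi_apply]
  refine Submodule.sum_mem _ fun β _ => ?_
  rcases Nat.lt_or_ge a (mwt β) with h | h
  · rw [(hm β).2 h, map_zero, zero_mul]; exact zero_mem _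
  · have := S.ED_mul (S.L_ED ((hm β).1 h)) (S.Dp_ED (nat β))
    rw [show (∑ j, nat β j) = mwt β from rfl, Nat.sub_add_cancel h] at this
    exact this

lemma eb_zero_mem : S.eb zidx ∈ S.MD 0 := fun β => by
  classical
  refine ⟨fun h => ?_, fun h => ?_⟩
  · rw [eb, Pi.single_apply]
    split_ifs
    · rw [show 0 - mwt β = 0 from Nat.zero_sub _]; exact isWeightedHomogeneous_one _ _
    · exact isWeightedHomogeneous_zero _ _ _
  · rw [eb, Pi.single_eq_of_ne]
    rintro rfl
    simp [mwt, zidx] at h

end Sys

end Vale.Agent.P200.Prime
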