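import Vale.Agent.P200.Prime.Model

/-!
Regular sequences of parameters on submodules of free modules, and kernels of covers.
-/

namespace Vale.Agent.P200.Prime

open MvPolynomial

variable {K : Type*} [Field K] {r : ℕ} {R : Type*} [Ring R] [Algebra (Par K r) R]
variable {F : Type*} [AddCommGroup F] [Module R F] [Module (Par K r) F]
  [IsScalarTower (Par K r) R F]

variable (K r) in
/-- The submodule `∑_{i<k} X i • M`. -/
def Q (M : Submodule R F) (k : ℕ) : Submodule R F where
  carrier := {x | ∃ u : Fin r → F, (∀ i, u i ∈ M) ∧ (∀ i : Fin r, k ≤ (i : ℕ) → u i = 0) ∧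
    ∑ i, (X i : Par K r) • u i = x}
  add_mem' := by
    rintro x y ⟨u, hu, hu', rfl⟩ ⟨w, hw, hw', rfl⟩
    exact ⟨u + w, fun i => add_mem (hu i) (hw i), fun i h => by simp [hu' i h, hw' i h],
      by simp [smul_add, Finset.sum_add_distrib]⟩
  zero_mem' := ⟨0, fun i => zero_mem _, fun i _ => rfl, by simp⟩
  smul_mem' := by
    rintro a x ⟨u, hu, hu', rfl⟩
    refine ⟨fun i => a • u i, fun i => M.smul_mem a (hu i), fun i h => by simp [hu' i h], ?_⟩
    rw [Finset.smul_sum]
    refine Finset.sum_congr rfl fun i _ => ?_
    rw [← algebraMap_smul R (X i : Par K r) (a • u i), ← algebraMap_smul R (X i : Par K r) (u i),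
      smul_smul, smul_smul, Algebra.commutes]

lemma smul_par_mem {M : Submodule R F} (c : Par K r) {x : F} (hx : x ∈ M) : c • x ∈ M := by
  rw [← algebraMap_smul R c x]
  exact M.smul_mem _ hx

lemma mem_Q {M : Submodule R F} {k : ℕ} {i : Fin r} (hi : (i : ℕ) < k) {x : F} (hx : x ∈ M) :
    (X i : Par K r) • x ∈ Q K r M k := by
  classical
  refine ⟨Pi.single i x, fun j => ?_, fun j hj => ?_, ?_⟩
  · rcases eq_or_ne j i with rfl | h
    · simpa using hx
    · simp [h]
  · rw [Pi.single_eq_of_ne]
    rintro rfl
    omega
  · rw [Finset.sum_eq_single i (fun j _ hj => by simp [hj]) (by simp)]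
    simp

lemma Q_le {M : Submodule R F} {k : ℕ} : Q K r M k ≤ M := by
  rintro x ⟨u, hu, -, rfl⟩
  exact sum_mem fun i _ => smul_par_mem _ (hu i)

lemma Q_mono {M M' : Submodule R F} (h : M ≤ M') {k k' : ℕ} (hk : k ≤ k') :
    Q K r M k ≤ Q K r M' k' := by
  rintro x ⟨u, hu, hu', rfl⟩
  exact ⟨u, fun i => h (hu i), fun i hi => hu' i (le_trans hk hi), rfl⟩

variable (K r) in
/-- The first `j` parameters form a regular sequence on `M`. -/
def Reg (M : Submodule R F) (j : ℕ) : Prop :=
  ∀ i : Fin r, (i : ℕ) < j → ∀ x ∈ M, (X i : Par K r) • x ∈ Q K r M i → x ∈ Q K r M i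

variable {F' : Type*} [AddCommGroup F'] [Module R F'] [Module (Par K r) F']
  [IsScalarTower (Par K r) R F']

omit [IsScalarTower (Par K r) R F'] in
lemma map_smul_par [IsScalarTower (Par K r) R F'] (φ : F' →ₗ[R] F) (c : Par K r) (x : F') :
    φ (c • x) = c • φ x := by
  rw [← algebraMap_smul R c x, map_smul, algebraMap_smul]

/-- The kernel of a cover of `M` by a free module has one more regular parameter. -/
theorem reg_ker (φ : F' →ₗ[R] F) (M : Submodule R F) (hM : LinearMap.range φ = M) {j : ℕ}
    (hreg : Reg K r M j) (htop : Reg K r (⊤ : Submodule R F') (j + 1)) :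
    Reg K r (LinearMap.ker φ) (j + 1) := by
  classical
  have S : ∀ k, k ≤ j → ∀ u : Fin r → F', (∀ i : Fin r, k ≤ (i : ℕ) → u i = 0) →
      φ (∑ i, (X i : Par K r) • u i) = 0 → ∑ i, (X i : Par K r) • u i ∈ Q K r (LinearMap.ker φ) k := by
    intro k
    induction k with
    | zero =>
      intro _ u hu _
      rw [Finset.sum_eq_zero fun i _ => by rw [hu i (Nat.zero_le _), smul_zero]]
      exact zero_mem _
    | succ k ih =>
      intro hk u hu hφ
      rcases Nat.lt_or_ge k r with hkr | hkr
      · set i₀ : Fin r := ⟨k, hkr⟩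
        set u₀ := Function.update u i₀ 0
        have hu₀ : ∀ i : Fin r, k ≤ (i : ℕ) → u₀ i = 0 := by
          intro i hi
          rcases eq_or_ne i i₀ with rfl | hne
          · exact Function.update_self ..
          · rw [show u₀ i = u i from Function.update_of_ne hne ..]
            refine hu i ?_
            have : (i : ℕ) ≠ k := fun h => hne (Fin.ext h)
            omega
        have hsplit : ∑ i, (X i : Par K r) • u i =
            (X i₀ : Par K r) • u i₀ + ∑ i, (X i : Par K r) • u₀ i := by
          rw [← Finset.add_sum_erase _ _ (Finset.mem_univ i₀),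
            ← Finset.add_sum_erase (f := fun i => (X i : Par K r) • u₀ i) _ (Finset.mem_univ i₀)]
          simp only [u₀, Function.update_self, smul_zero, zero_add]
          congr 1
          exact Finset.sum_congr rfl fun i hi => by
            rw [Function.update_of_ne (Finset.ne_of_mem_erase hi)]
        have hmem : (X i₀ : Par K r) • φ (u i₀) ∈ Q K r M k := by
          refine ⟨fun i => -φ (u₀ i), fun i => neg_mem (hM ▸ ⟨_, rfl⟩),
            fun i hi => by simp [hu₀ i hi], ?_⟩
          have h0 := hφ
          rw [hsplit, map_add, map_smul_par, map_sum] at h0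
          simp only [map_smul_par] at h0
          simp only [smul_neg, Finset.sum_neg_distrib]
          exact neg_eq_of_add_eq_zero_left h0
        obtain ⟨w, hw, hw', hweq⟩ :=
          hreg i₀ (Nat.lt_of_succ_le hk) (φ (u i₀)) (hM ▸ ⟨_, rfl⟩) hmem
        choose W hW using fun i => (hM ▸ hw i : w i ∈ LinearMap.range φ)
        set W' : Fin r → F' := fun i => if k ≤ (i : ℕ) then 0 else W i
        have hW' : ∀ i, φ (W' i) = w i := fun i => by
          simp only [W']
          split_ifs with h
          · rw [map_zero, hw' i h]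
          · exact hW i
        set u' := u i₀ - ∑ i, (X i : Par K r) • W' i
        have hker : u' ∈ LinearMap.ker φ := by
          rw [LinearMap.mem_ker, map_sub, map_sum]
          simp only [map_smul_par, hW', hweq, sub_self]
        have heq : ∑ i, (X i : Par K r) • u i = (X i₀ : Par K r) • u' +
            ∑ i, (X i : Par K r) • (u₀ i + (X i₀ : Par K r) • W' i) := by
          rw [hsplit]
          simp only [u', smul_sub, Finset.smul_sum, smul_add, Finset.sum_add_distrib,
            smul_comm (X i₀ : Par K r)]
          abel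
        rw [heq] at hφ ⊢
        refine add_mem (mem_Q (Nat.lt_succ_self k) hker) (Q_mono le_rfl (Nat.le_succ k)
          (ih (by omega) _ (fun i hi => by simp [hu₀ i hi, W', hi]) ?_))
        rwa [map_add, map_smul_par, LinearMap.mem_ker.1 hker, smul_zero, zero_add] at hφ
      · exact Q_mono le_rfl (Nat.le_succ k)
          (ih (by omega) u (fun i hi => absurd i.2 (by omega)) hφ)
  intro i hi x hx hix
  obtain ⟨u, -, hu', hueq⟩ := htop i hi x Submodule.mem_top
    (Q_mono le_top le_rfl hix)
  rw [← hueq] at hx ⊢
  exact S i (by omega) u hu' (LinearMap.mem_ker.1 hx)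

/-- Expressions in a polynomial ideal of the first `k` variables. -/
lemma mem_span_vars_iff {f : Par K r} {k : ℕ} :
    f ∈ Ideal.span (X '' {i : Fin r | (i : ℕ) < k}) ↔
      ∀ m ∈ f.support, ∃ i : Fin r, (i : ℕ) < k ∧ m i ≠ 0 := by
  rw [MvPolynomial.mem_ideal_span_X_image]
  rfl

/-- Coordinates of `Q` in a basis over the parameters. -/
lemma repr_mem_of_mem_Q {ι : Type*} [Fintype ι] (b : ι → F) {M : Submodule R F}
    (hM : ∀ x ∈ M, ∃ c : ι → Par K r, ∑ a, c a • b a = x) {k : ℕ} {x : F} (hx : x ∈ Q K r M k) :
    ∃ c : ι → Par K r, (∀ a, c a ∈ Ideal.span (X '' {i : Fin r | (i : ℕ) < k})) ∧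
      ∑ a, c a • b a = x := by
  obtain ⟨u, hu, hu', rfl⟩ := hx
  choose c hc using fun i => hM _ (hu i)
  refine ⟨fun a => ∑ i ∈ Finset.univ.filter (fun i : Fin r => (i : ℕ) < k), X i * c i a,
    fun a => sum_mem fun i hi =>
      Ideal.mul_mem_right _ _ (Ideal.subset_span ⟨i, (Finset.mem_filter.1 hi).2, rfl⟩), ?_⟩
  simp only [Finset.sum_smul, mul_smul]
  rw [Finset.sum_comm]
  simp only [← Finset.smul_sum, hc]
  refine Finset.sum_filter_of_ne fun i _ hne => ?_
  by_contra h
  exact hne (by rw [hu' i (by omega), smul_zero])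

lemma mem_Q_of_repr {ι : Type*} [Fintype ι] (b : ι → F) {M : Submodule R F}
    (hb : ∀ a, b a ∈ M) {k : ℕ} (c : ι → Par K r)
    (hc : ∀ a, c a ∈ Ideal.span (X '' {i : Fin r | (i : ℕ) < k})) :
    ∑ a, c a • b a ∈ Q K r M k := by
  refine sum_mem fun a _ => ?_
  have key : ∀ f ∈ Ideal.span ((X : Fin r → Par K r) '' {i : Fin r | (i : ℕ) < k}), ∀ y ∈ M,
      f • y ∈ Q K r M k := by
    intro f hf
    induction hf using Submodule.span_induction with
    | mem f hf =>
      obtain ⟨i, hi, rfl⟩ := hf
      exact fun y hy => mem_Q hi hy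
    | zero => intro y _; simp
    | add f g _ _ hf hg => intro y hy; rw [add_smul]; exact add_mem (hf y hy) (hg y hy)
    | smul t f _ hf =>
      intro y hy
      rw [smul_eq_mul, mul_comm, mul_smul]
      exact hf _ (smul_par_mem t hy)
  exact key _ (hc a) _ (hb a)

/-- A free module has every sequence of distinct variables regular. -/
theorem reg_top_of_basis {ι : Type*} [Fintype ι] (b : Module.Basis ι (Par K r) F) (j : ℕ) :
    Reg K r (⊤ : Submodule R F) j := by
  intro i _ x _ hx
  obtain ⟨c, hc, hcx⟩ := repr_mem_of_mem_Q (fun a => b a)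
    (fun y _ => ⟨fun a => b.repr y a, b.sum_repr y⟩) hx
  have hrepr : ∀ a, c a = X i * b.repr x a := fun a => by
    have := congrArg (fun z => b.repr z a) hcx
    rw [congrFun (b.repr_sum_self c) a, map_smul, Finsupp.smul_apply, smul_eq_mul] at this
    exact this
  rw [← b.sum_repr x]
  refine mem_Q_of_repr (fun a => b a) (fun a => Submodule.mem_top) _ fun a => ?_
  have h := hc a
  rw [hrepr, mem_span_vars_iff] at h
  rw [mem_span_vars_iff]
  intro m hm
  obtain ⟨l, hl, hl'⟩ := h (Finsupp.single i 1 + m) (by
    rw [MvPolynomial.mem_support_iff] at hm ⊢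
    rwa [MvPolynomial.coeff_X_mul])
  refine ⟨l, hl, ?_⟩
  have hne : i ≠ l := by rintro rfl; omega
  simpa [Finsupp.single_eq_of_ne hne.symm] using hl'

/-- A family with independent residues is independent over the parameters on a regular module. -/
theorem indep_of_regular {ι : Type*} [Fintype ι] (b : ι → F) {M : Submodule R F}
    (hb : ∀ a, b a ∈ M) (hreg : Reg K r M r)
    (hres : ∀ c : ι → K, ∑ a, (C (c a) : Par K r) • b a ∈ Q K r M r → c = 0)
    (c : ι → Par K r) (hc : ∑ a, c a • b a = 0) : c = 0 := by
  have main : ∀ j, j ≤ r → ∀ c : ι → Par K r, ∑ a, c a • b a ∈ Q K r M j →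
      ∀ a, c a ∈ Ideal.span (X '' {i : Fin r | (i : ℕ) < j}) := by
    intro j hj
    induction hd : r - j generalizing j with
    | zero =>
      rw [show j = r by omega]
      intro c hc a
      set e : ι → K := fun a => constantCoeff (c a)
      have h1 : ∀ a, c a - C (e a) ∈ Ideal.span (X '' {i : Fin r | (i : ℕ) < r}) := by
        intro a
        rw [mem_span_vars_iff]
        intro m hm
        have hm0 : m ≠ 0 := by
          rintro rfl
          rw [MvPolynomial.mem_support_iff, coeff_sub, coeff_C, if_pos rfl] at hm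
          exact hm (sub_self _)
        obtain ⟨i, hi⟩ := Finsupp.ne_iff.1 hm0
        exact ⟨i, i.2, by simpa using hi⟩
      have h2 := mem_Q_of_repr b hb _ h1
      simp only [sub_smul, Finset.sum_sub_distrib] at h2
      have h3 := sub_mem hc h2
      rw [sub_sub_cancel] at h3
      have := congrFun (hres e h3) a
      have h := h1 a
      rwa [show e a = 0 from this, map_zero, sub_zero] at h
    | succ d ih =>
      intro c hc a
      set i₀ : Fin r := ⟨j, by omega⟩
      set I : Ideal (Par K r) := Ideal.span (X '' {i : Fin r | (i : ℕ) < j})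
      have hins : Ideal.span ((X : Fin r → Par K r) '' {i : Fin r | (i : ℕ) < j + 1}) =
          Ideal.span {X i₀} ⊔ I := by
        rw [← Ideal.span_insert, ← Set.image_insert_eq]
        congr 2
        ext i
        simp [i₀, Fin.ext_iff]
        omega
      have step : ∀ n, ∀ c : ι → Par K r, ∑ a, c a • b a ∈ Q K r M j →
          ∀ a, ∃ f, c a - X i₀ ^ n * f ∈ I := by
        intro n
        induction n with
        | zero => exact fun c _ a => ⟨c a, by simp⟩
        | succ n ihn =>
          intro c hc
          have h1 := fun a => ih (j + 1) (by omega) (by omega) c (Q_mono le_rfl (Nat.le_succ j) hc) a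
          simp only [hins, Ideal.mem_span_singleton_sup] at h1
          choose g y hy hgy using h1
          have h2 : (X i₀ : Par K r) • ∑ a, g a • b a ∈ Q K r M j := by
            have := sub_mem hc (mem_Q_of_repr b hb y hy)
            rw [← Finset.sum_sub_distrib] at this
            rw [Finset.smul_sum]
            convert this using 1
            refine Finset.sum_congr rfl fun a _ => ?_
            rw [← sub_smul, smul_smul]
            congr 1
            rw [← hgy a]
            ring
          have h3 := hreg i₀ i₀.2 _ (sum_mem fun a _ => smul_par_mem _ (hb a)) h2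
          intro a
          obtain ⟨f, hf⟩ := ihn g h3 a
          refine ⟨f, ?_⟩
          have h4 := I.add_mem (I.mul_mem_left (X i₀) hf) (hy a)
          convert h4 using 1
          rw [← hgy a]
          ring
      rw [mem_span_vars_iff]
      intro m hm
      obtain ⟨f, hf⟩ := step (m i₀ + 1) c hc a
      rw [mem_span_vars_iff] at hf
      apply hf
      rw [MvPolynomial.mem_support_iff] at hm ⊢
      rw [coeff_sub, X_pow_eq_monomial, coeff_monomial_mul', if_neg, sub_zero]
      · exact hm
      · intro hle
        have := hle i₀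
        simp at this
  funext a
  have h := main 0 (Nat.zero_le _) c (by rw [hc]; exact zero_mem _) a
  rw [mem_span_vars_iff] at h
  refine MvPolynomial.ext _ _ fun m => ?_
  by_contra hne
  obtain ⟨i, hi, -⟩ := h m (MvPolynomial.mem_support_iff.2 (by simpa using hne))
  omega

end Vale.Agent.P200.Prime
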